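import Vale.Agent.P247.H574.Sta2

/-!
# P247: a smooth partition of unity for the lattice, with arbitrarily small scale
-/

open scoped ContDiff Topology
open Set MeasureTheory Filter Metric

noncomputable section

namespace Vale.Agent.P247.H710

open Vale.Agent.P247.H74 Vale.Agent.P247.H574

/-- one-dimensional bump with `∑ b1 (t + n) = 1` -/
def b1 (t : ℝ) : ℝ := Real.smoothTransition (t + 1) - Real.smoothTransition t

theorem b1_smooth : ContDiff ℝ ∞ b1 := by
  have h : ContDiff ℝ ∞ Real.smoothTransition := Real.smoothTransition.contDiff (n := ⊤)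
  exact (h.comp (contDiff_id.add contDiff_const)).sub h

theorem b1_nonneg (t : ℝ) : 0 ≤ b1 t := sub_nonneg.2 (Real.smoothTransition.monotone (by linarith))

theorem b1_zero_of {t : ℝ} (h : t ≤ -1 ∨ 1 ≤ t) : b1 t = 0 := by
  unfold b1
  rcases h with h | h
  · rw [Real.smoothTransition.zero_of_nonpos (by linarith),
      Real.smoothTransition.zero_of_nonpos (by linarith), sub_zero]
  · rw [Real.smoothTransition.one_of_one_le (by linarith),
      Real.smoothTransition.one_of_one_le h, sub_self]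

theorem b1_zero : b1 0 = 1 := by
  unfold b1
  rw [zero_add, Real.smoothTransition.one, Real.smoothTransition.zero, sub_zero]

theorem hasSum_b1 (t : ℝ) : HasSum (fun n : ℤ => b1 (t + n)) 1 := by
  have h0 : ∀ n : ℤ, n ∉ ({-⌊t⌋ - 1, -⌊t⌋} : Finset ℤ) → b1 (t + n) = 0 := by
    intro n hn
    simp only [Finset.mem_insert, Finset.mem_singleton, not_or] at hn
    have h1 := Int.floor_le t
    have h2 := Int.lt_floor_add_one t
    apply b1_zero_of
    rcases lt_or_ge n (-⌊t⌋) with h | h
    · left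
      have : n ≤ -⌊t⌋ - 2 := by omega
      have : (n : ℝ) ≤ -⌊t⌋ - 2 := by exact_mod_cast this
      linarith
    · right
      have : -⌊t⌋ + 1 ≤ n := by omega
      have : (-⌊t⌋ + 1 : ℝ) ≤ n := by exact_mod_cast this
      linarith
  have h : HasSum (fun n : ℤ => b1 (t + n))
      (∑ n ∈ ({-⌊t⌋ - 1, -⌊t⌋} : Finset ℤ), b1 (t + n)) := hasSum_sum_of_ne_finset_zero h0
  convert h using 1
  rw [Finset.sum_pair (by omega)]
  have h1 := Int.floor_le t
  have h2 := Int.lt_floor_add_one t
  push_cast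
  unfold b1
  rw [Real.smoothTransition.zero_of_nonpos (show t + (-(⌊t⌋ : ℝ) - 1) ≤ 0 by linarith),
    Real.smoothTransition.one_of_one_le (show 1 ≤ t + (-(⌊t⌋ : ℝ)) + 1 by linarith),
    show t + (-(⌊t⌋ : ℝ) - 1) + 1 = t + (-(⌊t⌋ : ℝ)) by ring]
  ring

/-- the four-dimensional bump -/
def bet (x : R4) : ℝ := ∏ i, b1 (x i)

theorem bet_smooth : ContDiff ℝ ∞ bet := by
  unfold bet
  exact contDiff_prod fun i _ => b1_smooth.comp (contDiff_apply ℝ ℝ i)

theorem bet_nonneg (x : R4) : 0 ≤ bet x := Finset.prod_nonneg fun _ _ => b1_nonneg _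

theorem bet_zero : bet 0 = 1 := by simp [bet, b1_zero]

theorem bet_zero_of {x : R4} (h : 1 ≤ ‖x‖) : bet x = 0 := by
  by_contra hne
  have h1 : ∀ i, |x i| < 1 := by
    intro i
    by_contra hi
    push Not at hi
    apply hne
    refine Finset.prod_eq_zero (Finset.mem_univ i) (b1_zero_of ?_)
    rcases le_abs'.1 hi with h | h
    · exact Or.inl h
    · exact Or.inr h
  have h2 : ‖x‖ < 1 := by
    rw [pi_norm_lt_iff one_pos]
    exact fun i => h1 i
  linarith

theorem bet_supp : tsupport bet ⊆ closedBall 0 1 := by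
  apply closure_minimal _ isClosed_closedBall
  intro x hx
  by_contra hn
  rw [mem_closedBall_zero_iff, not_le] at hn
  exact hx (bet_zero_of hn.le)

theorem bet_compact : HasCompactSupport bet :=
  (isCompact_closedBall (0 : R4) 1).of_isClosed_subset (isClosed_tsupport _) bet_supp

theorem hasSum_bet (x : R4) : HasSum (fun k : Fin 4 → ℤ => bet (tr k x)) 1 := by
  classical
  -- finite windows in every coordinate
  have h0 : ∀ i, ∃ s : Finset ℤ, (∀ n ∉ s, b1 (x i + n) = 0) ∧ ∑ n ∈ s, b1 (x i + n) = 1 := by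
    intro i
    have h1 := Int.floor_le (x i)
    have h2 := Int.lt_floor_add_one (x i)
    have h0 : ∀ n : ℤ, n ∉ ({-⌊x i⌋ - 1, -⌊x i⌋} : Finset ℤ) → b1 (x i + n) = 0 := by
      intro n hn
      simp only [Finset.mem_insert, Finset.mem_singleton, not_or] at hn
      apply b1_zero_of
      rcases lt_or_ge n (-⌊x i⌋) with h | h
      · left
        have : n ≤ -⌊x i⌋ - 2 := by omega
        have : (n : ℝ) ≤ -⌊x i⌋ - 2 := by exact_mod_cast this
        linarith
      · right
        have : -⌊x i⌋ + 1 ≤ n := by omega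
        have : (-⌊x i⌋ + 1 : ℝ) ≤ n := by exact_mod_cast this
        linarith
    exact ⟨_, h0, (hasSum_sum_of_ne_finset_zero h0).unique (hasSum_b1 (x i))⟩
  choose s hs hs1 using h0
  have h1 : ∀ k ∉ Fintype.piFinset s, bet (tr k x) = 0 := by
    intro k hk
    rw [Fintype.mem_piFinset] at hk
    push Not at hk
    obtain ⟨i, hi⟩ := hk
    exact Finset.prod_eq_zero (Finset.mem_univ i) (hs i _ hi)
  have h2 : HasSum (fun k : Fin 4 → ℤ => bet (tr k x))
      (∑ k ∈ Fintype.piFinset s, bet (tr k x)) := hasSum_sum_of_ne_finset_zero h1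
  convert h2 using 1
  have h3 := Finset.prod_univ_sum s (fun i n => b1 (x i + (n : ℤ)))
  simp only [hs1, Finset.prod_const_one] at h3
  rw [h3]
  rfl

/-- a smooth partition of unity for the lattice `ℤ⁴` -/
structure IsPU (χ : R4 → ℝ) : Prop where
  smooth : ContDiff ℝ ∞ χ
  supp : HasCompactSupport χ
  sum : ∀ x, ∑' k : Fin 4 → ℤ, χ (tr k x) = 1

theorem bet_isPU : IsPU bet := ⟨bet_smooth, bet_compact, fun x => (hasSum_bet x).tsum_eq⟩

theorem tr_sub (k : Fin 4 → ℤ) (x : R4) : tr k x = x + fun i => (k i : ℝ) := rfl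

theorem tr_tr (k l : Fin 4 → ℤ) (x : R4) : tr k (tr l x) = tr (k + l) x := by
  funext i; simp only [tr, Pi.add_apply]; push_cast; ring

theorem tr_zero (x : R4) : tr 0 x = x := by funext i; simp [tr]

theorem tr_neg_cancel (k : Fin 4 → ℤ) (x : R4) : tr k (tr (-k) x) = x := by
  rw [tr_tr, add_neg_cancel, tr_zero]

theorem tr_neg_cancel' (k : Fin 4 → ℤ) (x : R4) : tr (-k) (tr k x) = x := by
  rw [tr_tr, neg_add_cancel, tr_zero]

/-- only finitely many lattice vectors move a bounded set to a bounded set -/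
theorem exists_window (K : Set R4) (hK : Bornology.IsBounded K) :
    ∃ s : Finset (Fin 4 → ℤ), (∀ k, k ∈ s ↔ -k ∈ s) ∧ ∀ k, ∀ x ∈ K, tr k x ∈ K → k ∈ s := by
  obtain ⟨R, hR⟩ := hK.exists_norm_le
  obtain ⟨n, hn⟩ := exists_nat_gt (2 * R)
  refine ⟨Finset.Icc (fun _ => -(n : ℤ)) (fun _ => (n : ℤ)), ?_, ?_⟩
  · intro k
    simp only [Finset.mem_Icc, Pi.le_def, Pi.neg_apply]
    constructor
    · rintro ⟨h1, h2⟩
      exact ⟨fun i => by have := h2 i; omega, fun i => by have := h1 i; omega⟩
    · rintro ⟨h1, h2⟩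
      exact ⟨fun i => by have := h2 i; omega, fun i => by have := h1 i; omega⟩
  · intro k x hx hkx
    simp only [Finset.mem_Icc, Pi.le_def]
    have key : ∀ i, |(k i : ℝ)| ≤ 2 * R := by
      intro i
      have e1 : (k i : ℝ) = tr k x i - x i := by simp [tr]
      rw [e1]
      have h1 : |tr k x i| ≤ R := (norm_le_pi_norm (tr k x) i).trans (hR _ hkx)
      have h2 : |x i| ≤ R := (norm_le_pi_norm x i).trans (hR _ hx)
      calc |tr k x i - x i| ≤ |tr k x i| + |x i| := abs_sub _ _
        _ ≤ 2 * R := by linarith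
    constructor
    · intro i
      have := (abs_le.1 (key i)).1
      have h3 : (-(n : ℤ) : ℝ) < (k i : ℝ) := by push_cast; linarith
      exact_mod_cast h3.le
    · intro i
      have := (abs_le.1 (key i)).2
      have h3 : (k i : ℝ) < (n : ℤ) := by push_cast; linarith
      exact_mod_cast h3.le

end Vale.Agent.P247.H710
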