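import Vale.Agent.P247.H710.CurD
import Vale.Agent.P247.H574.Sta3
import Vale.Agent.P247.H690.END.Tori

/-!
# P247, package COUNT, part A: geometry of the branches
-/

open scoped ContDiff Topology
open Set MeasureTheory Filter Metric

noncomputable section

namespace Vale.Agent.P247.H710

open Vale.Agent.P247.H74 Vale.Agent.P247.H574

variable {D : Data} {K : Set R4} {x : R4} {N : ℕ} {u : Fin N → ℂ → R4} {ε : ℝ}

theorem brs_cont (hB : Brs D K x N u ε) (l : Fin N) : ContinuousOn (u l) (ball 0 2) :=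
  (hB.disc l).smooth.continuousOn

theorem brs_ne (hB : Brs D K x N u ε) (l : Fin N) {z : ℂ} (hz : z ∈ ball (0 : ℂ) 2) (h0 : z ≠ 0) :
    u l z ≠ x := by
  intro h
  have h1 := hB.zero l
  rw [← h1] at h
  rcases hB.inj l l z hz 0 (by simp) h with h2 | h2
  · exact h0 h2.2
  · exact h0 h2.1

/-- the branches are away from `x` outside small discs -/
theorem brs_sep (hB : Brs D K x N u ε) {r : ℝ} (hr : 0 < r) : ∃ ε' > 0, ε' ≤ ε ∧
    ∀ l, ∀ z ∈ ball (0 : ℂ) 2, r ≤ ‖z‖ → ε' ≤ dist (u l z) x := by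
  have h1 : ∀ l, ∃ ε' > 0, ∀ z ∈ closedBall (0 : ℂ) 1, r ≤ ‖z‖ → ε' ≤ dist (u l z) x := by
    intro l
    have hc : IsCompact (closedBall (0 : ℂ) 1 \ ball 0 r) :=
      (isCompact_closedBall _ _).diff isOpen_ball
    have hsub : closedBall (0 : ℂ) 1 \ ball 0 r ⊆ ball 0 2 := fun z hz =>
      closedBall_subset_ball (by norm_num) hz.1
    have hcont : ContinuousOn (fun z => dist (u l z) x) (closedBall (0 : ℂ) 1 \ ball 0 r) :=
      (continuous_id.dist continuous_const).comp_continuousOn ((brs_cont hB l).mono hsub)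
    rcases (closedBall (0 : ℂ) 1 \ ball 0 r).eq_empty_or_nonempty with he | hne
    · refine ⟨1, one_pos, fun z hz hrz => ?_⟩
      exfalso
      have : z ∈ closedBall (0 : ℂ) 1 \ ball 0 r :=
        ⟨hz, by rw [mem_ball_zero_iff, not_lt]; exact hrz⟩
      rw [he] at this
      exact this
    · obtain ⟨z₀, hz₀, hmin⟩ := hc.exists_isMinOn hne hcont
      refine ⟨dist (u l z₀) x, ?_, fun z hz hrz => ?_⟩
      · apply dist_pos.2
        apply brs_ne hB l (hsub hz₀)
        intro h0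
        rw [h0] at hz₀
        exact hz₀.2 (mem_ball_self hr)
      · exact hmin ⟨hz, by rw [mem_ball_zero_iff, not_lt]; exact hrz⟩
  choose e' he' h2 using h1
  obtain ⟨ε', h3, h4, h5⟩ : ∃ ε' > 0, ε' ≤ ε ∧ ∀ l, ε' ≤ e' l := by
    have hN : (Finset.univ : Finset (Fin N)).Nonempty := ⟨⟨0, hB.posN⟩, Finset.mem_univ _⟩
    refine ⟨min ε (Finset.univ.inf' hN e'), ?_, min_le_left _ _, fun l => ?_⟩
    · refine lt_min hB.posε ?_
      rw [Finset.lt_inf'_iff]
      exact fun l _ => he' l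
    · exact (min_le_right _ _).trans (Finset.inf'_le _ (Finset.mem_univ l))
  refine ⟨ε', h3, h4, fun l z hz hrz => ?_⟩
  rcases le_or_gt ‖z‖ 1 with h | h
  · exact (h5 l).trans (h2 l z (by rwa [mem_closedBall_zero_iff]) hrz)
  · exact h4.trans (hB.far l z hz h.le)

/-- points of `K` near `x` lie on the small discs -/
theorem brs_cov (hB : Brs D K x N u ε) {r : ℝ} (hr : 0 < r) : ∃ ε' > 0, ε' ≤ ε ∧
    ∀ y ∈ ball x ε', y ∈ K → ∃ l, ∃ z : ℂ, ‖z‖ < r ∧ ‖z‖ < 1 ∧ u l z = y := by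
  obtain ⟨ε', h1, h2, h3⟩ := brs_sep hB hr
  refine ⟨ε', h1, h2, fun y hy hK => ?_⟩
  obtain ⟨l, z, hz, hzy⟩ := hB.cov y (ball_subset_ball h2 hy) hK
  rw [mem_ball_zero_iff] at hz
  refine ⟨l, z, ?_, hz, hzy⟩
  by_contra hcon
  push Not at hcon
  have h4 := h3 l z (by rw [mem_ball_zero_iff]; linarith) hcon
  rw [hzy] at h4
  rw [mem_ball] at hy
  linarith

/-- near a point of a branch, `K` is covered by the branch near that point -/
theorem brs_local (hB : Brs D K x N u ε) (l : Fin N) {z₀ : ℂ} (hz₀ : ‖z₀‖ < 1) (h0 : z₀ ≠ 0)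
    (hε : dist (u l z₀) x < ε) {r : ℝ} (hr : 0 < r) :
    ∃ ε' > 0, ∀ y ∈ ball (u l z₀) ε', y ∈ K → ∃ w : ℂ, ‖w‖ < r ∧ u l (z₀ + w) = y := by
  have hsub : closedBall (0 : ℂ) 1 ⊆ ball 0 2 := closedBall_subset_ball (by norm_num)
  have h1 : ∀ j, ∃ ε' > 0, ∀ z ∈ closedBall (0 : ℂ) 1, (j ≠ l ∨ r ≤ ‖z - z₀‖) →
      ε' ≤ dist (u j z) (u l z₀) := by
    intro j
    set A : Set ℂ := {z ∈ closedBall (0 : ℂ) 1 | j ≠ l ∨ r ≤ ‖z - z₀‖} with hA
    have hAc : IsCompact A := by
      apply (isCompact_closedBall (0 : ℂ) 1).of_isClosed_subset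
      · by_cases hj : j = l
        · have : A = closedBall 0 1 ∩ {z | r ≤ ‖z - z₀‖} := by
            ext z; simp [hA, hj]
          rw [this]
          exact isClosed_closedBall.inter
            (isClosed_le continuous_const (continuous_id.sub continuous_const).norm)
        · have : A = closedBall 0 1 := by
            ext z; simp [hA, hj]
          rw [this]
          exact isClosed_closedBall
      · exact fun z hz => hz.1
    have hcont : ContinuousOn (fun z => dist (u j z) (u l z₀)) A :=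
      (continuous_id.dist continuous_const).comp_continuousOn
        ((brs_cont hB j).mono fun z hz => hsub hz.1)
    rcases A.eq_empty_or_nonempty with he | hne
    · refine ⟨1, one_pos, fun z hz hrz => ?_⟩
      exfalso
      have : z ∈ A := ⟨hz, hrz⟩
      rw [he] at this
      exact this
    · obtain ⟨z₁, hz₁, hmin⟩ := hAc.exists_isMinOn hne hcont
      refine ⟨dist (u j z₁) (u l z₀), ?_, fun z hz hrz => hmin ⟨hz, hrz⟩⟩
      apply dist_pos.2
      intro heq
      rcases hB.inj j l z₁ (hsub hz₁.1) z₀ (by rw [mem_ball_zero_iff]; linarith) heq with h2 | h2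
      · rcases hz₁.2 with h3 | h3
        · exact h3 h2.1
        · rw [h2.2, sub_self, norm_zero] at h3
          linarith
      · exact h0 h2.2
  choose e' he' h2 using h1
  have hN : (Finset.univ : Finset (Fin N)).Nonempty := ⟨l, Finset.mem_univ _⟩
  refine ⟨min (ε - dist (u l z₀) x) (Finset.univ.inf' hN e'), ?_, fun y hy hK => ?_⟩
  · refine lt_min (by linarith) ?_
    rw [Finset.lt_inf'_iff]
    exact fun l _ => he' l
  · have hy1 : dist y (u l z₀) < ε - dist (u l z₀) x := lt_of_lt_of_le hy (min_le_left _ _)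
    have hy2 : y ∈ ball x ε := by
      rw [mem_ball]
      calc dist y x ≤ dist y (u l z₀) + dist (u l z₀) x := dist_triangle _ _ _
        _ < ε := by linarith
    obtain ⟨j, z, hz, hzy⟩ := hB.cov y hy2 hK
    have hj : ¬ (j ≠ l ∨ r ≤ ‖z - z₀‖) := by
      intro hcon
      have h3 := h2 j z (ball_subset_closedBall hz) hcon
      rw [hzy] at h3
      have h4 : dist y (u l z₀) < e' j := by
        refine lt_of_lt_of_le hy ((min_le_right _ _).trans ?_)
        exact Finset.inf'_le _ (Finset.mem_univ j)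
      linarith
    push Not at hj
    refine ⟨z - z₀, hj.2, ?_⟩
    rw [add_sub_cancel, ← hj.1]
    exact hzy

/-- points near `x` other than `x` are regular -/
theorem reg_near {θ : R4 → R4 →L[ℝ] ℂ} (hθ : HolDiff D K θ) (hxK : x ∈ K)
    (hB : Brs D K x N u ε) :
    ∃ δ > 0, ∀ y ∈ ball x δ, y ∈ K → y ≠ x → Reg D K θ y := by
  choose rl hrl h hh1 hh2 hh3 using hθ.hol x hxK N u ε hB
  obtain ⟨r, hr0, hr1, hr2⟩ : ∃ r > 0, r ≤ 1 ∧ ∀ l, r ≤ rl l := by
    have hN : (Finset.univ : Finset (Fin N)).Nonempty := ⟨⟨0, hB.posN⟩, Finset.mem_univ _⟩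
    refine ⟨min 1 (Finset.univ.inf' hN rl), ?_, min_le_left _ _, fun l => ?_⟩
    · refine lt_min one_pos ?_
      rw [Finset.lt_inf'_iff]
      exact fun l _ => hrl l
    · exact (min_le_right _ _).trans (Finset.inf'_le _ (Finset.mem_univ l))
  obtain ⟨δ, hδ0, hδ1, hδ2⟩ := brs_cov hB hr0
  refine ⟨δ, hδ0, fun y hy hyK hyx => ?_⟩
  obtain ⟨l, z₀, hz₀r, hz₀1, hzy⟩ := hδ2 y hy hyK
  have h0 : z₀ ≠ 0 := by
    intro h0
    apply hyx
    rw [← hzy, h0]
    exact hB.zero l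
  -- the radius of the disc around `z₀`
  obtain ⟨s, hs0, hs1, hs2⟩ : ∃ s > 0, s ≤ ‖z₀‖ ∧ ‖z₀‖ + s ≤ r := by
    refine ⟨min ‖z₀‖ (r - ‖z₀‖), lt_min (norm_pos_iff.2 h0) (by linarith), min_le_left _ _, ?_⟩
    have := min_le_right ‖z₀‖ (r - ‖z₀‖)
    linarith
  have hin : ∀ w ∈ ball (0 : ℂ) s, z₀ + w ≠ 0 ∧ ‖z₀ + w‖ < r := by
    intro w hw
    rw [mem_ball_zero_iff] at hw
    constructor
    · intro h1
      have : ‖z₀‖ = ‖w‖ := by
        have h2 : z₀ = -w := eq_neg_of_add_eq_zero_left h1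
        rw [h2, norm_neg]
      linarith
    · calc ‖z₀ + w‖ ≤ ‖z₀‖ + ‖w‖ := norm_add_le _ _
        _ < r := by linarith
  have hin2 : ∀ w ∈ ball (0 : ℂ) s, z₀ + w ∈ ball (0 : ℂ) 2 := fun w hw => by
    rw [mem_ball_zero_iff]
    have := (hin w hw).2
    linarith
  have hdist : dist (u l z₀) x < ε := by
    rw [hzy]
    exact lt_of_lt_of_le hy hδ1
  obtain ⟨ε', hε', hcov⟩ := brs_local hB l hz₀1 h0 hdist hs0
  have hfd : ∀ w, fderiv ℝ (fun w => u l (z₀ + w)) w = fderiv ℝ (u l) (z₀ + w) := by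
    intro w
    exact fderiv_comp_add_left (𝕜 := ℝ) z₀
  refine ⟨s, hs0, ε', hε', fun w => u l (z₀ + w), fun w => h l (z₀ + w), ?_, ?_, ?_, ?_, ?_, ?_⟩
  · refine ((hB.disc l).smooth).comp (contDiff_const.add contDiff_id).contDiffOn ?_
    exact fun w hw => hin2 w hw
  · show u l (z₀ + 0) = y
    rw [add_zero]; exact hzy
  · intro w hw w' hw' heq
    rcases hB.inj l l _ (hin2 w hw) _ (hin2 w' hw') heq with h1 | h1
    · exact add_left_cancel h1.2
    · exact absurd h1.1 (hin w hw).1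
  · intro y' hy' hK'
    rw [← hzy] at hy'
    obtain ⟨w, hw, hwy⟩ := hcov y' hy' hK'
    exact ⟨w, by rwa [mem_ball_zero_iff], hwy⟩
  · intro w hw
    have h1 : DifferentiableAt ℂ (h l) (z₀ + w) := by
      refine (hh1 l).differentiableAt (isOpen_ball.mem_nhds ?_)
      rw [mem_ball_zero_iff]
      exact lt_of_lt_of_le (hin w hw).2 (hr2 l)
    exact (h1.comp w (by fun_prop)).differentiableWithinAt
  · intro w hw
    have hb : z₀ + w ∈ ball (0 : ℂ) (rl l) := by
      rw [mem_ball_zero_iff]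
      exact lt_of_lt_of_le (hin w hw).2 (hr2 l)
    rw [hfd]
    refine ⟨hB.mem l _ (hin2 w hw), hB.imm l _ (hin2 w hw) (hin w hw).1,
      (hB.disc l).hol _ (hin2 w hw), hh2 l _ hb (hin w hw).1, ?_, ?_⟩
    · exact (hh3 l _ hb (Or.inl (hin w hw).1)).1
    · exact (hh3 l _ hb (Or.inl (hin w hw).1)).2

/-- translation invariance of regular points -/
theorem reg_tr {θ : R4 → R4 →L[ℝ] ℂ} (hθ : HolDiff D K θ)
    (hKt : ∀ (k : Fin 4 → ℤ) x, x ∈ K → tr k x ∈ K) (h : Reg D K θ x) (k : Fin 4 → ℤ) :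
    Reg D K θ (tr k x) := by
  obtain ⟨r, hr, ε, hε, u, h, h1, h2, h3, h4, h5, h6⟩ := h
  have e1 : (fun z => tr k (u z)) = fun z => u z + fun i => (k i : ℝ) := by
    funext z; exact tr_sub k (u z)
  have hfd : ∀ z, fderiv ℝ (fun z => tr k (u z)) z = fderiv ℝ u z := by
    intro z
    rw [e1, fderiv_add_const]
  have hdist : ∀ a b : R4, dist (tr k a) (tr k b) = dist a b := by
    intro a b
    rw [tr_sub, tr_sub, dist_add_right]
  refine ⟨r, hr, ε, hε, fun z => tr k (u z), h, ?_, ?_, ?_, ?_, h5, ?_⟩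
  · exact (tr_contDiff k).comp_contDiffOn h1
  · show tr k (u 0) = tr k x
    rw [h2]
  · intro z hz z' hz' heq
    apply h3 hz hz'
    have := congrArg (tr (-k)) heq
    rwa [tr_neg_cancel', tr_neg_cancel'] at this
  · intro y hy hK
    have h7 : tr (-k) y ∈ ball x ε := by
      rw [mem_ball, ← hdist, tr_neg_cancel]
      exact hy
    obtain ⟨z, hz, hzy⟩ := h4 _ h7 (hKt _ _ hK)
    exact ⟨z, hz, by show tr k (u z) = y; rw [hzy, tr_neg_cancel]⟩
  · intro z hz
    obtain ⟨a1, a2, a3, a4, a5, a6⟩ := h6 z hz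
    rw [hfd]
    refine ⟨hKt _ _ a1, a2, ?_, a4, ?_, ?_⟩
    · have : D.J (tr k (u z)) = D.J (u z) := D.J_per k (u z)
      rw [this]; exact a3
    · rw [hθ.per]; exact a5
    · rw [hθ.per]; exact a6

/-- representatives modulo the lattice -/
theorem exists_tr_mem (x : R4) : ∃ k : Fin 4 → ℤ, ∀ i, tr k x i ∈ Ico (0 : ℝ) 1 := by
  refine ⟨fun i => -⌊x i⌋, fun i => ?_⟩
  have h1 := Int.floor_le (x i)
  have h2 := Int.lt_floor_add_one (x i)
  simp only [tr]
  push_cast
  constructor <;> linarith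

/-- finitely many special points modulo the lattice, one of them prescribed -/
theorem exists_special (hK : IsClosed K) (hKt : ∀ (k : Fin 4 → ℤ) x, x ∈ K → tr k x ∈ K)
    (hloc : ∀ x ∈ K, ∃ (N : ℕ) (u : Fin N → ℂ → R4) (ε : ℝ), Brs D K x N u ε)
    {θ : R4 → R4 →L[ℝ] ℂ} (hθ : HolDiff D K θ) {x₀ : R4} (hx₀ : x₀ ∈ K) :
    ∃ P : Finset R4, x₀ ∈ P ∧ (∀ p ∈ P, p ∈ K) ∧
      (∀ p ∈ P, ∀ q ∈ P, ∀ k : Fin 4 → ℤ, p = tr k q → p = q ∧ k = 0) ∧
      ∀ x ∈ K, Reg D K θ x ∨ ∃ p ∈ P, ∃ k : Fin 4 → ℤ, x = tr k p := by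
  classical
  set C : Set R4 := {x | (∀ i, x i ∈ Ico (0 : ℝ) 1) ∧ x ∈ K ∧ ¬ Reg D K θ x} with hC
  have hfin : C.Finite := by
    by_contra hinf
    have hCinf : C.Infinite := hinf
    have hsub : C ⊆ Icc (0 : R4) 1 := fun x hx =>
      ⟨fun i => (hx.1 i).1, fun i => (hx.1 i).2.le⟩
    obtain ⟨y, -, hy⟩ := hCinf.exists_accPt_of_subset_isCompact isCompact_Icc hsub
    rw [accPt_iff_nhds] at hy
    have hyK : y ∈ K := by
      have h1 : y ∈ closure C := by
        rw [mem_closure_iff_nhds]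
        intro t ht
        obtain ⟨z, hz, -⟩ := hy t ht
        exact ⟨z, hz⟩
      have h2 : closure C ⊆ K := closure_minimal (fun x hx => hx.2.1) hK
      exact h2 h1
    obtain ⟨N, u, ε, hB⟩ := hloc y hyK
    obtain ⟨δ, hδ, hreg⟩ := reg_near hθ hyK hB
    obtain ⟨z, hz, hzy⟩ := hy (ball y δ) (ball_mem_nhds y hδ)
    exact hz.2.2.2 (hreg z hz.1 hz.2.2.1 hzy)
  set P₀ : Finset R4 := hfin.toFinset with hP₀
  set Q : Finset R4 := P₀.filter (fun p => ∀ k : Fin 4 → ℤ, x₀ ≠ tr k p) with hQ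
  have hmem : ∀ p ∈ P₀, p ∈ C := fun p hp => hfin.mem_toFinset.1 hp
  refine ⟨insert x₀ Q, Finset.mem_insert_self _ _, ?_, ?_, ?_⟩
  · intro p hp
    rcases Finset.mem_insert.1 hp with h | h
    · rw [h]; exact hx₀
    · exact (hmem p (Finset.mem_filter.1 h).1).2.1
  · -- distinctness
    have hkey : ∀ p q : R4, (∀ i, p i ∈ Ico (0 : ℝ) 1) → (∀ i, q i ∈ Ico (0 : ℝ) 1) →
        ∀ k : Fin 4 → ℤ, p = tr k q → k = 0 := by
      intro p q hp hq k hpq
      funext i
      have h1 : p i = q i + k i := by rw [hpq]; rfl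
      have h2 := hp i
      have h3 := hq i
      have h4 : (-1 : ℝ) < k i := by have := h2.1; have := h3.2; linarith
      have h5 : (k i : ℝ) < 1 := by have := h2.2; have := h3.1; linarith
      have h6 : (-1 : ℤ) < k i := by exact_mod_cast h4
      have h7 : k i < (1 : ℤ) := by exact_mod_cast h5
      simp only [Pi.zero_apply]
      omega
    intro p hp q hq k hpq
    rcases Finset.mem_insert.1 hp with h1 | h1 <;> rcases Finset.mem_insert.1 hq with h2 | h2
    · refine ⟨by rw [h1, h2], ?_⟩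
      rw [h1, h2] at hpq
      funext i
      have h3 : x₀ i = x₀ i + k i := by
        have := congrFun hpq i
        exact this
      have h4 : (k i : ℝ) = 0 := by linarith
      exact_mod_cast h4
    · exfalso
      rw [h1] at hpq
      exact (Finset.mem_filter.1 h2).2 k hpq
    · exfalso
      rw [h2] at hpq
      refine (Finset.mem_filter.1 h1).2 (-k) ?_
      rw [hpq, tr_neg_cancel']
    · have hk := hkey p q (hmem p (Finset.mem_filter.1 h1).1).1
        (hmem q (Finset.mem_filter.1 h2).1).1 k hpq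
      refine ⟨?_, hk⟩
      rw [hpq, hk, tr_zero]
  · intro x hx
    by_cases hR : Reg D K θ x
    · exact Or.inl hR
    · right
      obtain ⟨k, hk⟩ := exists_tr_mem x
      have hxC : tr k x ∈ C := by
        refine ⟨hk, hKt _ _ hx, fun hR' => hR ?_⟩
        have := reg_tr hθ hKt hR' (-k)
        rwa [tr_neg_cancel'] at this
      have hxP : tr k x ∈ P₀ := hfin.mem_toFinset.2 hxC
      by_cases hq : ∀ j : Fin 4 → ℤ, x₀ ≠ tr j (tr k x)
      · refine ⟨tr k x, Finset.mem_insert_of_mem (Finset.mem_filter.2 ⟨hxP, hq⟩), -k, ?_⟩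
        rw [tr_neg_cancel']
      · push Not at hq
        obtain ⟨j, hj⟩ := hq
        refine ⟨x₀, Finset.mem_insert_self _ _, -(j + k), ?_⟩
        rw [hj, tr_tr j k, tr_neg_cancel']

end Vale.Agent.P247.H710
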