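import Vale.Agent.P247.H710.LWIc
import Vale.Agent.P247.H558.SH.Fin

/-!
# P247, LW: the integral side, small radii
-/

open scoped ContDiff Topology
open Set MeasureTheory Filter Metric Polynomial

noncomputable section

namespace Vale.Agent.P247.H710.LWI

open Vale.Agent.P247.H74 Vale.Agent.P247.H574 Vale.Agent.P247.H58.LW

theorem lam_det (lam : ℂ) : (lam • (ContinuousLinearMap.id ℝ ℂ)).det = ‖lam‖ ^ 2 := by
  rw [H620.det_rl (a := lam) (b := 0)]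
  · simp
  · intro w; simp

theorem exists_open_ball {p : ℂ → Prop} (h : ∀ᶠ z in 𝓝 (0 : ℂ), p z) :
    ∃ r > 0, ∀ z ∈ ball (0 : ℂ) r, p z := by
  obtain ⟨r, hr, h1⟩ := Metric.eventually_nhds_iff_ball.1 h
  exact ⟨r, hr, h1⟩

section
variable {D : Data} {x a b : R4} {u v : ℂ → R4} {q q' K : ℕ} {Φ Ψ ψ : ℂ → ℂ}

/-- The formula for small radii. -/
theorem int1 (hG : Good D) (hab : Om D x a b ≠ 0)
    (hu : ContDiffOn ℝ ∞ u (ball 0 2)) (hv : ContDiffOn ℝ ∞ v (ball 0 2)) (hu0 : u 0 = x)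
    (hfar : ∀ r > 0, ∃ c > 0, ∀ s ∈ ball (0 : ℂ) 1, r ≤ ‖s‖ → c ≤ dist (v s) x)
    (hq : 1 ≤ q) (hq' : 1 ≤ q') (hK : 1 ≤ K)
    (hΦ : ContDiffAt ℝ 1 Φ 0) (hΦ0 : Φ 0 = 0)
    (hΦK : ∀ᶠ z in 𝓝 (0 : ℂ), c1 D x a b (u (z ^ q) - x) = Φ z ^ K)
    (hΨK : ∀ᶠ z in 𝓝 (0 : ℂ), c1 D x a b (v (z ^ q') - x) = Ψ z ^ K)
    (hψ : ContDiffAt ℝ 1 ψ 0) (hψ0 : ψ 0 = 0) {mu : ℂ} (hmu : mu ≠ 0)
    (hψd : HasFDerivAt ψ (mu • (ContinuousLinearMap.id ℝ ℂ)) 0)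
    (hψ1 : ∀ᶠ z in 𝓝 (0 : ℂ), ψ (Ψ z) = z) (hψ2 : ∀ᶠ c in 𝓝 (0 : ℂ), Ψ (ψ c) = c) :
    ∀ᶠ R in 𝓝[>] (0 : ℝ), ∀ V : R4 → R4, ContDiff ℝ ∞ V → (∀ y, Om D x (V y) b = 0) →
    ∀ᶠ δ in 𝓝[>] (0 : ℝ), ∀ m : ℂ → ℤ,
    (∀ w ∈ nthRootsFinset K (1 : ℂ), HasWinding
      (fun z => c2 D x a b (push u V δ (z ^ q) - v (ψ (w * Φ z) ^ q'))) 0 R (m w)) →
    ∃ ε₀ > 0, ∀ f : R4 → ℝ, Continuous f → tsupport f ⊆ ball 0 ε₀ →
      ((q : ℝ) * (q' : ℝ)) * Iuv u v V δ (R ^ q) f =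
        ((∑ w ∈ nthRootsFinset K (1 : ℂ), m w : ℤ) : ℝ) * ∫ y, f y := by
  -- the coordinate `Ψ`
  obtain ⟨r₀, hr₀, hW⟩ := exists_open_ball (hψ1.and hΨK)
  -- the inverse `ψ`
  have hψdet : ∀ᶠ c in 𝓝 (0 : ℂ), 0 < (fderiv ℝ ψ c).det := by
    have h1 : ContinuousAt (fun c => (fderiv ℝ ψ c).det) 0 := by
      have h2 : ContinuousAt (fun c => fderiv ℝ ψ c) 0 :=
        (hψ.fderiv_right (m := 0) (by simp)).continuousAt
      simp only [H620.det_eq]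
      have h3 := h2.clm_apply (continuousAt_const (y := (1 : ℂ)))
      have h4 := h2.clm_apply (continuousAt_const (y := Complex.I))
      exact ((Complex.continuous_re.continuousAt.comp h3).mul
        (Complex.continuous_im.continuousAt.comp h4)).sub
        ((Complex.continuous_im.continuousAt.comp h3).mul
        (Complex.continuous_re.continuousAt.comp h4))
    have h5 : 0 < (fderiv ℝ ψ 0).det := by
      rw [hψd.fderiv, lam_det]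
      positivity
    exact h1.eventually (lt_mem_nhds h5)
  have hψc : ContinuousAt ψ 0 := hψ.continuousAt
  -- the radius `r₁`
  obtain ⟨r₁, hr₁, hr₁0, hr₁1⟩ : ∃ r₁ > 0, r₁ ≤ r₀ ∧ r₁ ≤ 1 :=
    ⟨min r₀ 1, lt_min hr₀ one_pos, min_le_left _ _, min_le_right _ _⟩
  have hr₁p : r₁ ^ q' ≤ 1 := pow_le_one₀ hr₁.le hr₁1
  -- the radius of `V₁`
  have hψ3 : ∀ᶠ c in 𝓝 (0 : ℂ), ψ c ∈ ball (0 : ℂ) r₁ := by
    apply hψc.eventually
    rw [hψ0]
    exact ball_mem_nhds 0 hr₁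
  obtain ⟨r₂, hr₂, hT⟩ := exists_open_ball
    ((hψ.eventually (by simp)).and (hψdet.and (hψ3.and hψ2)))
  set R' : ℝ := r₂ / 2 with hR'
  have hR'0 : 0 < R' := by positivity
  have hR'2 : closedBall (0 : ℂ) R' ⊆ ball 0 r₂ := closedBall_subset_ball (by rw [hR']; linarith)
  -- constants
  obtain ⟨c, hc, hcf⟩ := hfar (r₁ ^ q') (by positivity)
  set N : ℝ := ‖c1 D x a b‖ + 1 with hN
  have hN0 : 0 < N := by positivity
  set e₀ : ℝ := R' ^ K - (R' / 2) ^ K with he₀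
  have he₀0 : 0 < e₀ := by
    rw [he₀, sub_pos]
    exact pow_lt_pow_left₀ (by linarith) (by positivity) (by omega)
  -- small radii
  have hΦc : ∀ᶠ z in 𝓝 (0 : ℂ), ‖Φ z‖ < R' / 2 := by
    have h1 : ContinuousAt (fun z => ‖Φ z‖) 0 := hΦ.continuousAt.norm
    refine h1.tendsto.eventually_lt_const ?_
    rw [hΦ0, norm_zero]
    positivity
  have huc : ∀ᶠ z in 𝓝 (0 : ℂ), dist (u (z ^ q)) x < c / 4 := by
    have h1 : ContinuousAt (fun z : ℂ => dist (u (z ^ q)) x) 0 := by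
      have h2 : ContinuousAt u ((0 : ℂ) ^ q) := by
        rw [zero_pow (by omega)]
        exact hu.continuousOn.continuousAt (ball_mem_nhds _ (by norm_num))
      exact (ContinuousAt.comp (f := fun z : ℂ => z ^ q) (g := u) h2
        (continuous_pow q).continuousAt).dist continuousAt_const
    refine h1.tendsto.eventually_lt_const ?_
    rw [zero_pow (by omega), hu0, dist_self]
    positivity
  obtain ⟨r₃, hr₃, hS⟩ := exists_open_ball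
    ((hΦ.eventually (by simp)).and (hΦK.and (hΦc.and huc)))
  have hev : ∀ᶠ R in 𝓝[>] (0 : ℝ), 0 < R ∧ R < min r₃ 1 := ev_lt (lt_min hr₃ one_pos)
  filter_upwards [hev] with R hR V hV hVb
  obtain ⟨hR0, hRm⟩ := hR
  have hR3 : R < r₃ := hRm.trans_le (min_le_left _ _)
  have hR1 : R < 1 := hRm.trans_le (min_le_right _ _)
  have hRq : R ^ q < 2 := lt_of_le_of_lt (pow_le_one₀ hR0.le hR1.le) (by norm_num)
  have hcl : closedBall (0 : ℂ) R ⊆ ball 0 r₃ := closedBall_subset_ball hR3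
  -- the bound for `V`
  obtain ⟨B, hB⟩ : ∃ B, ∀ t ∈ closedBall (0 : ℂ) (R ^ q), ‖V (u t)‖ ≤ B := by
    refine (isCompact_closedBall (0 : ℂ) (R ^ q)).exists_bound_of_continuousOn
      (f := fun t => V (u t)) ?_
    exact hV.continuous.comp_continuousOn (hu.continuousOn.mono (closedBall_subset_ball hRq))
  have hB0 : 0 ≤ B := (norm_nonneg _).trans (hB 0 (mem_closedBall_self (by positivity)))
  filter_upwards [ev_lt (c := c / (4 * (B + 1))) (by positivity)] with δ hδ m hm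
  obtain ⟨hδ0, hδ1⟩ := hδ
  -- a root of `t`
  have hroot : ∀ t ∈ ball (0 : ℂ) (R ^ q), ∃ z ∈ ball (0 : ℂ) R, z ^ q = t := by
    intro t ht
    refine ⟨H620.rt q t, ?_, H620.rt_pow hq t⟩
    rw [mem_ball_zero_iff] at ht ⊢
    rw [← H620.rt_pow hq t, norm_pow] at ht
    exact (pow_lt_pow_iff_left₀ (norm_nonneg _) hR0.le (by omega)).1 ht
  have hc1push : ∀ t s, c1 D x a b (push u V δ t - v s) =
      c1 D x a b (u t - x) - c1 D x a b (v s - x) := by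
    intro t s
    have e : push u V δ t - v s = (u t - x) + δ • V (u t) - (v s - x) := by
      rw [push]; abel
    rw [e, map_sub, map_add, map_smul, c1_apply (y := V _), hVb]
    simp
  refine int0 (r₁ := r₁) (R' := R') (V₀ := ball 0 r₃) (V₁ := ball 0 r₂)
    (c₀ := min (c / 2) (e₀ / N)) hG hab hu hv hV hVb hq hq' hK hR0 hRq isOpen_ball hcl ?_ ?_ ?_
    isOpen_ball hR'2 ?_ ?_ ?_ ?_ ?_ ?_ hr₁ hr₁p (lt_min (by positivity) (by positivity)) ?_ ?_ hm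
  · exact fun z hz => (hS z hz).1.contDiffWithinAt
  · exact fun z hz => (hS z (hcl hz)).2.1
  · intro z hz
    have := (hS z (hcl hz)).2.2.1
    linarith
  · exact fun z hz => (hT z hz).1.contDiffWithinAt
  · intro c' hc'
    have h1 := (hT c' hc').2.2.1
    rw [mem_ball_zero_iff] at h1 ⊢
    rw [norm_pow]
    exact lt_of_le_of_lt (pow_le_one₀ (norm_nonneg _) (h1.le.trans hr₁1)) (by norm_num)
  · intro c' hc'
    have h1 := hT c' (hR'2 hc')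
    have h2 := (hW (ψ c') (ball_subset_ball hr₁0 h1.2.2.1)).2
    rw [h2, h1.2.2.2]
  · intro c' hc' d' hd' h
    have h1 := (hT c' (hR'2 (ball_subset_closedBall hc'))).2.2.2
    have h2 := (hT d' (hR'2 (ball_subset_closedBall hd'))).2.2.2
    rw [← h1, ← h2, h]
  · exact fun c' hc' => (hT c' (hR'2 (ball_subset_closedBall hc'))).2.1.le
  · exact fun c' hc' => (hT c' (hR'2 (ball_subset_closedBall hc'))).2.2.1
  · intro t ht s hs hrs
    refine (min_le_left _ _).trans ?_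
    have h1 := hcf s hs hrs
    obtain ⟨z, hz, hzt⟩ := hroot t ht
    have h2 := (hS z (hcl (ball_subset_closedBall hz))).2.2.2
    rw [hzt] at h2
    have h3 : ‖δ • V (u t)‖ ≤ c / 4 := by
      rw [norm_smul, Real.norm_of_nonneg hδ0.le]
      have h4 := hB t (ball_subset_closedBall ht)
      calc δ * ‖V (u t)‖ ≤ c / (4 * (B + 1)) * (B + 1) := by
            gcongr
            linarith
        _ = c / 4 := by field_simp
    have e : v s - x = (u t - x) + δ • V (u t) - (push u V δ t - v s) := by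
      rw [push]; abel
    have h5 : ‖v s - x‖ ≤ ‖u t - x‖ + ‖δ • V (u t)‖ + ‖push u V δ t - v s‖ := by
      rw [e]
      exact (norm_sub_le _ _).trans (by gcongr; exact norm_add_le _ _)
    rw [dist_eq_norm] at h1 h2
    linarith
  · intro t ht σ hσ hn
    refine (min_le_right _ _).trans ?_
    obtain ⟨z, hz, hzt⟩ := hroot t ht
    have h1 := hS z (hcl (ball_subset_closedBall hz))
    have h2 := hW σ (ball_subset_ball hr₁0 hσ)
    have h3 : R' ≤ ‖Ψ σ‖ := by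
      by_contra hcon
      push Not at hcon
      exact hn ⟨Ψ σ, by rwa [mem_ball_zero_iff], h2.1⟩
    have h4 : ‖c1 D x a b (u t - x)‖ ≤ (R' / 2) ^ K := by
      rw [← hzt, h1.2.1, norm_pow]
      exact pow_le_pow_left₀ (norm_nonneg _) h1.2.2.1.le K
    have h5 : R' ^ K ≤ ‖c1 D x a b (v (σ ^ q') - x)‖ := by
      rw [h2.2, norm_pow]
      exact pow_le_pow_left₀ hR'0.le h3 K
    have h6 : e₀ ≤ ‖c1 D x a b (push u V δ t - v (σ ^ q'))‖ := by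
      rw [hc1push]
      have := norm_sub_norm_le (c1 D x a b (v (σ ^ q') - x)) (c1 D x a b (u t - x))
      rw [norm_sub_rev] at this
      rw [he₀]
      linarith
    have h7 : ‖c1 D x a b (push u V δ t - v (σ ^ q'))‖ ≤ N * ‖push u V δ t - v (σ ^ q')‖ := by
      refine ((c1 D x a b).le_opNorm _).trans ?_
      gcongr
      rw [hN]; linarith
    rw [div_le_iff₀ hN0, mul_comm]
    exact h6.trans h7

/-- The formula for small radii, with the inverse of `Ψ`. -/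
theorem INT (hG : Good D) (hab : Om D x a b ≠ 0)
    (hu : ContDiffOn ℝ ∞ u (ball 0 2)) (hv : ContDiffOn ℝ ∞ v (ball 0 2)) (hu0 : u 0 = x)
    (hfar : ∀ r > 0, ∃ c > 0, ∀ s ∈ ball (0 : ℂ) 1, r ≤ ‖s‖ → c ≤ dist (v s) x)
    (hq : 1 ≤ q) (hq' : 1 ≤ q') (hK : 1 ≤ K)
    (hΦ : ContDiffAt ℝ 1 Φ 0) (hΦ0 : Φ 0 = 0)
    (hΦK : ∀ᶠ z in 𝓝 (0 : ℂ), (Om D x a b)⁻¹ * Om D x (u (z ^ q) - x) b = Φ z ^ K)
    (hΨ : ContDiffAt ℝ 1 Ψ 0) (hΨ0 : Ψ 0 = 0) {lam : ℂ} (hlam : lam ≠ 0)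
    (hΨd : HasFDerivAt Ψ (lam • (ContinuousLinearMap.id ℝ ℂ)) 0)
    (hΨK : ∀ᶠ z in 𝓝 (0 : ℂ), (Om D x a b)⁻¹ * Om D x (v (z ^ q') - x) b = Ψ z ^ K) :
    ∃ ψ : ℂ → ℂ, ContDiffAt ℝ 1 ψ 0 ∧ ψ 0 = 0 ∧ (∀ᶠ z in 𝓝 (0 : ℂ), ψ (Ψ z) = z) ∧
    (∀ᶠ c in 𝓝 (0 : ℂ), Ψ (ψ c) = c) ∧
    ∀ᶠ R in 𝓝[>] (0 : ℝ), ∀ V : R4 → R4, ContDiff ℝ ∞ V → (∀ y, Om D x (V y) b = 0) →
    ∀ᶠ δ in 𝓝[>] (0 : ℝ), ∀ m : ℂ → ℤ,
    (∀ w ∈ nthRootsFinset K (1 : ℂ), HasWinding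
      (fun z => (Om D x a b)⁻¹ * Om D x a (push u V δ (z ^ q) - v (ψ (w * Φ z) ^ q'))) 0 R (m w)) →
    ∃ ε₀ > 0, ∀ f : R4 → ℝ, Continuous f → tsupport f ⊆ ball 0 ε₀ →
      ((q : ℝ) * (q' : ℝ)) * Iuv u v V δ (R ^ q) f =
        ((∑ w ∈ nthRootsFinset K (1 : ℂ), m w : ℤ) : ℝ) * ∫ y, f y := by
  obtain ⟨ψ, h1, h2, h3, h4, h5⟩ := H558.SH.exists_psi hlam hΨ hΨ0 hΨd
  refine ⟨ψ, h1, h2, h4, h5, ?_⟩
  have hm1 : ∀ y, (Om D x a b)⁻¹ * Om D x y b = c1 D x a b y := fun y => (c1_apply _ _ _ _ y).symm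
  have hm2 : ∀ y, (Om D x a b)⁻¹ * Om D x a y = c2 D x a b y := fun y => (c2_apply _ _ _ _ y).symm
  simp only [hm1] at hΦK hΨK
  simp only [hm2]
  exact int1 hG hab hu hv hu0 hfar hq hq' hK hΦ hΦ0 hΦK hΨK h1 h2
    (inv_ne_zero hlam) h3 h4 h5

end

end Vale.Agent.P247.H710.LWI
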