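import Vale.Agent.P247.H710.CurA
import Vale.Agent.P247.H264.Mass

/-!
# P247: smoothing the current
-/

open scoped ContDiff Topology
open Set MeasureTheory Filter Metric

noncomputable section

namespace Vale.Agent.P247.H710

open Vale.Agent.P247.H74 Vale.Agent.P247.H574

attribute [local instance] f2G f2S f1G f1S

/-! ## the volume form -/

/-- components of `a ∧ b` -/
def bv (a b : R4) (i j : Fin 4) : ℝ := a i * b j - a j * b i

/-- the determinant of the rows `a, b, c, d` -/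
def vol4 (a b c d : R4) : ℝ :=
  bv a b 0 1 * bv c d 2 3 - bv a b 0 2 * bv c d 1 3 + bv a b 0 3 * bv c d 1 2
    + bv a b 1 2 * bv c d 0 3 - bv a b 1 3 * bv c d 0 2 + bv a b 2 3 * bv c d 0 1

theorem vol4_eq_det (a b c d : R4) : vol4 a b c d = Matrix.det (Matrix.of ![a, b, c, d]) := by
  simp [Matrix.det_succ_row_zero, Fin.sum_univ_succ, vol4, bv, Fin.succAbove]
  ring

/-- coordinate forms -/
def pj (i : Fin 4) : R4 →L[ℝ] ℝ := ContinuousLinearMap.proj i

theorem pj_apply (i : Fin 4) (a : R4) : pj i a = a i := rfl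

/-- `vol (a, b, ·, ·)` -/
def vol2 (a b : R4) : F2 :=
  bv a b 0 1 • wg (pj 2) (pj 3) - bv a b 0 2 • wg (pj 1) (pj 3) + bv a b 0 3 • wg (pj 1) (pj 2)
    + bv a b 1 2 • wg (pj 0) (pj 3) - bv a b 1 3 • wg (pj 0) (pj 2) + bv a b 2 3 • wg (pj 0) (pj 1)

theorem vol2_apply (a b c d : R4) : vol2 a b c d = vol4 a b c d := by
  show bv a b 0 1 * (c 2 * d 3 - c 3 * d 2) - bv a b 0 2 * (c 1 * d 3 - c 3 * d 1) +
    bv a b 0 3 * (c 1 * d 2 - c 2 * d 1) + bv a b 1 2 * (c 0 * d 3 - c 3 * d 0) -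
    bv a b 1 3 * (c 0 * d 2 - c 2 * d 0) + bv a b 2 3 * (c 0 * d 1 - c 1 * d 0) = vol4 a b c d
  unfold vol4 bv
  ring

theorem vol4_self (a b c : R4) : vol4 a b c c = 0 := by unfold vol4 bv; ring

theorem vol2_self (a b c : R4) : vol2 a b c c = 0 := by rw [vol2_apply, vol4_self]

/-- `vol (a, b, c, ·)` -/
def vol3 (a b c : R4) : R4 →L[ℝ] ℝ := vol2 a b c

/-- the five vector identity -/
theorem five (G : R4 →L[ℝ] ℝ) (u v w p q : R4) :
    G u * vol4 v w p q + G v * vol4 w u p q + G w * vol4 u v p q =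
      G p * vol4 u v w q - G q * vol4 u v w p := by
  have hG : ∀ x : R4, G x = x 0 * G (e 0) + x 1 * G (e 1) + x 2 * G (e 2) + x 3 * G (e 3) := by
    intro x
    have hx : x = x 0 • e 0 + x 1 • e 1 + x 2 • e 2 + x 3 • e 3 := by
      funext i
      fin_cases i <;> simp [e]
    conv_lhs => rw [hx]
    simp only [map_add, map_smul, smul_eq_mul]
  rw [hG u, hG v, hG w, hG p, hG q]
  unfold vol4 bv
  ring

theorem vol4_swap (a b c d : R4) : vol4 a b c d = - vol4 b a c d := by unfold vol4 bv; ring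

/-! ## bounds -/

variable {D : Data} (S : ICur D)

theorem T_bound (K : Set R4) (hK : IsCompact K) : ∃ C, 0 ≤ C ∧ ∀ φ, CF φ → (∀ x ∉ K, φ x = 0) →
    ∀ ε, (∀ x, ‖φ x‖ ≤ ε) → |S.T φ| ≤ C * ε := by
  obtain ⟨μ, hμ, ⟨C, hC⟩, -⟩ := Vale.Agent.P247.H264.MASS D S
  have := hμ.1
  have hC' : ∀ φ, CF φ → |S.T φ| ≤ |C| * ∫ x, ‖φ x‖ ∂μ := fun φ hφ =>
    (hC φ hφ).trans (mul_le_mul_of_nonneg_right (le_abs_self C)
      (integral_nonneg fun x => norm_nonneg (φ x)))
  refine ⟨|C| * μ.real K, by positivity, fun φ hφ hs ε hε => ?_⟩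
  have h1 : ∫ x, ‖φ x‖ ∂μ ≤ μ.real K * ε := by
    have h2 : ∫ x, ‖φ x‖ ∂μ = ∫ x in K, ‖φ x‖ ∂μ := by
      symm
      apply setIntegral_eq_integral_of_forall_compl_eq_zero
      intro x hx
      rw [hs x hx]
      exact norm_zero
    rw [h2]
    have h3 : ‖∫ x in K, ‖φ x‖ ∂μ‖ ≤ ε * μ.real K := by
      apply norm_setIntegral_le_of_norm_le_const hK.measure_lt_top
      intro x _
      rw [Real.norm_eq_abs, abs_of_nonneg (norm_nonneg (φ x))]
      exact hε x
    rw [mul_comm]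
    exact (le_abs_self _).trans h3
  calc |S.T φ| ≤ |C| * ∫ x, ‖φ x‖ ∂μ := hC' φ hφ
    _ ≤ |C| * (μ.real K * ε) := mul_le_mul_of_nonneg_left h1 (abs_nonneg C)
    _ = |C| * μ.real K * ε := by ring

/-! ## the functions `x ↦ T (g (x - y) κ)` -/

/-- `x ↦ T (g (x - ·) κ)` -/
def cc (g : R4 → ℝ) (κ : F2) (x : R4) : ℝ := S.T (fun y => g (x - y) • κ)

theorem supp_sub {g : R4 → ℝ} (hs : HasCompactSupport g) (x : R4) :
    HasCompactSupport fun y => g (x - y) := hs.comp_homeomorph (Homeomorph.subLeft x)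

theorem cc_cf {g : R4 → ℝ} (hg : Continuous g) (hs : HasCompactSupport g) {κ : F2}
    (hκ : ∀ u, κ u u = 0) (x : R4) : CF (fun y => g (x - y) • κ) :=
  CF.fmul (hg.comp (continuous_const.sub continuous_id)) (supp_sub hs x) continuous_const
    fun _ u => hκ u

/-- the derivative in the direction `v` -/
def dir (g : R4 → ℝ) (v : R4) (z : R4) : ℝ := fderiv ℝ g z v

theorem dir_smooth {g : R4 → ℝ} (hg : ContDiff ℝ ∞ g) (v : R4) : ContDiff ℝ ∞ (dir g v) :=
  (hg.fderiv_right (by simp)).clm_apply contDiff_const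

theorem dir_supp {g : R4 → ℝ} (hs : HasCompactSupport g) (v : R4) : HasCompactSupport (dir g v) :=
  (hs.fderiv ℝ).mono fun x hx h0 => hx (by
    show fderiv ℝ g x v = 0
    have : fderiv ℝ g x = 0 := h0
    rw [this]; rfl)

/-- second order Taylor bound -/
theorem taylor_bound {g : R4 → ℝ} (hg : ContDiff ℝ ∞ g) (hs : HasCompactSupport g) :
    ∃ C, 0 ≤ C ∧ ∀ z h, |g (z + h) - g z - fderiv ℝ g z h| ≤ C * ‖h‖ ^ 2 := by
  have h1 : ContDiff ℝ 1 (fderiv ℝ g) := (hg.fderiv_right (m := 1) (by norm_cast))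
  obtain ⟨C, hC⟩ := h1.lipschitzWith_of_hasCompactSupport (hs.fderiv ℝ) (by simp)
  refine ⟨C, C.2, fun z h => ?_⟩
  have h2 : ‖g (z + h) - g z - fderiv ℝ g z (z + h - z)‖ ≤ (C * ‖h‖) * ‖z + h - z‖ := by
    refine Convex.norm_image_sub_le_of_norm_hasFDerivWithin_le' (f := g) (f' := fderiv ℝ g)
      (s := closedBall z ‖h‖) (φ := fderiv ℝ g z) ?_ ?_ (convex_closedBall z ‖h‖)
      (mem_closedBall_self (norm_nonneg h)) ?_
    · intro y _
      exact ((hg.differentiable (by simp)) y).hasFDerivAt.hasFDerivWithinAt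
    · intro y hy
      have := hC.norm_sub_le y z
      refine this.trans ?_
      rw [mem_closedBall, dist_eq_norm] at hy
      exact mul_le_mul_of_nonneg_left hy C.2
    · rw [mem_closedBall, dist_eq_norm]
      simp
  rw [add_sub_cancel_left] at h2
  rw [← Real.norm_eq_abs]
  calc _ ≤ (C * ‖h‖) * ‖h‖ := h2
    _ = C * ‖h‖ ^ 2 := by ring

/-- the candidate derivative -/
def ccD (g : R4 → ℝ) (κ : F2) (x : R4) : R4 →L[ℝ] ℝ := ∑ m, cc S (dir g (e m)) κ x • pj m

theorem ccD_apply {g : R4 → ℝ} (hg : ContDiff ℝ ∞ g) (hs : HasCompactSupport g) {κ : F2}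
    (hκ : ∀ u, κ u u = 0) (x h : R4) : ccD S g κ x h = cc S (dir g h) κ x := by
  have h1 : ccD S g κ x h = ∑ m, cc S (dir g (e m)) κ x * h m := by
    unfold ccD
    rw [sum_apply]
    rfl
  rw [h1]
  have h2 : ∀ m, cc S (dir g (e m)) κ x * h m =
      S.T (fun y => h m • (dir g (e m) (x - y) • κ)) := by
    intro m
    rw [T_smul S (h m) (cc_cf (dir_smooth hg _).continuous (dir_supp hs _) hκ x), mul_comm]
    rfl
  rw [Finset.sum_congr rfl fun m _ => h2 m, ← T_sum S]
  · unfold cc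
    congr 1
    funext y
    have h3 : dir g h (x - y) = ∑ m, h m * dir g (e m) (x - y) := by
      unfold dir
      have hx : h = h 0 • e 0 + h 1 • e 1 + h 2 • e 2 + h 3 • e 3 := by
        funext i
        fin_cases i <;> simp [e]
      conv_lhs => rw [hx]
      simp only [map_add, map_smul, smul_eq_mul, Fin.sum_univ_four]
    rw [h3, Finset.sum_smul]
    exact Finset.sum_congr rfl fun m _ => smul_smul _ _ _
  · intro m _
    have := CF.smul (h m) (cc_cf (dir_smooth hg (e m)).continuous (dir_supp hs _) hκ x)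
    exact this

theorem cc_hasFDerivAt {g : R4 → ℝ} (hg : ContDiff ℝ ∞ g) (hs : HasCompactSupport g) {κ : F2}
    (hκ : ∀ u, κ u u = 0) (x : R4) : HasFDerivAt (cc S g κ) (ccD S g κ x) x := by
  obtain ⟨C, hC0, hC⟩ := taylor_bound hg hs
  -- a compact set containing all supports for `‖h‖ ≤ 1`
  obtain ⟨R, hR⟩ := hs.isCompact.isBounded.exists_norm_le
  obtain ⟨B, hB0, hB⟩ := T_bound S (closedBall x (R + 1)) (isCompact_closedBall _ _)
  rw [hasFDerivAt_iff_isLittleO_nhds_zero]
  have hO : (fun h : R4 => cc S g κ (x + h) - cc S g κ x - ccD S g κ x h) =O[𝓝 0]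
      fun h : R4 => ‖h‖ ^ 2 := by
    rw [Asymptotics.isBigO_iff]
    refine ⟨B * (C * ‖κ‖), ?_⟩
    filter_upwards [closedBall_mem_nhds (0 : R4) one_pos] with h hh
    rw [mem_closedBall_zero_iff] at hh
    have c1 := cc_cf hg.continuous hs hκ (x + h)
    have c2 := cc_cf hg.continuous hs hκ x
    have c3 := cc_cf (dir_smooth hg h).continuous (dir_supp hs h) hκ x
    have h12 : CF (fun y => g (x + h - y) • κ - g (x - y) • κ) := by
      have h4 := CF.add c1 (CF.smul (-1) c2)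
      convert h4 using 1
      funext y
      show _ = g (x + h - y) • κ + (-1 : ℝ) • (g (x - y) • κ)
      rw [neg_one_smul, sub_eq_add_neg]
    have e1 : cc S g κ (x + h) - cc S g κ x - ccD S g κ x h =
        S.T (fun y => (g (x + h - y) - g (x - y) - dir g h (x - y)) • κ) := by
      rw [ccD_apply S hg hs hκ]
      unfold cc
      rw [← T_sub S c1 c2, ← T_sub S h12 c3]
      congr 1
      funext y
      rw [← sub_smul, ← sub_smul]
    rw [e1]
    have c4 : CF (fun y => (g (x + h - y) - g (x - y) - dir g h (x - y)) • κ) := by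
      have h4 := CF.add h12 (CF.smul (-1) c3)
      convert h4 using 1
      funext y
      show _ = (g (x + h - y) • κ - g (x - y) • κ) + (-1 : ℝ) • (dir g h (x - y) • κ)
      rw [neg_one_smul, ← sub_eq_add_neg, ← sub_smul, ← sub_smul]
    have h5 := hB _ c4 ?_ (C * ‖κ‖ * ‖h‖ ^ 2) ?_
    · rw [Real.norm_eq_abs]
      refine h5.trans (le_of_eq ?_)
      rw [Real.norm_eq_abs, abs_of_nonneg (by positivity : (0 : ℝ) ≤ ‖h‖ ^ 2)]
      ring
    · intro y hy
      rw [mem_closedBall, dist_eq_norm, not_le] at hy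
      have k1 : ∀ w : R4, R < ‖w‖ → g w = 0 ∧ dir g h w = 0 := by
        intro w hw
        have : w ∉ tsupport g := fun hm => absurd (hR w hm) (not_le.2 hw)
        refine ⟨image_eq_zero_of_notMem_tsupport this, ?_⟩
        show fderiv ℝ g w h = 0
        have h0 : fderiv ℝ g w = 0 := by
          by_contra hne
          exact this (support_fderiv_subset ℝ hne)
        rw [h0]; rfl
      have k2 : R < ‖x - y‖ := by
        rw [norm_sub_rev]; linarith
      have k3 : R < ‖x + h - y‖ := by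
        have : ‖y - x‖ ≤ ‖x + h - y‖ + ‖h‖ := by
          calc ‖y - x‖ = ‖h - (x + h - y)‖ := by congr 1; abel
            _ ≤ ‖h‖ + ‖x + h - y‖ := norm_sub_le _ _
            _ = _ := by ring
        linarith
      rw [(k1 _ k3).1, (k1 _ k2).1, (k1 _ k2).2, sub_self, sub_self, zero_smul]
    · intro y
      have h6 : ‖(g (x + h - y) - g (x - y) - dir g h (x - y)) • κ‖ =
          |g (x + h - y) - g (x - y) - dir g h (x - y)| * ‖κ‖ := by
        rw [norm_smul, Real.norm_eq_abs]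
      rw [h6]
      have h7 := hC (x - y) h
      have h8 : x - y + h = x + h - y := by abel
      rw [h8] at h7
      calc _ ≤ (C * ‖h‖ ^ 2) * ‖κ‖ := mul_le_mul_of_nonneg_right h7 (norm_nonneg κ)
        _ = _ := by ring
  refine hO.trans_isLittleO ?_
  have : (fun h : R4 => ‖h‖ ^ 2) =o[𝓝 0] fun h : R4 => ‖h‖ := by
    refine Asymptotics.isLittleO_iff.2 fun c hc => ?_
    filter_upwards [ball_mem_nhds (0 : R4) hc] with h hh
    rw [mem_ball_zero_iff] at hh
    rw [Real.norm_eq_abs, Real.norm_eq_abs, abs_of_nonneg (by positivity : (0 : ℝ) ≤ ‖h‖ ^ 2),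
      abs_of_nonneg (norm_nonneg h), pow_two]
    exact mul_le_mul_of_nonneg_right hh.le (norm_nonneg h)
  exact this.trans_isBigO (Asymptotics.isBigO_norm_left.2 (Asymptotics.isBigO_refl _ _))

theorem cc_contDiff_nat (n : ℕ) : ∀ {g : R4 → ℝ}, ContDiff ℝ ∞ g → HasCompactSupport g →
    ∀ {κ : F2}, (∀ u, κ u u = 0) → ContDiff ℝ n (cc S g κ) := by
  induction n with
  | zero =>
    intro g hg hs κ hκ
    have h1 : Differentiable ℝ (cc S g κ) := fun x =>
      (cc_hasFDerivAt S hg hs hκ x).differentiableAt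
    exact contDiff_zero.2 h1.continuous
  | succ n ih =>
    intro g hg hs κ hκ
    have h1 : Differentiable ℝ (cc S g κ) := fun x =>
      (cc_hasFDerivAt S hg hs hκ x).differentiableAt
    have h2 : fderiv ℝ (cc S g κ) = ccD S g κ := funext fun x =>
      (cc_hasFDerivAt S hg hs hκ x).fderiv
    have h3 : ContDiff ℝ n (ccD S g κ) := by
      unfold ccD
      refine ContDiff.sum fun m _ => ?_
      exact (ih (dir_smooth hg (e m)) (dir_supp hs (e m)) hκ).smul contDiff_const
    rw [← h2] at h3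
    push_cast
    exact contDiff_succ_iff_fderiv.2 ⟨h1, by simp, h3⟩

theorem cc_contDiff {g : R4 → ℝ} (hg : ContDiff ℝ ∞ g) (hs : HasCompactSupport g)
    {κ : F2} (hκ : ∀ u, κ u u = 0) : ContDiff ℝ ∞ (cc S g κ) :=
  contDiff_infty.2 fun n => cc_contDiff_nat S n hg hs hκ

end Vale.Agent.P247.H710
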