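import Vale.Agent.P247.H710.CntA

/-!
# P247, package COUNT, part B: localisation of the current
-/

open scoped ContDiff Topology
open Set MeasureTheory Filter Metric

noncomputable section

namespace Vale.Agent.P247.H710

open Vale.Agent.P247.H74 Vale.Agent.P247.H574

attribute [local instance] f2G f2S f1G f1S

variable {D : Data} (S : ICur D)

/-- only the values on the support matter -/
theorem T_congr {φ ψ : R4 → F2} (hφ : CF φ) (hψ : CF ψ) (h : ∀ x ∈ S.supp, φ x = ψ x) :
    S.T φ = S.T ψ := by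
  obtain ⟨μ, hμ, ⟨C, hC⟩, hsupp⟩ := Vale.Agent.P247.H264.MASS D S
  have hnull : μ (S.suppᶜ) = 0 := by
    refine measure_null_of_locally_null _ fun x hx => ?_
    have h1 : ¬ ∀ ε > 0, 0 < μ (ball x ε) := fun h2 => hx ((hsupp x).2 h2)
    push Not at h1
    obtain ⟨ε, hε, h2⟩ := h1
    exact ⟨ball x ε, mem_nhdsWithin_of_mem_nhds (ball_mem_nhds x hε), le_antisymm h2 bot_le⟩
  have hd : CF (fun x => φ x - ψ x) := by
    have h4 := CF.add hφ (CF.smul (-1) hψ)
    convert h4 using 1
    funext x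
    show _ = φ x + (-1 : ℝ) • ψ x
    rw [neg_one_smul, sub_eq_add_neg]
  have h1 := hC _ hd
  have h2 : ∫ x, ‖φ x - ψ x‖ ∂μ = 0 := by
    have h3 : (fun x => ‖φ x - ψ x‖) =ᵐ[μ] fun _ => (0 : ℝ) := by
      have h4 : ∀ᵐ x ∂μ, x ∈ S.supp := by
        rw [ae_iff]
        exact hnull
      filter_upwards [h4] with x hx
      rw [h x hx, sub_self]
      exact norm_zero
    rw [integral_congr_ae h3]
    simp
  rw [h2, mul_zero] at h1
  have h3 : S.T (fun x => φ x - ψ x) = 0 := abs_nonpos_iff.1 h1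
  rw [T_sub S hφ hψ] at h3
  linarith

/-- unfolding: a cut-off which is a partition of unity on the support of the form -/
theorem T_unfold {χ : R4 → ℝ} (hχ : IsPU χ) {φ : R4 → F2} (hc : Continuous φ)
    (hp : ∀ (k : Fin 4 → ℤ) x, φ (tr k x) = φ x) (ha : ∀ x u, φ x u u = 0) {Z : R4 → ℝ}
    (hZ : Continuous Z) (hZs : HasCompactSupport Z)
    (h : ∀ x ∈ S.supp, φ x ≠ 0 → ∑' k : Fin 4 → ℤ, Z (tr k x) = 1) :
    S.T (fun x => χ x • φ x) = S.T (fun x => Z x • φ x) := by
  classical
  have hχc : Continuous χ := hχ.smooth.continuous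
  have hK : Bornology.IsBounded (tsupport χ ∪ tsupport Z) :=
    (hχ.supp.isCompact.isBounded).union hZs.isCompact.isBounded
  obtain ⟨s, hs1, hs2⟩ := exists_window _ hK
  have hZsum : ∀ x ∈ tsupport χ ∪ tsupport Z, ∑ k ∈ s, Z (tr k x) = ∑' k : Fin 4 → ℤ, Z (tr k x) := by
    intro x hx
    symm
    apply tsum_eq_sum
    intro k hk
    by_contra hne
    exact hk (hs2 k x hx (Or.inr (subset_tsupport _ hne)))
  have hχsum : ∀ x ∈ tsupport χ ∪ tsupport Z, ∑ k ∈ s, χ (tr (-k) x) = 1 := by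
    intro x hx
    have h1 : ∑ k ∈ s, χ (tr k x) = 1 := by
      rw [← hχ.sum x]
      symm
      apply tsum_eq_sum
      intro k hk
      by_contra hne
      exact hk (hs2 k x hx (Or.inl (subset_tsupport _ hne)))
    rw [← h1]
    refine Finset.sum_bij' (fun k _ => -k) (fun k _ => -k) ?_ ?_ ?_ ?_ ?_
    · intro k hk; exact (hs1 k).1 hk
    · intro k hk; exact (hs1 k).1 hk
    · intro k _; exact neg_neg k
    · intro k _; exact neg_neg k
    · intro k _; rfl
  have c0 : CF (fun x => χ x • φ x) := CF.fmul hχc hχ.supp hc ha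
  have cZ : CF (fun x => Z x • φ x) := CF.fmul hZ hZs hc ha
  have c1 : ∀ k : Fin 4 → ℤ, CF (fun x => (χ x * Z (tr k x)) • φ x) := fun k =>
    CF.fmul (hχc.mul (hZ.comp (tr_continuous k))) (hχ.supp.mul_right) hc ha
  have c2 : ∀ k : Fin 4 → ℤ, CF (fun x => (χ (tr (-k) x) * Z x) • φ x) := fun k =>
    CF.fmul ((hχc.comp (tr_continuous (-k))).mul hZ) (hZs.mul_left) hc ha
  have e1 : S.T (fun x => χ x • φ x) = S.T (fun x => ∑ k ∈ s, (χ x * Z (tr k x)) • φ x) := by
    apply T_congr S c0 (CF.sum s fun k _ => c1 k)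
    intro x hx
    rw [← Finset.sum_smul, ← Finset.mul_sum]
    by_cases h0 : φ x = 0
    · rw [h0, smul_zero, smul_zero]
    · by_cases hx' : x ∈ tsupport χ
      · rw [hZsum x (Or.inl hx'), h x hx h0, mul_one]
      · have : χ x = 0 := image_eq_zero_of_notMem_tsupport hx'
        rw [this, zero_mul]
  have e2 : S.T (fun x => Z x • φ x) = S.T (fun x => ∑ k ∈ s, (χ (tr (-k) x) * Z x) • φ x) := by
    apply T_congr S cZ (CF.sum s fun k _ => c2 k)
    intro x _
    rw [← Finset.sum_smul, ← Finset.sum_mul]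
    by_cases hx' : x ∈ tsupport Z
    · rw [hχsum x (Or.inr hx'), one_mul]
    · have : Z x = 0 := image_eq_zero_of_notMem_tsupport hx'
      rw [this, mul_zero]
  rw [e1, e2, T_sum S s fun k _ => c1 k, T_sum S s fun k _ => c2 k]
  refine Finset.sum_congr rfl fun k _ => ?_
  rw [← S.per _ (c1 k) (-k)]
  congr 1
  funext x
  rw [tr_neg_cancel, hp]

/-! ## the local contribution -/

/-- the contribution of a pair of branches -/
def Iv (u v : ℂ → R4) (V : R4 → R4) (ρ : ℝ) (f : R4 → ℝ) : ℝ :=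
  ∫ t in ball (0 : ℂ) ρ, ∫ s in ball (0 : ℂ) 1, f (disp V (u t) - v s) *
    vol4 (fderiv ℝ (disp V) (u t) (fderiv ℝ u t 1)) (fderiv ℝ (disp V) (u t) (fderiv ℝ u t Complex.I))
      (fderiv ℝ v s 1) (fderiv ℝ v s Complex.I)

theorem bv_contOn {X : Type*} [TopologicalSpace X] {K : Set X} {a b : X → R4}
    (ha : ContinuousOn a K) (hb : ContinuousOn b K) (i j : Fin 4) :
    ContinuousOn (fun p => bv (a p) (b p) i j) K := by
  have h1 : ∀ i, ContinuousOn (fun p => a p i) K := fun i =>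
    (continuous_apply i).comp_continuousOn ha
  have h2 : ∀ i, ContinuousOn (fun p => b p i) K := fun i =>
    (continuous_apply i).comp_continuousOn hb
  exact ((h1 i).mul (h2 j)).sub ((h1 j).mul (h2 i))

theorem vol4_contOn {X : Type*} [TopologicalSpace X] {K : Set X} {a b c d : X → R4}
    (ha : ContinuousOn a K) (hb : ContinuousOn b K) (hc : ContinuousOn c K)
    (hd : ContinuousOn d K) : ContinuousOn (fun p => vol4 (a p) (b p) (c p) (d p)) K := by
  have e1 := fun i j => bv_contOn ha hb i j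
  have e2 := fun i j => bv_contOn hc hd i j
  unfold vol4
  exact ((((((e1 0 1).mul (e2 2 3)).sub ((e1 0 2).mul (e2 1 3))).add ((e1 0 3).mul (e2 1 2))).add
    ((e1 1 2).mul (e2 0 3))).sub ((e1 1 3).mul (e2 0 2))).add ((e1 2 3).mul (e2 0 1))

variable {x : R4} {N : ℕ} {u : Fin N → ℂ → R4} {ε : ℝ}

theorem Iv_integrable {u v : ℂ → R4} (hu : ContDiffOn ℝ ∞ u (ball 0 2))
    (hv : ContDiffOn ℝ ∞ v (ball 0 2)) {V : R4 → R4} (hV : IsPer V) {ρ : ℝ} (hρ : ρ < 2)
    {f : R4 → ℝ} (hf : Continuous f) :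
    IntegrableOn (fun t => ∫ s in ball (0 : ℂ) 1, f (disp V (u t) - v s) *
      vol4 (fderiv ℝ (disp V) (u t) (fderiv ℝ u t 1))
        (fderiv ℝ (disp V) (u t) (fderiv ℝ u t Complex.I))
        (fderiv ℝ v s 1) (fderiv ℝ v s Complex.I)) (ball (0 : ℂ) ρ) := by
  have hdu : ContinuousOn (fderiv ℝ u) (ball 0 2) :=
    hu.continuousOn_fderiv_of_isOpen isOpen_ball (by simp)
  have hdv : ContinuousOn (fderiv ℝ v) (ball 0 2) :=
    hv.continuousOn_fderiv_of_isOpen isOpen_ball (by simp)
  have hΦ : Continuous (fderiv ℝ (disp V)) := (disp_smooth hV).continuous_fderiv (by simp)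
  set K : Set (ℂ × ℂ) := closedBall (0 : ℂ) ρ ×ˢ closedBall (0 : ℂ) 1 with hK
  have hKc : IsCompact K := (isCompact_closedBall _ _).prod (isCompact_closedBall _ _)
  have s1 : ∀ p ∈ K, p.1 ∈ ball (0 : ℂ) 2 := fun p hp =>
    closedBall_subset_ball hρ hp.1
  have s2 : ∀ p ∈ K, p.2 ∈ ball (0 : ℂ) 2 := fun p hp =>
    closedBall_subset_ball (by norm_num) hp.2
  have k1 : ContinuousOn (fun p : ℂ × ℂ => u p.1) K :=
    hu.continuousOn.comp continuousOn_fst s1
  have k2 : ContinuousOn (fun p : ℂ × ℂ => v p.2) K :=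
    hv.continuousOn.comp continuousOn_snd s2
  have k3 : ContinuousOn (fun p : ℂ × ℂ => fderiv ℝ u p.1) K := hdu.comp continuousOn_fst s1
  have k4 : ContinuousOn (fun p : ℂ × ℂ => fderiv ℝ v p.2) K := hdv.comp continuousOn_snd s2
  have k5 : ContinuousOn (fun p : ℂ × ℂ => fderiv ℝ (disp V) (u p.1)) K := hΦ.comp_continuousOn k1
  have k6 : ∀ a : ℂ, ContinuousOn (fun p : ℂ × ℂ => fderiv ℝ (disp V) (u p.1) (fderiv ℝ u p.1 a)) K :=
    fun a => k5.clm_apply (k3.clm_apply continuousOn_const)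
  have k7 : ∀ a : ℂ, ContinuousOn (fun p : ℂ × ℂ => fderiv ℝ v p.2 a) K :=
    fun a => k4.clm_apply continuousOn_const
  have hcont : ContinuousOn (fun p : ℂ × ℂ => f (disp V (u p.1) - v p.2) *
      vol4 (fderiv ℝ (disp V) (u p.1) (fderiv ℝ u p.1 1))
        (fderiv ℝ (disp V) (u p.1) (fderiv ℝ u p.1 Complex.I))
        (fderiv ℝ v p.2 1) (fderiv ℝ v p.2 Complex.I)) K := by
    refine ContinuousOn.mul ?_ ?_
    · exact hf.comp_continuousOn
        (((disp_smooth hV).continuous.comp_continuousOn k1).sub k2)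
    · exact vol4_contOn (k6 1) (k6 Complex.I) (k7 1) (k7 Complex.I)
  have hint := hcont.integrableOn_compact (μ := (volume : Measure (ℂ × ℂ))) hKc
  have hint2 := hint.mono_set (s := ball (0 : ℂ) ρ ×ˢ ball (0 : ℂ) 1)
    (prod_mono ball_subset_closedBall ball_subset_closedBall)
  unfold IntegrableOn at hint2 ⊢
  rw [Measure.volume_eq_prod, ← Measure.prod_restrict] at hint2
  exact hint2.integral_prod_left

/-- evaluation of the current at a point with the local structure -/
theorem T_local (hB : Brs D S.supp x N u ε) {m : Fin N → ℕ}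
    (hT : ∀ φ, CF φ → tsupport φ ⊆ ball x ε → S.T φ = ∑ l, (m l : ℝ) * brI (u l) φ)
    {V : R4 → R4} (hV : IsPer V) {ρ : ℝ} (hρ : ρ ≤ 1) {f : R4 → ℝ} (hf : ContDiff ℝ ∞ f)
    (hfs : HasCompactSupport f) {ζ : R4 → ℝ} (hζ : Continuous ζ) (hζc : HasCompactSupport ζ)
    (hζs : tsupport ζ ⊆ ball x ε)
    (ha : ∀ l, ∀ z ∈ ball (0 : ℂ) 1, ρ ≤ ‖z‖ → ζ (u l z) = 0 ∨ om S f (disp V (u l z)) = 0)
    (hb : ∀ l, ∀ z ∈ ball (0 : ℂ) ρ, ζ (u l z) = 1)
    (hc : ∀ l, ∀ z ∈ ball (0 : ℂ) ρ, ∀ y, f (disp V (u l z) - y) ≠ 0 → dist y x ≤ ε / 2) :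
    S.T (fun x => ζ x • pull (disp V) (om S f) x) =
      ∑ l, ∑ j, (m l : ℝ) * (m j : ℝ) * Iv (u l) (u j) V ρ f := by
  have hε : 0 < ε := hB.posε
  have cζ : CF (fun x => ζ x • pull (disp V) (om S f) x) := by
    refine CF.fmul hζ hζc
      (pull_continuous (disp_smooth hV) (om_contDiff S hf hfs).continuous) fun x u => ?_
    rw [pull_apply, om_self S hf.continuous hfs]
  rw [hT _ cζ]
  swap
  · refine (closure_mono ?_).trans hζs
    intro y hy hζ0
    apply hy
    show ζ y • _ = 0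
    rw [hζ0, zero_smul]
  refine Finset.sum_congr rfl fun l _ => ?_
  have h1 : brI (u l) (fun x => ζ x • pull (disp V) (om S f) x) =
      ∑ j, (m j : ℝ) * Iv (u l) (u j) V ρ f := by
    unfold brI
    rw [setIntegral_eq_of_subset_of_forall_sdiff_eq_zero (s := ball (0 : ℂ) ρ)
      measurableSet_ball (ball_subset_ball hρ)]
    · have h2 : ∀ z ∈ ball (0 : ℂ) ρ, (ζ (u l z) • pull (disp V) (om S f) (u l z))
          (fderiv ℝ (u l) z 1) (fderiv ℝ (u l) z Complex.I) =
          ∑ j, (m j : ℝ) * ∫ s in ball (0 : ℂ) 1, f (disp V (u l z) - u j s) *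
            vol4 (fderiv ℝ (disp V) (u l z) (fderiv ℝ (u l) z 1))
              (fderiv ℝ (disp V) (u l z) (fderiv ℝ (u l) z Complex.I))
              (fderiv ℝ (u j) s 1) (fderiv ℝ (u j) s Complex.I) := by
        intro z hz
        rw [hb l z hz, one_smul, pull_apply, om_apply S hf.continuous hfs]
        set a := fderiv ℝ (disp V) (u l z) (fderiv ℝ (u l) z 1)
        set b := fderiv ℝ (disp V) (u l z) (fderiv ℝ (u l) z Complex.I)
        have c3 := cc_cf hf.continuous hfs (vol2_self a b) (disp V (u l z))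
        rw [hT _ c3]
        · refine Finset.sum_congr rfl fun j _ => ?_
          congr 1
        · have h3 : tsupport (fun y => f (disp V (u l z) - y) • vol2 a b) ⊆ closedBall x (ε / 2) := by
            apply closure_minimal _ isClosed_closedBall
            intro y hy
            apply hc l z hz y
            intro h0
            apply hy
            show f (disp V (u l z) - y) • vol2 a b = 0
            rw [h0, zero_smul]
          exact h3.trans (closedBall_subset_ball (by linarith))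
      rw [setIntegral_congr_fun measurableSet_ball h2, integral_finsetSum]
      · refine Finset.sum_congr rfl fun j _ => ?_
        rw [integral_const_mul]
        rfl
      · intro j _
        exact (Iv_integrable (hB.disc l).smooth (hB.disc j).smooth hV (by linarith)
          hf.continuous).const_mul _
    · intro z hz
      have h4 : ρ ≤ ‖z‖ := by
        have := hz.2
        rwa [mem_ball_zero_iff, not_lt] at this
      rcases ha l z hz.1 h4 with h5 | h5
      · show ζ (u l z) * _ = 0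
        rw [h5, zero_mul]
      · show ζ (u l z) * pull (disp V) (om S f) (u l z) _ _ = 0
        rw [pull_apply, h5]
        exact mul_zero _
  rw [h1, Finset.mul_sum]
  refine Finset.sum_congr rfl fun j _ => ?_
  ring

end Vale.Agent.P247.H710
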