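import Vale.Agent.P247.H710.CntB
import Vale.Agent.P247.H74.CE.Om
import Vale.Agent.P247.H74.WWIND.Wind

/-!
# P247, package COUNT, part C: lemmas for the assembly
-/

open scoped ContDiff Topology
open Set MeasureTheory Filter Metric

noncomputable section

namespace Vale.Agent.P247.H710

open Vale.Agent.P247.H74 Vale.Agent.P247.H574

/-- winding number of a holomorphic function with an isolated zero -/
theorem winding_hol {h : ℂ → ℂ} {r : ℝ} (hr : 0 < r) (hh : DifferentiableOn ℂ h (ball 0 r))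
    (hne : ∀ z ∈ ball (0 : ℂ) r, z ≠ 0 → h z ≠ 0) :
    ∃ n : ℕ, (n = 0 → h 0 ≠ 0) ∧ ∀ᶠ ρ in 𝓝[>] (0 : ℝ), HasWinding h 0 ρ n := by
  have ha : AnalyticAt ℂ h 0 := hh.analyticAt (ball_mem_nhds 0 hr)
  have hnz : ¬ ∀ᶠ z in 𝓝 (0 : ℂ), h z = 0 := by
    intro hcon
    rw [Metric.eventually_nhds_iff] at hcon
    obtain ⟨s, hs, hcon⟩ := hcon
    set t : ℝ := min r s / 2 with ht
    have ht0 : 0 < t := by rw [ht]; have := lt_min hr hs; linarith
    have htr : t < r := by have := min_le_left r s; have := lt_min hr hs; rw [ht]; linarith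
    have hts : t < s := by have := min_le_right r s; have := lt_min hr hs; rw [ht]; linarith
    have hn : ‖(t : ℂ)‖ = t := by rw [Complex.norm_real, Real.norm_eq_abs, abs_of_pos ht0]
    refine hne (t : ℂ) (by rw [mem_ball_zero_iff, hn]; exact htr) ?_ (hcon ?_)
    · exact_mod_cast ht0.ne'
    · rw [dist_zero_right, hn]; exact hts
  obtain ⟨n, g, hg, hg0, heq⟩ := (ha.exists_eventuallyEq_pow_smul_nonzero_iff).2 hnz
  refine ⟨n, fun hn => ?_, ?_⟩
  · have := heq.self_of_nhds
    rw [this, hn]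
    simpa using hg0
  · have hev : ∀ᶠ z in 𝓝 (0 : ℂ), h z = (z - 0) ^ n • g z ∧ g z ≠ 0 ∧ ContinuousAt g z := by
      refine heq.and (((hg.continuousAt.eventually_ne hg0)).and ?_)
      exact (hg.eventually_analyticAt).mono fun z hz => hz.continuousAt
    rw [Metric.eventually_nhds_iff] at hev
    obtain ⟨s, hs, hev⟩ := hev
    have : Ioo (0 : ℝ) s ∈ 𝓝[>] (0 : ℝ) := Ioo_mem_nhdsGT hs
    filter_upwards [this] with ρ hρ
    have hin : ∀ z ∈ closedBall (0 : ℂ) ρ, dist z 0 < s := fun z hz => lt_of_le_of_lt hz hρ.2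
    have h3 : HasWinding g 0 ρ 0 := WWIND.W3 g 0 ρ hρ.1
      (fun z hz => (hev (hin z hz)).2.2.continuousWithinAt) fun z hz => (hev (hin z hz)).2.1
    obtain ⟨G, hG1, hG2⟩ := h3
    refine ⟨G, hG1, fun z hz => ?_⟩
    rw [(hev (hin z (sphere_subset_closedBall hz))).1, hG2 z hz, zpow_zero, one_mul, smul_eq_mul,
      zpow_natCast]

/-- points of `P` are separated modulo the lattice -/
theorem exists_sep (P : Finset R4)
    (hP : ∀ p ∈ P, ∀ q ∈ P, ∀ k : Fin 4 → ℤ, p = tr k q → p = q ∧ k = 0) :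
    ∃ η > 0, ∀ p ∈ P, ∀ q ∈ P, ∀ k : Fin 4 → ℤ, dist p (tr k q) < η → p = q ∧ k = 0 := by
  classical
  have h1 : ∀ p q : R4, ∃ η > 0, ∀ k : Fin 4 → ℤ, dist p (tr k q) < η → p = tr k q := by
    intro p q
    have hK : Bornology.IsBounded ({q} ∪ closedBall p 1) :=
      Bornology.isBounded_singleton.union isBounded_closedBall
    obtain ⟨s, -, hs⟩ := exists_window _ hK
    set s' : Finset (Fin 4 → ℤ) := s.filter fun k => p ≠ tr k q with hs'
    rcases s'.eq_empty_or_nonempty with he | hne
    · refine ⟨1, one_pos, fun k hk => ?_⟩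
      by_contra hcon
      have hk1 : k ∈ s := hs k q (Or.inl rfl) (Or.inr (by
        rw [mem_closedBall, dist_comm]; exact hk.le))
      have : k ∈ s' := Finset.mem_filter.2 ⟨hk1, hcon⟩
      rw [he] at this
      exact absurd this (Finset.notMem_empty k)
    · refine ⟨min 1 (s'.inf' hne fun k => dist p (tr k q)), ?_, fun k hk => ?_⟩
      · refine lt_min one_pos ?_
        rw [Finset.lt_inf'_iff]
        intro k hk
        exact dist_pos.2 (Finset.mem_filter.1 hk).2
      · by_contra hcon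
        have hk0 : dist p (tr k q) < 1 := lt_of_lt_of_le hk (min_le_left _ _)
        have hk1 : k ∈ s := hs k q (Or.inl rfl) (Or.inr (by
          rw [mem_closedBall, dist_comm]; exact hk0.le))
        have hk2 : k ∈ s' := Finset.mem_filter.2 ⟨hk1, hcon⟩
        have hk3 := (min_le_right 1 (s'.inf' hne fun k => dist p (tr k q))).trans
          (Finset.inf'_le (fun k => dist p (tr k q)) hk2)
        linarith
  choose η hη h2 using h1
  rcases P.eq_empty_or_nonempty with he | hne
  · exact ⟨1, one_pos, fun p hp => by rw [he] at hp; exact absurd hp (Finset.notMem_empty p)⟩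
  · have hne2 : (P ×ˢ P).Nonempty := hne.product hne
    refine ⟨(P ×ˢ P).inf' hne2 fun pq => η pq.1 pq.2, ?_, fun p hp q hq k hk => ?_⟩
    · rw [gt_iff_lt, Finset.lt_inf'_iff]
      exact fun pq _ => hη _ _
    · apply hP p hp q hq k
      apply h2
      refine lt_of_lt_of_le hk ?_
      exact Finset.inf'_le (fun pq : R4 × R4 => η pq.1 pq.2) (Finset.mk_mem_product hp hq)

/-- a continuous cut-off -/
def cut (c : R4) (η : ℝ) (x : R4) : ℝ := max 0 (min 1 (2 - 2 * dist x c / η))

theorem cut_cont (c : R4) (η : ℝ) : Continuous (cut c η) := by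
  unfold cut
  fun_prop

theorem cut_one {c : R4} {η : ℝ} (hη : 0 < η) {x : R4} (h : dist x c ≤ η / 2) : cut c η x = 1 := by
  unfold cut
  have h1 : 2 * dist x c / η ≤ 1 := by rw [div_le_one hη]; linarith
  rw [min_eq_left (by linarith), max_eq_right zero_le_one]

theorem cut_zero {c : R4} {η : ℝ} (hη : 0 < η) {x : R4} (h : η ≤ dist x c) : cut c η x = 0 := by
  unfold cut
  have h1 : 2 ≤ 2 * dist x c / η := by rw [le_div_iff₀ hη]; linarith
  rw [max_eq_left]
  exact (min_le_right _ _).trans (by linarith)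

theorem cut_tsupport (c : R4) {η : ℝ} (hη : 0 < η) : tsupport (cut c η) ⊆ closedBall c η := by
  apply closure_minimal _ isClosed_closedBall
  intro x hx
  by_contra hn
  rw [mem_closedBall, not_le] at hn
  exact hx (cut_zero hη hn.le)

theorem cut_supp (c : R4) {η : ℝ} (hη : 0 < η) : HasCompactSupport (cut c η) :=
  (isCompact_closedBall c η).of_isClosed_subset (isClosed_tsupport _) (cut_tsupport c hη)

/-- periodic vector fields are bounded -/
theorem per_bdd {V : R4 → R4} (hV : IsPer V) : ∃ B > 0, ∀ x, ‖V x‖ ≤ B := by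
  obtain ⟨B, hB⟩ := (isCompact_Icc (a := (0 : R4)) (b := 1)).exists_bound_of_continuousOn
    hV.smooth.continuous.continuousOn
  refine ⟨max B 1, by positivity, fun x => ?_⟩
  obtain ⟨k, hk⟩ := exists_tr_mem x
  rw [← hV.per k x]
  exact (hB _ ⟨fun i => (hk i).1, fun i => (hk i).2.le⟩).trans (le_max_left _ _)

theorem isPer_smul {V : R4 → R4} (hV : IsPer V) (δ : ℝ) : IsPer fun x => δ • V x :=
  ⟨hV.smooth.const_smul δ, fun k x => by rw [hV.per]⟩

/-- comparison of the two forms of the contribution -/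
theorem Iv_eq {u v : ℂ → R4} {V W : R4 → R4} (hV : IsPer V) {δ ρ : ℝ} (hρ : ρ ≤ 2)
    (hu : ContDiffOn ℝ ∞ u (ball 0 2)) (h : ∀ z ∈ ball (0 : ℂ) ρ, W (u z) = V (u z)) (f : R4 → ℝ) :
    H58.LW.Iuv u v W δ ρ f = Iv u v (fun x => δ • V x) ρ f := by
  unfold H58.LW.Iuv Iv
  refine setIntegral_congr_fun measurableSet_ball fun t ht => ?_
  refine setIntegral_congr_fun measurableSet_ball fun s _ => ?_
  have hδ := isPer_smul hV δ
  have e1 : H58.LW.push u W δ t = disp (fun x => δ • V x) (u t) := by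
    show u t + δ • W (u t) = u t + δ • V (u t)
    rw [h t ht]
  have e2 : H58.LW.push u W δ =ᶠ[𝓝 t] fun z => disp (fun x => δ • V x) (u z) := by
    filter_upwards [isOpen_ball.mem_nhds ht] with z hz
    show u z + δ • W (u z) = u z + δ • V (u z)
    rw [h z hz]
  have hud : DifferentiableAt ℝ u t :=
    (hu.contDiffAt (isOpen_ball.mem_nhds (ball_subset_ball hρ ht))).differentiableAt (by simp)
  have e3 : fderiv ℝ (H58.LW.push u W δ) t =
      (fderiv ℝ (disp fun x => δ • V x) (u t)).comp (fderiv ℝ u t) := by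
    rw [e2.fderiv_eq]
    exact fderiv_comp t ((disp_smooth hδ).differentiable (by simp) _) hud
  show f (H58.LW.push u W δ t - v s) * H58.LW.vol4 _ _ _ _ = _
  rw [e1, e3, H58.LW.vol4, ← vol4_eq_det]
  rfl

/-- a zero free point gives positivity of the integral of the kernel -/
theorem ker_integral_pos {M : ℕ} (hM : 0 < M) : 0 < ∫ x, ker M x := by
  rw [integral_pos_iff_support_of_nonneg (ker_nonneg M)
    ((ker_smooth M).continuous.integrable_of_hasCompactSupport (ker_supp hM))]
  have hopen : IsOpen (Function.support (ker M)) :=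
    (ker_smooth M).continuous.isOpen_support
  refine hopen.measure_pos volume ⟨0, ?_⟩
  show ker M 0 ≠ 0
  unfold ker
  rw [smul_zero, bet_zero]
  exact one_ne_zero

/-- the transversal coordinate of a vector field -/
def vcoord (D : Data) (p a b : R4) (V : R4 → R4) (y : R4) : ℂ :=
  (Om D p a b)⁻¹ * Om D p a (V y)

theorem vcoord_smooth (D : Data) (p a b : R4) {V : R4 → R4} (hV : ContDiff ℝ ∞ V) :
    ContDiff ℝ ∞ (vcoord D p a b V) := by
  unfold vcoord
  have h1 : ContDiff ℝ ∞ fun y : R4 => Om D p a (V y) :=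
    (OmProps D).1.comp (contDiff_const.prodMk (contDiff_const.prodMk hV))
  exact contDiff_const.mul h1

theorem vcoord_spec (D : Data) {p a b : R4} (hab : Om D p a b ≠ 0) {V : R4 → R4} {y : R4} {w : ℂ}
    (h : V y = cm D p w b) : cm D p (vcoord D p a b V y) b = V y := by
  have : vcoord D p a b V y = w := by
    unfold vcoord
    rw [h, (OmProps D).2.2.2.2.1, mul_comm w, ← mul_assoc, inv_mul_cancel₀ hab, one_mul]
  rw [this, h]

end Vale.Agent.P247.H710
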