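import Vale.Agent.P247.H710.CntC

/-!
# P247, package COUNT: there are no special points
-/

open scoped ContDiff Topology
open Set MeasureTheory Filter Metric

noncomputable section

namespace Vale.Agent.P247.H710

open Vale.Agent.P247.H74 Vale.Agent.P247.H574

attribute [local instance] f2G f2S f1G f1S

/-- the data at the points of the support -/
structure Dat {D : Data} (S : ICur D) (θ : R4 → R4 →L[ℝ] ℂ) where
  N : R4 → ℕ
  u : ∀ p, Fin (N p) → ℂ → R4
  m : ∀ p, Fin (N p) → ℕ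
  ε : R4 → ℝ
  b : R4 → R4
  h : ∀ p, Fin (N p) → ℂ → ℂ
  r : R4 → ℝ
  brs : ∀ x ∈ S.supp, Brs D S.supp x (N x) (u x) (ε x)
  one : ∀ x ∈ S.supp, ∀ l, 1 ≤ m x l
  val : ∀ x ∈ S.supp, ∀ φ, CF φ → tsupport φ ⊆ ball x (ε x) →
    S.T φ = ∑ l, (m x l : ℝ) * brI (u x l) φ
  trans : ∀ x ∈ S.supp, ∀ l, H58.LW.Trans D x (u x l) (b x)
  rpos : ∀ x, 0 < r x
  hol : ∀ x ∈ S.supp, ∀ l, DifferentiableOn ℂ (h x l) (ball 0 (r x)) ∧
    (∀ z ∈ ball (0 : ℂ) (r x), z ≠ 0 → h x l z ≠ 0) ∧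
    ∀ z ∈ ball (0 : ℂ) (r x), (z ≠ 0 ∨ (N x = 1 ∧ fderiv ℝ (u x l) 0 1 ≠ 0)) →
      θ (u x l z) (fderiv ℝ (u x l) z 1) = h x l z ∧
      θ (u x l z) (fderiv ℝ (u x l) z Complex.I) = Complex.I * h x l z

theorem exists_dat (hTRV : H58.LW.TRV_statement) {D : Data} (S : ICur D)
    (hLS : ∀ x ∈ S.supp, LocStr S x) {θ : R4 → R4 →L[ℝ] ℂ} (hθ : HolDiff D S.supp θ) :
    Nonempty (Dat S θ) := by
  classical
  have h1 : ∀ x : R4, ∃ (N : ℕ) (u : Fin N → ℂ → R4) (m : Fin N → ℕ) (ε : ℝ), x ∈ S.supp →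
      (Brs D S.supp x N u ε ∧ (∀ l, 1 ≤ m l) ∧
      ∀ φ, CF φ → tsupport φ ⊆ ball x ε → S.T φ = ∑ l, (m l : ℝ) * brI (u l) φ) := by
    intro x
    by_cases hx : x ∈ S.supp
    · obtain ⟨N, u, m, ε, h⟩ := hLS x hx
      exact ⟨N, u, m, ε, fun _ => h⟩
    · exact ⟨0, fun i => i.elim0, fun i => i.elim0, 1, fun h => absurd h hx⟩
  choose N u m ε hdat using h1
  have h2 : ∀ x : R4, ∃ b : R4, x ∈ S.supp → ∀ l, H58.LW.Trans D x (u x l) b := by
    intro x
    by_cases hx : x ∈ S.supp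
    · obtain ⟨b, hb⟩ := hTRV D S.supp x (N x) (u x) (ε x) (hdat x hx).1
      exact ⟨b, fun _ => hb⟩
    · exact ⟨0, fun h => absurd h hx⟩
  choose b hb using h2
  have h3 : ∀ x : R4, ∃ (h : Fin (N x) → ℂ → ℂ) (r : ℝ), 0 < r ∧ (x ∈ S.supp →
      ∀ l, DifferentiableOn ℂ (h l) (ball 0 r) ∧ (∀ z ∈ ball (0 : ℂ) r, z ≠ 0 → h l z ≠ 0) ∧
      ∀ z ∈ ball (0 : ℂ) r, (z ≠ 0 ∨ (N x = 1 ∧ fderiv ℝ (u x l) 0 1 ≠ 0)) →
      θ (u x l z) (fderiv ℝ (u x l) z 1) = h l z ∧
      θ (u x l z) (fderiv ℝ (u x l) z Complex.I) = Complex.I * h l z) := by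
    intro x
    by_cases hx : x ∈ S.supp
    · choose rl hrl h hh1 hh2 hh3 using hθ.hol x hx (N x) (u x) (ε x) (hdat x hx).1
      have hN : (Finset.univ : Finset (Fin (N x))).Nonempty :=
        ⟨⟨0, (hdat x hx).1.posN⟩, Finset.mem_univ _⟩
      have hle : ∀ l, Finset.univ.inf' hN rl ≤ rl l := fun l =>
        Finset.inf'_le _ (Finset.mem_univ l)
      refine ⟨h, Finset.univ.inf' hN rl, ?_, fun _ l => ⟨?_, ?_, ?_⟩⟩
      · rw [Finset.lt_inf'_iff]
        exact fun l _ => hrl l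
      · exact (hh1 l).mono (ball_subset_ball (hle l))
      · exact fun z hz => hh2 l z (ball_subset_ball (hle l) hz)
      · exact fun z hz => hh3 l z (ball_subset_ball (hle l) hz)
    · exact ⟨fun _ _ => 0, 1, one_pos, fun h => absurd h hx⟩
  choose h r hr hh using h3
  exact ⟨⟨N, u, m, ε, b, h, r, fun x hx => (hdat x hx).1, fun x hx => (hdat x hx).2.1,
    fun x hx => (hdat x hx).2.2, hb, hr, hh⟩⟩

/-- a positive lower bound over a finite set -/
theorem exists_min {ι : Type*} (P : Finset ι) (f : ι → ℝ) (hf : ∀ p ∈ P, 0 < f p) :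
    ∃ c > 0, ∀ p ∈ P, c ≤ f p := by
  classical
  induction P using Finset.induction_on with
  | empty => exact ⟨1, one_pos, fun p hp => absurd hp (Finset.notMem_empty p)⟩
  | insert a s ha ih =>
    obtain ⟨c, hc, hcs⟩ := ih fun p hp => hf p (Finset.mem_insert_of_mem hp)
    refine ⟨min c (f a), lt_min hc (hf a (Finset.mem_insert_self a s)), fun p hp => ?_⟩
    rcases Finset.mem_insert.1 hp with h | h
    · rw [h]; exact min_le_right _ _
    · exact (min_le_left _ _).trans (hcs p h)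

/-- The identity: the sum of the local contributions vanishes. -/
theorem sum_zero {D : Data} {S : ICur D} {θ : R4 → R4 →L[ℝ] ℂ} (dat : Dat S θ) {P : Finset R4}
    (hPK : ∀ p ∈ P, p ∈ S.supp) {η : ℝ} (hη : 0 < η)
    (hsep : ∀ p ∈ P, ∀ q ∈ P, ∀ k : Fin 4 → ℤ, dist p (tr k q) < 2 * η → p = q ∧ k = 0)
    (hηε : ∀ p ∈ P, 4 * η ≤ dat.ε p) {ρ : ℝ} (hρ0 : 0 < ρ) (hρ1 : ρ ≤ 1)
    (hsmall : ∀ p ∈ P, ∀ l, ∀ z ∈ ball (0 : ℂ) ρ, dist (dat.u p l z) p < η / 4)
    {V : R4 → R4} (hV : IsPer V) (hVs : ∀ x, ‖V x‖ ≤ η / 4)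
    {M : ℕ} (hM : 0 < M) (hM1 : 1 / (M : ℝ) ≤ η / 4)
    (hout : ∀ x ∈ Out S.supp P dat.N dat.u ρ, ∀ y ∈ S.supp, 1 / (M : ℝ) ≤ dist (x + V x) y) :
    ∑ p ∈ P, ∑ l, ∑ j, (dat.m p l : ℝ) * (dat.m p j : ℝ) *
      Iv (dat.u p l) (dat.u p j) V ρ (ker M) = 0 := by
  classical
  set f := ker M with hf
  have hfc : ContDiff ℝ ∞ f := ker_smooth M
  have hfs : HasCompactSupport f := ker_supp hM
  -- the form vanishes outside the discs
  have hzero : ∀ x ∈ Out S.supp P dat.N dat.u ρ, om S f (disp V x) = 0 := by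
    intro x hx
    ext a b
    rw [om_apply S hfc.continuous hfs]
    have h1 := T_congr S (cc_cf hfc.continuous hfs (vol2_self a b) (disp V x)) CF.zero (by
      intro y hy
      have h2 : f (disp V x - y) = 0 := by
        apply ker_zero_of hM
        rw [← dist_eq_norm]
        exact hout x hx y hy
      rw [h2, zero_smul])
    rw [h1, T_zero]
    rfl
  set φ : R4 → F2 := pull (disp V) (om S f) with hφ
  have hφc : Continuous φ := pull_continuous (disp_smooth hV) (om_contDiff S hfc hfs).continuous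
  have hφp : ∀ (k : Fin 4 → ℤ) x, φ (tr k x) = φ x := by
    intro k x
    ext a b
    rw [hφ, pull_apply, pull_apply, disp_tr hV, fderiv_disp_tr hV, om_per S hfc.continuous hfs]
  have hφa : ∀ x u, φ x u u = 0 := by
    intro x u
    rw [hφ, pull_apply, om_self S hfc.continuous hfs]
  -- the cut-offs
  set Z : R4 → ℝ := fun x => ∑ p ∈ P, cut p η x with hZ
  have hZc : Continuous Z := continuous_finsetSum _ fun p _ => cut_cont p η
  have hZs : HasCompactSupport Z := by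
    have : ∀ Q : Finset R4, HasCompactSupport fun x => ∑ p ∈ Q, cut p η x := by
      intro Q
      induction Q using Finset.induction_on with
      | empty =>
        simp only [Finset.sum_empty]
        exact HasCompactSupport.zero
      | insert a s ha ih =>
        have e1 : (fun x => ∑ p ∈ insert a s, cut p η x) = cut a η + fun x => ∑ p ∈ s, cut p η x := by
          funext x; rw [Finset.sum_insert ha]; rfl
        rw [e1]
        exact (cut_supp a hη).add ih
    exact this P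
  -- points where the form does not vanish
  have hnear : ∀ x ∈ S.supp, φ x ≠ 0 → ∃ p ∈ P, ∃ k : Fin 4 → ℤ, ∃ y, x = tr k y ∧
      dist y p < η / 4 := by
    intro x hx hne
    by_contra hcon
    apply hne
    have hxo : x ∈ Out S.supp P dat.N dat.u ρ := by
      refine ⟨hx, fun p hp l z hz k heq => hcon ?_⟩
      exact ⟨p, hp, k, dat.u p l z, heq, hsmall p hp l z hz⟩
    ext a b
    rw [hφ, pull_apply, hzero x hxo]
    rfl
  have hkey : ∀ p ∈ P, ∀ q ∈ P, ∀ (k : Fin 4 → ℤ) y, dist y p < η / 4 → cut q η (tr k y) ≠ 0 →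
      q = p ∧ k = 0 := by
    intro p hp q hq k y hy hc
    have h1 : dist (tr k y) q < η := by
      by_contra hcon
      push Not at hcon
      exact hc (cut_zero hη hcon)
    apply hsep q hq p hp k
    have h2 : dist (tr k y) (tr k p) = dist y p := by
      rw [tr_sub, tr_sub, dist_add_right]
    calc dist q (tr k p) ≤ dist q (tr k y) + dist (tr k y) (tr k p) := dist_triangle _ _ _
      _ = dist (tr k y) q + dist y p := by rw [dist_comm q, h2]
      _ < 2 * η := by linarith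
  have hZsum : ∀ x ∈ S.supp, φ x ≠ 0 → ∑' k : Fin 4 → ℤ, Z (tr k x) = 1 := by
    intro x hx hne
    obtain ⟨p, hp, k, y, hxy, hy⟩ := hnear x hx hne
    rw [tsum_eq_single (-k)]
    · rw [hxy, tr_neg_cancel', hZ]
      show ∑ q ∈ P, cut q η y = 1
      rw [Finset.sum_eq_single p]
      · exact cut_one hη (by linarith)
      · intro q hq hqp
        by_contra hc
        have := hkey p hp q hq 0 y hy (by rwa [tr_zero])
        exact hqp this.1
      · exact fun h => absurd hp h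
    · intro j hj
      rw [hxy, tr_tr]
      show ∑ q ∈ P, cut q η (tr (j + k) y) = 0
      refine Finset.sum_eq_zero fun q hq => ?_
      by_contra hc
      have := hkey p hp q hq (j + k) y hy hc
      exact hj (eq_neg_of_add_eq_zero_left this.2)
  -- SUM
  have h0 := SUM S bet_isPU hV hM
  rw [T_unfold S bet_isPU hφc hφp hφa hZc hZs hZsum] at h0
  have cc : ∀ p ∈ P, CF (fun x => cut p η x • φ x) := fun p _ =>
    CF.fmul (cut_cont p η) (cut_supp p hη) hφc hφa
  have e1 : (fun x => Z x • φ x) = fun x => ∑ p ∈ P, cut p η x • φ x := by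
    funext x
    exact Finset.sum_smul
  rw [e1, T_sum S P cc] at h0
  rw [← h0]
  refine Finset.sum_congr rfl fun p hp => ?_
  have hB := dat.brs p (hPK p hp)
  have hεη := hηε p hp
  symm
  apply T_local S hB (dat.val p (hPK p hp)) hV hρ1 hfc hfs (cut_cont p η) (cut_supp p hη)
  · exact (cut_tsupport p hη).trans (closedBall_subset_ball (by linarith))
  · intro l z hz hρz
    by_cases hc : cut p η (dat.u p l z) = 0
    · exact Or.inl hc
    · right
      apply hzero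
      have hz2 : z ∈ ball (0 : ℂ) 2 := ball_subset_ball (by norm_num) hz
      refine ⟨hB.mem l z hz2, fun q hq l' z' hz' k heq => ?_⟩
      have h1 : dist (dat.u p l z) p < η := by
        by_contra hcon
        push Not at hcon
        exact hc (cut_zero hη hcon)
      have h2 := hsmall q hq l' z' hz'
      have h3 : dist (tr k (dat.u q l' z')) (tr k q) = dist (dat.u q l' z') q := by
        rw [tr_sub, tr_sub, dist_add_right]
      have h3' : dist (dat.u p l z) (tr k q) = dist (dat.u q l' z') q := by rw [heq, h3]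
      have h4 : dist p (tr k q) < 2 * η := by
        calc dist p (tr k q) ≤ dist p (dat.u p l z) + dist (dat.u p l z) (tr k q) :=
              dist_triangle _ _ _
          _ < 2 * η := by rw [dist_comm p, h3']; linarith
      obtain ⟨h5, h6⟩ := hsep p hp q hq k h4
      subst h5
      rw [h6, tr_zero] at heq
      rw [mem_ball_zero_iff] at hz'
      rcases hB.inj l l' z hz2 z' (by rw [mem_ball_zero_iff]; linarith) heq with h7 | h7
      · rw [h7.2] at hρz
        linarith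
      · rw [h7.1, norm_zero] at hρz
        linarith
  · intro l z hz
    exact cut_one hη (by have := hsmall p hp l z hz; linarith)
  · intro l z hz y hy
    have h1 : ‖disp V (dat.u p l z) - y‖ < 1 / (M : ℝ) := by
      by_contra hcon
      push Not at hcon
      exact hy (ker_zero_of hM hcon)
    have h2 := hsmall p hp l z hz
    have h3 : dist (disp V (dat.u p l z)) (dat.u p l z) ≤ η / 4 := by
      rw [dist_eq_norm]
      show ‖dat.u p l z + V (dat.u p l z) - dat.u p l z‖ ≤ η / 4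
      rw [add_sub_cancel_left]
      exact hVs _
    have h4 : dist y (disp V (dat.u p l z)) < 1 / (M : ℝ) := by
      rw [dist_comm, dist_eq_norm]; exact h1
    calc dist y p ≤ dist y (disp V (dat.u p l z)) + dist (disp V (dat.u p l z)) p :=
          dist_triangle _ _ _
      _ ≤ dist y (disp V (dat.u p l z)) + (dist (disp V (dat.u p l z)) (dat.u p l z) +
          dist (dat.u p l z) p) := by
          gcongr
          exact dist_triangle _ _ _
      _ ≤ dat.ε p / 2 := by linarith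

/-- all points of the support have one immersed branch, on which the form does not vanish -/
theorem no_special (hVF : VF_statement) (hLW : H58.LW.LW_statement) {D : Data} (hG : Good D)
    {S : ICur D} {θ : R4 → R4 →L[ℝ] ℂ} (hθ : HolDiff D S.supp θ)
    (dat : Dat S θ) {x₀ : R4} (hx₀ : x₀ ∈ S.supp) :
    dat.N x₀ = 1 ∧ (∀ l, fderiv ℝ (dat.u x₀ l) 0 1 ≠ 0) ∧ ∀ l, dat.h x₀ l 0 ≠ 0 := by
  classical
  have hKc := H690.END.supp_closed S
  have hKt : ∀ (k : Fin 4 → ℤ) x, x ∈ S.supp → tr k x ∈ S.supp := fun k x hx =>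
    H690.END.supp_tr S hx k
  have hloc : ∀ x ∈ S.supp, ∃ (N : ℕ) (u : Fin N → ℂ → R4) (ε : ℝ), Brs D S.supp x N u ε :=
    fun x hx => ⟨_, _, _, dat.brs x hx⟩
  obtain ⟨P, hxP, hPK, hPd, hPc⟩ := exists_special hKc hKt hloc hθ hx₀
  -- constants
  obtain ⟨η₁, hη₁, hsep⟩ := exists_sep P hPd
  obtain ⟨εm, hεm, hεm'⟩ := exists_min P dat.ε fun p hp => (dat.brs p (hPK p hp)).posε
  obtain ⟨r, hr, hr'⟩ := exists_min P dat.r fun p _ => dat.rpos p
  set η : ℝ := min (η₁ / 2) (εm / 4) with hηdef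
  have hη : 0 < η := lt_min (by linarith) (by linarith)
  have hη1 : 2 * η ≤ η₁ := by have := min_le_left (η₁ / 2) (εm / 4); linarith
  have hη2 : 4 * η ≤ εm := by have := min_le_right (η₁ / 2) (εm / 4); linarith
  -- the vector fields
  have hVF' := hVF D S.supp θ hKc hKt hloc hθ P dat.N dat.u dat.ε dat.b dat.h r
    (fun p hp => ⟨hPK p hp, dat.brs p (hPK p hp), dat.trans p (hPK p hp)⟩) hr hPd
    (by
      intro p hp l
      obtain ⟨h1, h2, h3⟩ := dat.hol p (hPK p hp) l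
      have hsub : ball (0 : ℂ) r ⊆ ball 0 (dat.r p) := ball_subset_ball (hr' p hp)
      exact ⟨h1.mono hsub, fun z hz h0 => ⟨h2 z (hsub hz) h0, h3 z (hsub hz) (Or.inl h0)⟩⟩) hPc
  -- the local contributions
  have hLW' : ∀ p ∈ P, _ := fun p hp => hLW D hG S.supp p (dat.N p) (dat.u p) (dat.ε p)
    (dat.brs p (hPK p hp)) (dat.b p) (dat.trans p (hPK p hp))
  have hwind : ∀ (p : R4) (l : Fin (dat.N p)), ∃ n : ℕ, p ∈ S.supp → (n = 0 → dat.h p l 0 ≠ 0) ∧
      ∀ᶠ ρ in 𝓝[>] (0 : ℝ), HasWinding (dat.h p l) 0 ρ n := by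
    intro p l
    by_cases hp : p ∈ S.supp
    · obtain ⟨n, hn⟩ := winding_hol (dat.rpos p) (dat.hol p hp l).1 (dat.hol p hp l).2.1
      exact ⟨n, fun _ => hn⟩
    · exact ⟨0, fun h => absurd h hp⟩
  choose n hn using hwind
  have hcont : ∀ p ∈ P, ∀ l, ∀ᶠ ρ in 𝓝[>] (0 : ℝ), ∀ z ∈ ball (0 : ℂ) ρ,
      dist (dat.u p l z) p < η / 4 := by
    intro p hp l
    have hB := dat.brs p (hPK p hp)
    have h1 : ContinuousAt (dat.u p l) 0 :=
      (brs_cont hB l).continuousAt (ball_mem_nhds 0 (by norm_num))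
    have h2 := Metric.continuousAt_iff.1 h1 (η / 4) (by linarith)
    obtain ⟨s, hs, h3⟩ := h2
    filter_upwards [Ioo_mem_nhdsGT hs] with ρ hρ z hz
    rw [hB.zero l] at h3
    exact h3 (lt_trans hz hρ.2)
  have hall1 : ∀ᶠ ρ in 𝓝[>] (0 : ℝ), 0 < ρ ∧ ρ < 1 := Ioo_mem_nhdsGT one_pos
  have hall2 : ∀ᶠ ρ in 𝓝[>] (0 : ℝ), ∀ p ∈ P, ∀ l, HasWinding (dat.h p l) 0 ρ (n p l) :=
    (Filter.eventually_all_finset P).2 fun p hp =>
      Filter.eventually_all.2 fun l => (hn p l (hPK p hp)).2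
  have hall3 : ∀ᶠ ρ in 𝓝[>] (0 : ℝ), ∀ p ∈ P, ∀ l, ∀ z ∈ ball (0 : ℂ) ρ,
      dist (dat.u p l z) p < η / 4 :=
    (Filter.eventually_all_finset P).2 fun p hp => Filter.eventually_all.2 fun l => hcont p hp l
  have hall4 := (Filter.eventually_all_finset P).2 hLW'
  obtain ⟨ρ, ⟨V, hVs, hVp, hVv, hVb, c, hc, d₀, hd₀, hVd⟩, hLWρ, hw, hsm, hρ0, hρ1⟩ :=
    (hVF'.and (hall4.and (hall2.and (hall3.and hall1)))).exists
  have hV : IsPer V := ⟨hVs, hVp⟩
  -- the local numbers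
  have hM : ∀ p : R4, ∃ Mp : ℝ, p ∈ P → 0 ≤ Mp ∧
      (Mp = 0 → dat.N p = 1 ∧ (∀ l, fderiv ℝ (dat.u p l) 0 1 ≠ 0) ∧ ∀ l, n p l = 0) ∧
      ∀ᶠ δ in 𝓝[>] (0 : ℝ), ∃ ε₀ > 0, ∀ f : R4 → ℝ, Continuous f → tsupport f ⊆ ball 0 ε₀ →
        ∑ l, ∑ j, (dat.m p l : ℝ) * (dat.m p j : ℝ) *
          Iv (dat.u p l) (dat.u p j) (fun x => δ • V x) ρ f = Mp * ∫ y, f y := by
    intro p
    by_cases hp : p ∈ P
    swap
    · exact ⟨0, fun h => absurd h hp⟩
    have hpK := hPK p hp
    have hB := dat.brs p hpK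
    -- a transversal vector
    obtain ⟨a, ha⟩ : ∃ a, Om D p a (dat.b p) ≠ 0 := by
      obtain ⟨c', hc', hev⟩ := dat.trans p hpK ⟨0, hB.posN⟩
      have h1 : ∀ᶠ z in 𝓝[≠] (0 : ℂ), z ∈ ball (0 : ℂ) 2 :=
        mem_nhdsWithin_of_mem_nhds (ball_mem_nhds (0 : ℂ) two_pos)
      have h1' : ∀ᶠ z in 𝓝[≠] (0 : ℂ), z ≠ 0 := self_mem_nhdsWithin
      have h2 := h1.and h1'
      obtain ⟨z, hz1, hz2, hz3⟩ := (hev.and h2).exists
      refine ⟨fderiv ℝ (dat.u p ⟨0, hB.posN⟩) z 1, fun h0 => ?_⟩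
      rw [h0, norm_zero] at hz1
      have h3 := hB.imm ⟨0, hB.posN⟩ z hz2 hz3
      have h4 : 0 < ‖fderiv ℝ (dat.u p ⟨0, hB.posN⟩) z 1‖ := norm_pos_iff.2 h3
      have h5 := mul_pos hc' h4
      linarith
    set v : R4 → ℂ := vcoord D p a (dat.b p) V with hv
    have hvs : ContDiff ℝ ∞ v := vcoord_smooth D p a (dat.b p) hVs
    have hvV : ∀ l, ∀ z ∈ closedBall (0 : ℂ) ρ, cm D p (v (dat.u p l z)) (dat.b p) =
        V (dat.u p l z) := by
      intro l z hz
      obtain ⟨w, hw'⟩ := hVv p hp l z hz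
      exact vcoord_spec D ha hw'
    have hwp : ∀ l, HasWinding (fun t => Om D (dat.u p l t) (fderiv ℝ (dat.u p l) t 1)
        (cm D p (v (dat.u p l t)) (dat.b p))) 0 ρ ((n p l : ℕ) : ℤ) := by
      intro l
      obtain ⟨G, hG1, hG2⟩ := hw p hp l
      refine ⟨G, hG1, fun z hz => ?_⟩
      show Om D (dat.u p l z) (fderiv ℝ (dat.u p l) z 1) (cm D p (v (dat.u p l z)) (dat.b p)) = _
      rw [hvV l z (sphere_subset_closedBall hz), hVb p hp l z hz, hG2 z hz]
    obtain ⟨Mp, hMp0, hMp1, hMp2⟩ := hLWρ p hp (dat.m p) (dat.one p hpK) v hvs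
      (fun l => ((n p l : ℕ) : ℤ)) (fun l => by positivity) hwp
    refine ⟨Mp, fun _ => ⟨hMp0, fun h0 => ?_, ?_⟩⟩
    · obtain ⟨k1, k2, k3⟩ := hMp1 h0
      exact ⟨k1, k2, fun l => by exact_mod_cast k3 l⟩
    · filter_upwards [hMp2] with δ hδ
      obtain ⟨ε₀, hε₀, hf⟩ := hδ
      refine ⟨ε₀, hε₀, fun f hfc hfs => ?_⟩
      rw [← hf f hfc hfs]
      refine Finset.sum_congr rfl fun l _ => Finset.sum_congr rfl fun j _ => ?_
      rw [Iv_eq hV (by linarith) (hB.disc l).smooth fun z hz => ?_]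
      exact hvV l z (ball_subset_closedBall hz)
  choose Mp hMp using hM
  obtain ⟨B, hB0, hB⟩ := per_bdd hV
  -- the size of the displacement
  have hδ1 : ∀ᶠ δ in 𝓝[>] (0 : ℝ), 0 < δ ∧ δ < min d₀ (η / (4 * B)) :=
    Ioo_mem_nhdsGT (lt_min hd₀ (by positivity))
  have hδ2 := (Filter.eventually_all_finset P).2 fun p hp => (hMp p hp).2.2
  obtain ⟨δ, hδ, hδ0, hδm⟩ := (hδ2.and hδ1).exists
  have hδd : δ ≤ d₀ := (hδm.trans_le (min_le_left _ _)).le
  have hδB : δ * B ≤ η / 4 := by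
    have h1 : δ < η / (4 * B) := hδm.trans_le (min_le_right _ _)
    rw [lt_div_iff₀ (by positivity)] at h1
    linarith
  have hε₀ : ∀ p : R4, ∃ ε₀ : ℝ, 0 < ε₀ ∧ (p ∈ P → ∀ f : R4 → ℝ, Continuous f →
      tsupport f ⊆ ball 0 ε₀ → ∑ l, ∑ j, (dat.m p l : ℝ) * (dat.m p j : ℝ) *
        Iv (dat.u p l) (dat.u p j) (fun x => δ • V x) ρ f = Mp p * ∫ y, f y) := by
    intro p
    by_cases hp : p ∈ P
    · obtain ⟨ε₀, h1, h2⟩ := hδ p hp
      exact ⟨ε₀, h1, fun _ => h2⟩
    · exact ⟨1, one_pos, fun h => absurd h hp⟩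
  choose ε₀ hε₀0 hε₀1 using hε₀
  obtain ⟨εq, hεq, hεq'⟩ := exists_min P ε₀ fun p _ => hε₀0 p
  -- the size of the kernel
  obtain ⟨M, hMlt⟩ := exists_nat_gt (1 / min εq (min (c * δ) (η / 4)))
  have hmpos : 0 < min εq (min (c * δ) (η / 4)) :=
    lt_min hεq (lt_min (mul_pos hc hδ0) (by linarith))
  have hMpos' : (0 : ℝ) < M := lt_trans (by positivity) hMlt
  have hMpos : 0 < M := by exact_mod_cast hMpos'
  have hM1 : 1 / (M : ℝ) < min εq (min (c * δ) (η / 4)) := by
    rw [div_lt_iff₀ hMpos']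
    rw [div_lt_iff₀ hmpos] at hMlt
    linarith
  have hMa : 1 / (M : ℝ) < εq := hM1.trans_le (min_le_left _ _)
  have hMb : 1 / (M : ℝ) < c * δ := hM1.trans_le ((min_le_right _ _).trans (min_le_left _ _))
  have hMc : 1 / (M : ℝ) < η / 4 := hM1.trans_le ((min_le_right _ _).trans (min_le_right _ _))
  have hzero := sum_zero dat hPK hη
    (fun p hp q hq k hk => hsep p hp q hq k (lt_of_lt_of_le hk hη1))
    (fun p hp => hη2.trans (hεm' p hp)) hρ0 hρ1.le hsm (isPer_smul hV δ)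
    (fun x => by
      rw [norm_smul, Real.norm_eq_abs, abs_of_pos hδ0]
      exact (mul_le_mul_of_nonneg_left (hB x) hδ0.le).trans hδB) hMpos hMc.le
    (fun x hx y hy => hMb.le.trans (hVd δ hδ0 hδd x hx y hy))
  have hker : tsupport (ker M) ⊆ closedBall 0 (1 / (M : ℝ)) := by
    apply closure_minimal _ isClosed_closedBall
    intro z hz
    rw [mem_closedBall_zero_iff]
    by_contra hcon
    push Not at hcon
    exact hz (ker_zero_of hMpos hcon.le)
  have hsum : ∑ p ∈ P, Mp p * ∫ y, ker M y = 0 := by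
    rw [← hzero]
    refine Finset.sum_congr rfl fun p hp => ?_
    rw [hε₀1 p hp (ker M) (ker_smooth M).continuous
      (hker.trans (closedBall_subset_ball (hMa.trans_le (hεq' p hp))))]
  rw [← Finset.sum_mul] at hsum
  have hsum2 : ∑ p ∈ P, Mp p = 0 :=
    (mul_eq_zero.1 hsum).resolve_right (ker_integral_pos hMpos).ne'
  have h0 := (Finset.sum_eq_zero_iff_of_nonneg fun p hp => (hMp p hp).1).1 hsum2 x₀ hxP
  obtain ⟨k1, k2, k3⟩ := (hMp x₀ hxP).2.1 h0
  exact ⟨k1, k2, fun l => (hn x₀ l hx₀).1 (k3 l)⟩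

open scoped Pointwise in
/-- rescaling of an integral over a disc -/
theorem disc_scale {s : ℝ} (hs : 0 < s) (g : ℂ → ℝ) :
    ∫ z in ball (0 : ℂ) s, g z = s ^ 2 * ∫ z in ball (0 : ℂ) 1, g ((s : ℂ) * z) := by
  have h1 := Measure.setIntegral_comp_smul_of_pos (μ := (volume : Measure ℂ)) g (ball (0 : ℂ) 1) hs
  have h2 : s • ball (0 : ℂ) 1 = ball 0 s := by
    rw [smul_unitBall_of_pos hs]
  rw [h2, Complex.finrank_real_complex] at h1
  have h3 : ∀ z : ℂ, s • z = (s : ℂ) * z := fun z => Complex.real_smul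
  simp only [h3] at h1
  rw [h1, smul_eq_mul, ← mul_assoc, mul_inv_cancel₀ (by positivity), one_mul]

/-- from one immersed branch to the structure `RegD` -/
theorem form_point {D : Data} {S : ICur D} {θ : R4 → R4 →L[ℝ] ℂ} (dat : Dat S θ) {x : R4}
    (hx : x ∈ S.supp) (hN : dat.N x = 1) (him : ∀ l, fderiv ℝ (dat.u x l) 0 1 ≠ 0)
    (hh0 : ∀ l, dat.h x l 0 ≠ 0) :
    ∃ (u : ℂ → R4) (k : ℕ) (ε : ℝ) (h : ℂ → ℂ), H690.END.RegD S x u k ε ∧
      DifferentiableOn ℂ h (ball 0 1) ∧ h 0 ≠ 0 ∧ ∀ z ∈ ball (0 : ℂ) 1,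
        θ (u z) (fderiv ℝ u z 1) = h z ∧ θ (u z) (fderiv ℝ u z Complex.I) = Complex.I * h z := by
  have hB := dat.brs x hx
  set l₀ : Fin (dat.N x) := ⟨0, hB.posN⟩ with hl₀
  have hl : ∀ l : Fin (dat.N x), l = l₀ := by
    intro l
    apply Fin.ext
    have := l.2
    show (l : ℕ) = 0
    omega
  obtain ⟨hd, -, hθx⟩ := dat.hol x hx l₀
  have hr := dat.rpos x
  set s : ℝ := min (dat.r x) 1 / 2 with hs
  have hs0 : 0 < s := by have := lt_min hr one_pos; rw [hs]; linarith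
  have hs1 : s ≤ 1 / 2 := by have := min_le_right (dat.r x) 1; rw [hs]; linarith
  have hsr : s ≤ dat.r x / 2 := by have := min_le_left (dat.r x) 1; rw [hs]; linarith
  have hsn : ∀ z : ℂ, ‖(s : ℂ) * z‖ = s * ‖z‖ := fun z => by
    rw [norm_mul, Complex.norm_real, Real.norm_eq_abs, abs_of_pos hs0]
  have hsc : (s : ℂ) ≠ 0 := by exact_mod_cast hs0.ne'
  obtain ⟨ε₁, hε₁, hε₁', hsep⟩ := brs_sep hB hs0
  obtain ⟨ε₂, hε₂, hε₂', hcov⟩ := brs_cov hB hs0
  set ε := min ε₁ ε₂ with hε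
  set u := dat.u x l₀ with hu
  set U : ℂ → R4 := fun z => u ((s : ℂ) * z) with hU
  have hin : ∀ z ∈ ball (0 : ℂ) 2, (s : ℂ) * z ∈ ball (0 : ℂ) 2 := by
    intro z hz
    rw [mem_ball_zero_iff] at hz ⊢
    rw [hsn]
    nlinarith
  have hin1 : ∀ z ∈ ball (0 : ℂ) 1, (s : ℂ) * z ∈ ball (0 : ℂ) (dat.r x) := by
    intro z hz
    rw [mem_ball_zero_iff] at hz ⊢
    rw [hsn]
    nlinarith
  have hus := (hB.disc l₀).smooth
  have hfd : ∀ z ∈ ball (0 : ℂ) 2, ∀ a : ℂ, fderiv ℝ U z a = fderiv ℝ u ((s : ℂ) * z) ((s : ℂ) * a) := by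
    intro z hz a
    have h1 : HasFDerivAt (fun z : ℂ => (s : ℂ) * z)
        ((s : ℂ) • (ContinuousLinearMap.id ℝ ℂ)) z := by
      have := (hasFDerivAt_id (𝕜 := ℝ) z).const_mul (s : ℂ)
      exact this
    have h2 : DifferentiableAt ℝ u ((s : ℂ) * z) :=
      (hus.contDiffAt (isOpen_ball.mem_nhds (hin z hz))).differentiableAt (by simp)
    have h3 := (h2.hasFDerivAt.comp z h1).fderiv
    have h4 : fderiv ℝ U z = _ := h3
    rw [h4]
    rfl
  have hfd1 : ∀ z ∈ ball (0 : ℂ) 2, ∀ a : ℂ, fderiv ℝ U z a = s • fderiv ℝ u ((s : ℂ) * z) a := by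
    intro z hz a
    have h1 : (s : ℂ) * a = s • a := Complex.real_smul.symm
    rw [hfd z hz a, h1, map_smul]
  refine ⟨U, dat.m x l₀, ε, fun z => (s : ℂ) * dat.h x l₀ ((s : ℂ) * z), ?_, ?_, ?_, ?_⟩
  · refine ⟨lt_min hε₁ hε₂, dat.one x hx l₀, ⟨?_, ?_⟩, ?_, ?_, ?_, ?_, ?_, ?_⟩
    · refine hus.comp (contDiff_const.mul contDiff_id).contDiffOn fun z hz => hin z hz
    · intro z hz
      rw [hfd1 z hz, hfd1 z hz, (hB.disc l₀).hol _ (hin z hz), map_smul]
    · show u ((s : ℂ) * 0) = x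
      rw [mul_zero]
      exact hB.zero l₀
    · intro z hz h0
      rw [hfd1 z hz] at h0
      have h1 := (smul_eq_zero.1 h0).resolve_left hs0.ne'
      by_cases hz0 : (s : ℂ) * z = 0
      · rw [hz0] at h1
        exact him l₀ h1
      · exact hB.imm l₀ _ (hin z hz) hz0 h1
    · intro z hz z' hz' heq
      rcases hB.inj l₀ l₀ _ (hin z hz) _ (hin z' hz') heq with h1 | h1
      · exact mul_left_cancel₀ hsc h1.2
      · exact mul_left_cancel₀ hsc (h1.1.trans h1.2.symm)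
    · intro z hz hz1
      refine (min_le_left _ _).trans (hsep l₀ _ (hin z hz) ?_)
      rw [hsn]
      nlinarith
    · intro y hy
      constructor
      · intro hyK
        obtain ⟨l, z, hz1, hz2, hz3⟩ := hcov y (ball_subset_ball (min_le_right _ _) hy) hyK
        rw [hl l] at hz3
        refine ⟨z / s, ?_, ?_⟩
        · rw [mem_ball_zero_iff, norm_div, Complex.norm_real, Real.norm_eq_abs, abs_of_pos hs0,
            div_lt_one hs0]
          exact hz1
        · show u ((s : ℂ) * (z / s)) = y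
          rw [mul_div_cancel₀ _ hsc]
          exact hz3
      · rintro ⟨z, hz, hzy⟩
        rw [← hzy]
        exact hB.mem l₀ _ (hin z (ball_subset_ball (by norm_num) hz))
    · intro φ hφ hφs
      have hφ1 : tsupport φ ⊆ ball x (dat.ε x) :=
        hφs.trans (ball_subset_ball ((min_le_left _ _).trans hε₁'))
      have huniv : (Finset.univ : Finset (Fin (dat.N x))) = {l₀} := by
        ext l; simp [hl l]
      rw [dat.val x hx φ hφ hφ1, huniv, Finset.sum_singleton]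
      congr 1
      unfold brI
      rw [setIntegral_eq_of_subset_of_forall_sdiff_eq_zero (s := ball (0 : ℂ) s)
        measurableSet_ball (ball_subset_ball (by linarith)), disc_scale hs0, ← integral_const_mul]
      · refine setIntegral_congr_fun measurableSet_ball fun z hz => ?_
        have hz2 : z ∈ ball (0 : ℂ) 2 := ball_subset_ball (by norm_num) hz
        show s ^ 2 * (φ (u ((s : ℂ) * z)) (fderiv ℝ u ((s : ℂ) * z) 1)
          (fderiv ℝ u ((s : ℂ) * z) Complex.I)) = φ (U z) (fderiv ℝ U z 1) (fderiv ℝ U z Complex.I)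
        have e1 : ∀ y A B : R4, φ y (s • A) (s • B) = s ^ 2 * φ y A B := by
          intro y A B
          rw [map_smul (φ y (s • A)), map_smul (φ y)]
          show s * (s * φ y A B) = _
          ring
        rw [hfd1 z hz2, hfd1 z hz2, e1]
      · intro z hz
        have h4 : s ≤ ‖z‖ := by
          have := hz.2
          rwa [mem_ball_zero_iff, not_lt] at this
        have h5 := hsep l₀ z (ball_subset_ball (by norm_num) hz.1) h4
        have h6 : φ (u z) = 0 := by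
          apply image_eq_zero_of_notMem_tsupport
          intro hm
          have h7 := hφs hm
          rw [mem_ball] at h7
          have h8 := min_le_left ε₁ ε₂
          linarith
        show φ (u z) _ _ = 0
        rw [h6]
        rfl
  · intro z hz
    have h1 : DifferentiableAt ℂ (dat.h x l₀) ((s : ℂ) * z) :=
      hd.differentiableAt (isOpen_ball.mem_nhds (hin1 z hz))
    have h2 : DifferentiableAt ℂ (fun z => dat.h x l₀ ((s : ℂ) * z)) z :=
      h1.comp z (by fun_prop)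
    exact (h2.const_mul _).differentiableWithinAt
  · show (s : ℂ) * dat.h x l₀ ((s : ℂ) * 0) ≠ 0
    rw [mul_zero]
    exact mul_ne_zero hsc (hh0 l₀)
  · intro z hz
    have hz2 : z ∈ ball (0 : ℂ) 2 := ball_subset_ball (by norm_num) hz
    obtain ⟨h1, h2⟩ := hθx _ (hin1 z hz) (Or.inr ⟨hN, him l₀⟩)
    rw [hfd1 z hz2, hfd1 z hz2, map_smul, map_smul, Complex.real_smul, Complex.real_smul]
    constructor
    · show (s : ℂ) * θ (u ((s : ℂ) * z)) _ = _
      rw [h1]
    · show (s : ℂ) * θ (u ((s : ℂ) * z)) _ = _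
      rw [h2]
      ring

/-- **COUNT**, from the existence of the vector field and the local inequality. -/
theorem COUNTX : COUNTX_statement := by
  intro _ hTRV hVF hLW D hG S hLS θ hθ
  obtain ⟨dat⟩ := exists_dat hTRV S hLS hθ
  refine ⟨fun x _ k => hθ.per k x, fun x hx => ?_⟩
  obtain ⟨h1, h2, h3⟩ := no_special hVF hLW hG hθ dat hx
  exact form_point dat hx h1 h2 h3

end Vale.Agent.P247.H710
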