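import Vale.Agent.P247.H710.PU

/-!
# P247: the current on periodic forms
-/

open scoped ContDiff Topology
open Set MeasureTheory Filter Metric

noncomputable section

namespace Vale.Agent.P247.H710

open Vale.Agent.P247.H74 Vale.Agent.P247.H574

/-! ## test forms -/

/-! shortcuts for instance search (the Mathlib instances) -/

abbrev f2G : NormedAddCommGroup F2 := ContinuousLinearMap.toNormedAddCommGroup
abbrev f2S : NormedSpace ℝ F2 := ContinuousLinearMap.toNormedSpace
abbrev f1G : NormedAddCommGroup (R4 →L[ℝ] ℝ) := ContinuousLinearMap.toNormedAddCommGroup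
abbrev f1S : NormedSpace ℝ (R4 →L[ℝ] ℝ) := ContinuousLinearMap.toNormedSpace
attribute [local instance] f2G f2S f1G f1S

theorem CF.zero : CF (fun _ => 0) :=
  ⟨continuous_const, HasCompactSupport.zero, fun _ _ => rfl⟩

theorem CF.add {φ ψ : R4 → F2} (h1 : CF φ) (h2 : CF ψ) : CF (φ + ψ) :=
  ⟨h1.cont.add h2.cont, h1.supp.add h2.supp, fun x u => by
    show φ x u u + ψ x u u = 0
    rw [h1.alt, h2.alt, add_zero]⟩

theorem CF.smul {φ : R4 → F2} (c : ℝ) (h1 : CF φ) : CF (c • φ) :=
  ⟨h1.cont.const_smul c, h1.supp.smul_left, fun x u => by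
    show c * φ x u u = 0
    rw [h1.alt, mul_zero]⟩

theorem CF.sum {ι : Type*} (s : Finset ι) {φ : ι → R4 → F2} (h : ∀ i ∈ s, CF (φ i)) :
    CF (fun x => ∑ i ∈ s, φ i x) := by
  classical
  induction s using Finset.induction_on with
  | empty => simpa using CF.zero
  | insert a s ha ih =>
    have h1 := CF.add (h a (Finset.mem_insert_self a s))
      (ih fun i hi => h i (Finset.mem_insert_of_mem hi))
    convert h1 using 1
    funext x
    rw [Finset.sum_insert ha]
    rfl

/-- a function times a continuous alternating form -/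
theorem CF.fmul {f : R4 → ℝ} {φ : R4 → F2} (hf : Continuous f) (hs : HasCompactSupport f)
    (hφ : Continuous φ) (ha : ∀ x u, φ x u u = 0) : CF (fun x => f x • φ x) :=
  ⟨hf.smul hφ, hs.smul_right, fun x u => by
    show f x * φ x u u = 0
    rw [ha, mul_zero]⟩

theorem CF.fmul' {f : R4 → ℝ} {φ : R4 → F2} (hf : Continuous f) (hφ : CF φ) :
    CF (fun x => f x • φ x) :=
  { cont := hf.smul hφ.cont
    supp := by
      refine hφ.supp.mono ?_
      intro x hx hx0
      apply hx
      show f x • φ x = 0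
      rw [hx0, smul_zero]
    alt := fun x u => by
      show f x * φ x u u = 0
      rw [hφ.alt, mul_zero] }

theorem tr_continuous (k : Fin 4 → ℤ) : Continuous (tr k) :=
  continuous_pi fun i => (continuous_apply i).add continuous_const

/-- translation as a homeomorphism -/
def trH (k : Fin 4 → ℤ) : R4 ≃ₜ R4 where
  toFun := tr k
  invFun := tr (-k)
  left_inv := fun x => tr_neg_cancel' k x
  right_inv := fun x => tr_neg_cancel k x
  continuous_toFun := tr_continuous k
  continuous_invFun := tr_continuous (-k)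

theorem CF.tr {φ : R4 → F2} (h : CF φ) (k : Fin 4 → ℤ) :
    CF (fun x => φ (Vale.Agent.P247.H574.tr k x)) :=
  ⟨h.cont.comp (tr_continuous k), h.supp.comp_homeomorph (trH k), fun _ _ => h.alt _ _⟩

theorem tr_contDiff (k : Fin 4 → ℤ) : ContDiff ℝ ∞ (tr k) :=
  contDiff_pi.2 fun i => (contDiff_apply ℝ ℝ i).add contDiff_const

theorem fderiv_tr (k : Fin 4 → ℤ) (x : R4) : fderiv ℝ (tr k) x = ContinuousLinearMap.id ℝ R4 := by
  have h : tr k = fun x : R4 => x + fun i => (k i : ℝ) := by funext x; exact tr_sub k x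
  rw [h, fderiv_add_const]
  exact fderiv_id

variable {D : Data} (S : ICur D)

theorem T_zero : S.T (fun _ => 0) = 0 := by
  have h := S.smul 0 (fun _ => (0 : F2)) CF.zero
  rw [zero_mul] at h
  rw [← h]
  congr 1
  funext x
  exact (smul_zero (0 : ℝ)).symm

theorem T_add {φ ψ : R4 → F2} (h1 : CF φ) (h2 : CF ψ) :
    S.T (fun x => φ x + ψ x) = S.T φ + S.T ψ := S.add φ ψ h1 h2

theorem T_smul (c : ℝ) {φ : R4 → F2} (h1 : CF φ) : S.T (fun x => c • φ x) = c * S.T φ :=
  S.smul c φ h1

theorem T_neg {φ : R4 → F2} (h1 : CF φ) : S.T (fun x => - φ x) = - S.T φ := by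
  have h := T_smul S (-1) h1
  rw [neg_one_mul] at h
  rw [← h]
  congr 1
  funext x
  exact (neg_one_smul ℝ (φ x)).symm

theorem T_sub {φ ψ : R4 → F2} (h1 : CF φ) (h2 : CF ψ) :
    S.T (fun x => φ x - ψ x) = S.T φ - S.T ψ := by
  have h3 : CF (fun x => - ψ x) := by
    have h4 := CF.smul (-1) h2
    convert h4 using 1
    funext x
    exact (neg_one_smul ℝ (ψ x)).symm
  have h := T_add S h1 h3
  rw [T_neg S h2] at h
  rw [sub_eq_add_neg, ← h]
  exact congrArg S.T (funext fun x => sub_eq_add_neg (φ x) (ψ x))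

theorem T_sum {ι : Type*} (s : Finset ι) {φ : ι → R4 → F2} (h : ∀ i ∈ s, CF (φ i)) :
    S.T (fun x => ∑ i ∈ s, φ i x) = ∑ i ∈ s, S.T (φ i) := by
  classical
  induction s using Finset.induction_on with
  | empty => simpa using T_zero S
  | insert a s ha ih =>
    have h1 := T_add S (h a (Finset.mem_insert_self a s))
      (CF.sum s fun i hi => h i (Finset.mem_insert_of_mem hi))
    rw [ih fun i hi => h i (Finset.mem_insert_of_mem hi)] at h1
    rw [Finset.sum_insert ha, ← h1]
    congr 1
    funext x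
    rw [Finset.sum_insert ha]

/-! ## exterior derivative -/

theorem dd_apply (l : R4 → R4 →L[ℝ] ℝ) (x u v : R4) :
    dd l x u v = fderiv ℝ l x u v - fderiv ℝ l x v u := rfl

theorem dd_self (l : R4 → R4 →L[ℝ] ℝ) (x u : R4) : dd l x u u = 0 := by
  rw [dd_apply, sub_self]

/-- `a ∧ b` for one-forms -/
def wg (a b : R4 →L[ℝ] ℝ) : F2 := a.smulRight b - b.smulRight a

theorem wg_apply (a b : R4 →L[ℝ] ℝ) (u v : R4) : wg a b u v = a u * b v - b u * a v := rfl

theorem wg_self (a b : R4 →L[ℝ] ℝ) (u : R4) : wg a b u u = 0 := by rw [wg_apply]; ring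

theorem continuous_flip_fderiv {l : R4 → R4 →L[ℝ] ℝ} (hl : ContDiff ℝ ∞ l) :
    Continuous (dd l) := by
  have h1 : Continuous (fderiv ℝ l) := hl.continuous_fderiv (by simp)
  unfold dd
  have h2 : Continuous fun x => (fderiv ℝ l x).flip :=
    (ContinuousLinearMap.flipₗᵢ ℝ R4 R4 ℝ).continuous.comp h1
  exact h1.sub h2

theorem dd_cf {l : R4 → R4 →L[ℝ] ℝ} (hl : ContDiff ℝ ∞ l) (hs : HasCompactSupport l) : CF (dd l) :=
  { cont := continuous_flip_fderiv hl
    supp := by
      have h1 : HasCompactSupport (fderiv ℝ l) := hs.fderiv ℝ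
      refine h1.mono ?_
      intro x hx hx0
      apply hx
      have h2 : fderiv ℝ l x = 0 := hx0
      ext u v
      rw [dd_apply, h2]
      exact sub_zero _
    alt := dd_self l }

theorem dd_smul {χ : R4 → ℝ} {l : R4 → R4 →L[ℝ] ℝ} (hχ : ContDiff ℝ ∞ χ) (hl : ContDiff ℝ ∞ l)
    (x : R4) : dd (fun y => χ y • l y) x = χ x • dd l x + wg (fderiv ℝ χ x) (l x) := by
  have h : fderiv ℝ (fun y => χ y • l y) x = χ x • fderiv ℝ l x + (fderiv ℝ χ x).smulRight (l x) :=
    fderiv_fun_smul (hχ.differentiable (by simp) x) (hl.differentiable (by simp) x)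
  ext u v
  rw [dd_apply, h]
  show (χ x * fderiv ℝ l x u v + fderiv ℝ χ x u * l x v) -
    (χ x * fderiv ℝ l x v u + fderiv ℝ χ x v * l x u) = χ x * dd l x u v +
      (fderiv ℝ χ x u * l x v - l x u * fderiv ℝ χ x v)
  rw [dd_apply]
  ring

theorem wg_continuous {a b : R4 → R4 →L[ℝ] ℝ} (ha : Continuous a) (hb : Continuous b) :
    Continuous fun x => wg (a x) (b x) := by
  have h1 : Continuous fun x => (a x).smulRight (b x) :=
    ((ContinuousLinearMap.smulRightL ℝ R4 (R4 →L[ℝ] ℝ)).continuous₂).comp (ha.prodMk hb)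
  have h2 : Continuous fun x => (b x).smulRight (a x) :=
    ((ContinuousLinearMap.smulRightL ℝ R4 (R4 →L[ℝ] ℝ)).continuous₂).comp (hb.prodMk ha)
  exact h1.sub h2

/-- the current vanishes on exact periodic forms -/
theorem T_exact {χ : R4 → ℝ} (hχ : IsPU χ) {l : R4 → R4 →L[ℝ] ℝ} (hl : ContDiff ℝ ∞ l)
    (hp : ∀ k x, l (tr k x) = l x) : S.T (fun x => χ x • dd l x) = 0 := by
  classical
  have hχc : Continuous χ := hχ.smooth.continuous
  have hDχ : Continuous (fderiv ℝ χ) := hχ.smooth.continuous_fderiv (by simp)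
  have hDs : HasCompactSupport (fderiv ℝ χ) := hχ.supp.fderiv ℝ
  -- the form `dχ ∧ l`
  have hW : CF (fun x => wg (fderiv ℝ χ x) (l x)) := by
    refine ⟨wg_continuous hDχ hl.continuous, ?_, fun x u => wg_self _ _ _⟩
    refine hDs.mono ?_
    intro x hx hx0
    apply hx
    have : fderiv ℝ χ x = 0 := hx0
    ext u v
    show wg (fderiv ℝ χ x) (l x) u v = 0
    rw [this, wg_apply]
    simp
  have hd : CF (fun x => χ x • dd l x) :=
    CF.fmul hχc hχ.supp (continuous_flip_fderiv hl) (dd_self l)
  have e0 : S.T (dd fun x => χ x • l x) = 0 :=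
    S.closed _ (hχ.smooth.smul hl) (hχ.supp.smul_right)
  have e1 : (dd fun x => χ x • l x) = fun x => χ x • dd l x + wg (fderiv ℝ χ x) (l x) := by
    funext x
    exact dd_smul hχ.smooth hl x
  rw [e1, T_add S hd hW] at e0
  suffices hz : S.T (fun x => wg (fderiv ℝ χ x) (l x)) = 0 by linarith
  -- the window
  have hK : Bornology.IsBounded (cthickening 1 (tsupport χ)) :=
    (hχ.supp.isCompact.isBounded).cthickening
  obtain ⟨s, hs1, hs2⟩ := exists_window _ hK
  have hsub : tsupport χ ⊆ cthickening 1 (tsupport χ) := self_subset_cthickening _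
  have hsum : ∀ x ∈ cthickening 1 (tsupport χ), ∑ k ∈ s, χ (tr k x) = 1 := by
    intro x hx
    rw [← hχ.sum x]
    symm
    apply tsum_eq_sum
    intro k hk
    by_contra hne
    exact hk (hs2 k x hx (hsub (subset_tsupport _ hne)))
  have hterm : ∀ k, CF (fun x => χ (tr k x) • wg (fderiv ℝ χ x) (l x)) := fun k =>
    CF.fmul' (hχc.comp (tr_continuous k)) hW
  have e2 : (fun x => wg (fderiv ℝ χ x) (l x)) =
      fun x => ∑ k ∈ s, χ (tr k x) • wg (fderiv ℝ χ x) (l x) := by
    funext x
    rw [← Finset.sum_smul]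
    by_cases hx : x ∈ tsupport χ
    · rw [hsum x (hsub hx), one_smul]
    · have : fderiv ℝ χ x = 0 := by
        by_contra hne
        exact hx (support_fderiv_subset ℝ hne)
      have h0 : wg (fderiv ℝ χ x) (l x) = 0 := by
        rw [this]; ext u v; show (0 : ℝ) * _ - _ * 0 = 0; ring
      rw [h0, smul_zero]
  rw [e2, T_sum S s fun k _ => hterm k]
  -- move the translation
  have e3 : ∀ k, S.T (fun x => χ (tr k x) • wg (fderiv ℝ χ x) (l x)) =
      S.T (fun x => χ x • wg (fderiv ℝ (fun y => χ (tr (-k) y)) x) (l x)) := by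
    intro k
    have h1 := S.per _ (hterm k) (-k)
    rw [← h1]
    congr 1
    funext x
    have h2 : fderiv ℝ (fun y => χ (tr (-k) y)) x = fderiv ℝ χ (tr (-k) x) := by
      have := fderiv_comp x (hχ.smooth.differentiable (by simp) (tr (-k) x))
        ((tr_contDiff (-k)).differentiable (by simp) x)
      rw [fderiv_tr] at this
      exact this
    rw [h2, tr_neg_cancel, hp]
  have hterm2 : ∀ k, CF (fun x => χ x • wg (fderiv ℝ (fun y => χ (tr (-k) y)) x) (l x)) := by
    intro k
    apply CF.fmul hχc hχ.supp _ (fun x u => wg_self _ _ _)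
    refine wg_continuous ?_ hl.continuous
    exact (hχ.smooth.comp (tr_contDiff (-k))).continuous_fderiv (by simp)
  rw [Finset.sum_congr rfl fun k _ => e3 k, ← T_sum S s fun k _ => hterm2 k]
  have e4 : (fun x => ∑ k ∈ s, χ x • wg (fderiv ℝ (fun y => χ (tr (-k) y)) x) (l x)) =
      fun _ => 0 := by
    funext x
    by_cases hx : x ∈ tsupport χ
    · -- the sum of the translates is one near `x`
      have hnear : (fun y => ∑ k ∈ s, χ (tr (-k) y)) =ᶠ[𝓝 x] fun _ => 1 := by
        have : ball x 1 ∈ 𝓝 x := ball_mem_nhds x one_pos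
        filter_upwards [this] with y hy
        have hy' : y ∈ cthickening 1 (tsupport χ) := by
          apply thickening_subset_cthickening
          rw [mem_thickening_iff]
          exact ⟨x, hx, hy⟩
        rw [← hsum y hy']
        refine Finset.sum_bij' (fun k _ => -k) (fun k _ => -k) ?_ ?_ ?_ ?_ ?_
        · intro k hk; exact (hs1 k).1 hk
        · intro k hk; exact (hs1 k).1 hk
        · intro k _; exact neg_neg k
        · intro k _; exact neg_neg k
        · intro k _; rfl
      have hfd : fderiv ℝ (fun y => ∑ k ∈ s, χ (tr (-k) y)) x = 0 := by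
        rw [hnear.fderiv_eq]; exact fderiv_const_apply _
      have hfs : fderiv ℝ (fun y => ∑ k ∈ s, χ (tr (-k) y)) x =
          ∑ k ∈ s, fderiv ℝ (fun y => χ (tr (-k) y)) x := by
        apply fderiv_fun_sum
        intro k _
        exact (hχ.smooth.comp (tr_contDiff (-k))).differentiable (by simp) x
      rw [← Finset.smul_sum]
      have : ∑ k ∈ s, wg (fderiv ℝ (fun y => χ (tr (-k) y)) x) (l x) = 0 := by
        ext u v
        have e5 : ∀ a : R4, ∑ k ∈ s, fderiv ℝ (fun y => χ (tr (-k) y)) x a = 0 := by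
          intro a
          rw [← sum_apply, ← hfs, hfd]; rfl
        rw [sum_apply, sum_apply]
        simp only [wg_apply]
        rw [Finset.sum_sub_distrib, ← Finset.sum_mul, ← Finset.mul_sum, e5, e5]
        simp
      rw [this, smul_zero]
    · have : χ x = 0 := by
        by_contra hne
        exact hx (subset_tsupport _ hne)
      simp [this]
  rw [e4, T_zero]

end Vale.Agent.P247.H710
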