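import Vale.Agent.P247.H710.CurB

/-!
# P247: the smoothed current and its pull back by `x ↦ x + V x`
-/

open scoped ContDiff Topology
open Set MeasureTheory Filter Metric

noncomputable section

namespace Vale.Agent.P247.H710

open Vale.Agent.P247.H74 Vale.Agent.P247.H574

attribute [local instance] f2G f2S f1G f1S

variable {D : Data} (S : ICur D)

/-- the smoothed current as a two-form -/
def om (g : R4 → ℝ) (x : R4) : F2 :=
  ∑ i, ∑ j, cc S g (vol2 (e i) (e j)) x • (pj i).smulRight (pj j)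

theorem om_apply' (g : R4 → ℝ) (x a b : R4) :
    om S g x a b = ∑ i, ∑ j, cc S g (vol2 (e i) (e j)) x * (a i * b j) := by
  unfold om
  rw [sum_apply, sum_apply]
  refine Finset.sum_congr rfl fun i _ => ?_
  rw [sum_apply, sum_apply]
  rfl

theorem om_apply {g : R4 → ℝ} (hg : Continuous g) (hs : HasCompactSupport g) (x a b : R4) :
    om S g x a b = S.T (fun y => g (x - y) • vol2 a b) := by
  have c : ∀ i j, CF (fun y => g (x - y) • vol2 (e i) (e j)) := fun i j =>
    cc_cf hg hs (vol2_self _ _) x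
  have c2 : ∀ i j, CF (fun y => (a i * b j) • (g (x - y) • vol2 (e i) (e j))) := fun i j =>
    CF.smul _ (c i j)
  rw [om_apply']
  have h1 : ∀ i j, cc S g (vol2 (e i) (e j)) x * (a i * b j) =
      S.T (fun y => (a i * b j) • (g (x - y) • vol2 (e i) (e j))) := by
    intro i j
    rw [T_smul S _ (c i j), mul_comm]
    rfl
  have h2 : ∀ i, ∑ j, cc S g (vol2 (e i) (e j)) x * (a i * b j) =
      S.T (fun y => ∑ j, (a i * b j) • (g (x - y) • vol2 (e i) (e j))) := by
    intro i
    rw [Finset.sum_congr rfl fun j _ => h1 i j, ← T_sum S]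
    exact fun j _ => c2 i j
  rw [Finset.sum_congr rfl fun i _ => h2 i, ← T_sum S]
  · congr 1
    funext y
    ext u v
    rw [sum_apply, sum_apply]
    have h3 : ∀ i, (∑ j, (a i * b j) • (g (x - y) • vol2 (e i) (e j))) u v =
        ∑ j, (a i * b j) * (g (x - y) * vol4 (e i) (e j) u v) := by
      intro i
      rw [sum_apply, sum_apply]
      refine Finset.sum_congr rfl fun j _ => ?_
      rw [← vol2_apply]
      rfl
    rw [Finset.sum_congr rfl fun i _ => h3 i]
    show _ = g (x - y) * vol2 a b u v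
    rw [vol2_apply]
    simp only [Fin.sum_univ_four]
    simp [vol4, bv, e]
    ring
  · intro i _
    exact CF.sum Finset.univ fun j _ => c2 i j

theorem om_contDiff {g : R4 → ℝ} (hg : ContDiff ℝ ∞ g) (hs : HasCompactSupport g) :
    ContDiff ℝ ∞ (om S g) := by
  unfold om
  refine ContDiff.sum fun i _ => ContDiff.sum fun j _ => ?_
  exact (cc_contDiff S hg hs (vol2_self _ _)).smul contDiff_const

/-- derivative of the smoothed current -/
theorem fderiv_om {g : R4 → ℝ} (hg : ContDiff ℝ ∞ g) (hs : HasCompactSupport g) (x u a b : R4) :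
    fderiv ℝ (om S g) x u a b = om S (dir g u) x a b := by
  have h1 : HasFDerivAt (om S g)
      (∑ i, ∑ j, (ccD S g (vol2 (e i) (e j)) x).smulRight ((pj i).smulRight (pj j) : F2)) x := by
    unfold om
    refine HasFDerivAt.fun_sum fun i _ => HasFDerivAt.fun_sum fun j _ => ?_
    exact (cc_hasFDerivAt S hg hs (vol2_self _ _) x).smul_const _
  rw [h1.fderiv, om_apply']
  simp only [sum_apply]
  refine Finset.sum_congr rfl fun i _ => Finset.sum_congr rfl fun j _ => ?_
  have h2 : ccD S g (vol2 (e i) (e j)) x u = cc S (dir g u) (vol2 (e i) (e j)) x :=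
    ccD_apply S hg hs (vol2_self _ _) x u
  show ccD S g (vol2 (e i) (e j)) x u * (a i * b j) = _
  rw [h2]

theorem om_per {g : R4 → ℝ} (hg : Continuous g) (hs : HasCompactSupport g) (k : Fin 4 → ℤ)
    (x : R4) : om S g (tr k x) = om S g x := by
  ext a b
  rw [om_apply S hg hs, om_apply S hg hs]
  rw [← S.per _ (cc_cf hg hs (vol2_self a b) (tr k x)) k]
  congr 1
  funext y
  congr 2
  funext i
  simp [tr]

/-- closedness, in the form of Cartan's formula -/
theorem om_closed {g : R4 → ℝ} (hg : ContDiff ℝ ∞ g) (hs : HasCompactSupport g)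
    (x a u v : R4) :
    om S (dir g a) x u v + om S (dir g u) x v a + om S (dir g v) x a u = 0 := by
  have c : ∀ w, Continuous (dir g w) := fun w => (dir_smooth hg w).continuous
  have d : ∀ w, HasCompactSupport (dir g w) := fun w => dir_supp hs w
  rw [om_apply S (c a) (d a), om_apply S (c u) (d u), om_apply S (c v) (d v)]
  have f1 := cc_cf (c a) (d a) (vol2_self u v) x
  have f2 := cc_cf (c u) (d u) (vol2_self v a) x
  have f3 := cc_cf (c v) (d v) (vol2_self a u) x
  have f12 : CF (fun y => dir g a (x - y) • vol2 u v + dir g u (x - y) • vol2 v a) :=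
    CF.add f1 f2
  rw [← T_add S f1 f2, ← T_add S f12 f3]
  -- the primitive
  have hgx : ContDiff ℝ ∞ fun y : R4 => g (x - y) := hg.comp (contDiff_const.sub contDiff_id)
  have h0 := S.closed (fun y => (-g (x - y)) • vol3 a u v) (hgx.neg.smul contDiff_const) (by
    have := (supp_sub hs x)
    refine this.mono ?_
    intro y hy h0
    apply hy
    show (-g (x - y)) • vol3 a u v = 0
    have h1 : g (x - y) = 0 := h0
    rw [h1, neg_zero, zero_smul])
  rw [← h0]
  congr 1
  funext y
  ext p q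
  rw [dd_apply]
  have h2 : HasFDerivAt (fun y : R4 => g (x - y)) ((fderiv ℝ g (x - y)).comp
      (-ContinuousLinearMap.id ℝ R4)) y := by
    have h3 : HasFDerivAt (fun y : R4 => x - y) (-ContinuousLinearMap.id ℝ R4) y := by
      simpa using (hasFDerivAt_id (𝕜 := ℝ) y).const_sub x
    exact ((hg.differentiable (by simp) (x - y)).hasFDerivAt).comp y h3
  have h4 : fderiv ℝ (fun y => (-g (x - y)) • vol3 a u v) y =
      (-((fderiv ℝ g (x - y)).comp (-ContinuousLinearMap.id ℝ R4))).smulRight (vol3 a u v) :=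
    (h2.neg.smul_const (vol3 a u v)).fderiv
  rw [h4]
  have h5 : ∀ w z, (-((fderiv ℝ g (x - y)).comp (-ContinuousLinearMap.id ℝ R4))).smulRight
      (vol3 a u v) w z = fderiv ℝ g (x - y) w * vol4 a u v z := by
    intro w z
    have h6 : vol4 a u v z = vol2 a u v z := (vol2_apply _ _ _ _).symm
    rw [h6]
    show -(fderiv ℝ g (x - y) (-w)) * vol2 a u v z = _
    rw [map_neg, neg_neg]
  rw [h5, h5, ← five (fderiv ℝ g (x - y)) a u v p q]
  show dir g a (x - y) * vol2 u v p q + dir g u (x - y) * vol2 v a p q +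
    dir g v (x - y) * vol2 a u p q = _
  rw [vol2_apply, vol2_apply, vol2_apply]
  rfl

theorem om_alt {g : R4 → ℝ} (hg : Continuous g) (hs : HasCompactSupport g) (x a b : R4) :
    om S g x a b = - om S g x b a := by
  rw [om_apply S hg hs, om_apply S hg hs, ← T_neg S (cc_cf hg hs (vol2_self b a) x)]
  congr 1
  funext y
  ext u v
  show g (x - y) * vol2 a b u v = - (g (x - y) * vol2 b a u v)
  rw [vol2_apply, vol2_apply, vol4_swap]
  ring

/-- the derivative of `om` in the direction `a` is exact -/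
theorem dd_contract {g : R4 → ℝ} (hg : ContDiff ℝ ∞ g) (hs : HasCompactSupport g) (a x : R4) :
    dd (fun y => om S g y a) x = om S (dir g a) x := by
  ext u v
  rw [dd_apply]
  have h1 : ∀ w, fderiv ℝ (fun y => om S g y a) x w = fderiv ℝ (om S g) x w a := by
    intro w
    have := fderiv_clm_apply (𝕜 := ℝ) (c := om S g) (u := fun _ => a) (x := x)
      ((om_contDiff S hg hs).differentiable (by simp) x) (differentiableAt_const a)
    rw [this]
    simp
  rw [h1, h1, fderiv_om S hg hs, fderiv_om S hg hs]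
  have h2 := om_closed S hg hs x a u v
  have h3 := om_alt S (dir_smooth hg u).continuous (dir_supp hs u) x v a
  linarith

/-! ## pull backs -/

/-- pull back of a two-form -/
def pull (Φ : R4 → R4) (w2 : R4 → F2) (x : R4) : F2 :=
  (w2 (Φ x)).bilinearComp (fderiv ℝ Φ x) (fderiv ℝ Φ x)

theorem pull_apply (Φ : R4 → R4) (w2 : R4 → F2) (x u v : R4) :
    pull Φ w2 x u v = w2 (Φ x) (fderiv ℝ Φ x u) (fderiv ℝ Φ x v) := rfl

/-- pull back of a one-form -/
def pull1 (Φ : R4 → R4) (l : R4 → R4 →L[ℝ] ℝ) (x : R4) : R4 →L[ℝ] ℝ :=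
  (l (Φ x)).comp (fderiv ℝ Φ x)

theorem pull1_contDiff {Φ : R4 → R4} {l : R4 → R4 →L[ℝ] ℝ} (hΦ : ContDiff ℝ ∞ Φ)
    (hl : ContDiff ℝ ∞ l) : ContDiff ℝ ∞ (pull1 Φ l) :=
  (hl.comp hΦ).clm_comp (hΦ.fderiv_right (by simp))

theorem dd_pull1 {Φ : R4 → R4} {l : R4 → R4 →L[ℝ] ℝ} (hΦ : ContDiff ℝ ∞ Φ)
    (hl : ContDiff ℝ ∞ l) (x : R4) : dd (pull1 Φ l) x = pull Φ (dd l) x := by
  have hD : ContDiff ℝ ∞ (fderiv ℝ Φ) := hΦ.fderiv_right (by simp)
  have h1 : HasFDerivAt (fun y => l (Φ y)) ((fderiv ℝ l (Φ x)).comp (fderiv ℝ Φ x)) x :=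
    ((hl.differentiable (by simp) (Φ x)).hasFDerivAt).comp x
      (hΦ.differentiable (by simp) x).hasFDerivAt
  have h2 : HasFDerivAt (fderiv ℝ Φ) (fderiv ℝ (fderiv ℝ Φ) x) x :=
    (hD.differentiable (by simp) x).hasFDerivAt
  have h3 := h1.clm_comp h2
  ext u v
  rw [dd_apply]
  have h4 : ∀ w z, fderiv ℝ (pull1 Φ l) x w z =
      l (Φ x) (fderiv ℝ (fderiv ℝ Φ) x w z) + fderiv ℝ l (Φ x) (fderiv ℝ Φ x w) (fderiv ℝ Φ x z) := by
    intro w z
    have : fderiv ℝ (pull1 Φ l) x = _ := h3.fderiv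
    rw [this]
    rfl
  rw [h4, h4]
  have hsym : fderiv ℝ (fderiv ℝ Φ) x u v = fderiv ℝ (fderiv ℝ Φ) x v u := by
    have h5 : IsSymmSndFDerivAt ℝ Φ x :=
      (hΦ.contDiffAt).isSymmSndFDerivAt (by
        simp only [minSmoothness_of_isRCLikeNormedField]
        exact WithTop.coe_le_coe.2 (le_top : (2 : ℕ∞) ≤ ⊤))
    exact h5 u v
  rw [hsym, pull_apply, dd_apply]
  ring

/-- displacement maps -/
structure IsPer (V : R4 → R4) : Prop where
  smooth : ContDiff ℝ ∞ V
  per : ∀ k x, V (tr k x) = V x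

/-- `x + V x` -/
def disp (V : R4 → R4) (x : R4) : R4 := x + V x

theorem disp_smooth {V : R4 → R4} (h : IsPer V) : ContDiff ℝ ∞ (disp V) :=
  contDiff_id.add h.smooth

theorem disp_tr {V : R4 → R4} (h : IsPer V) (k : Fin 4 → ℤ) (x : R4) :
    disp V (tr k x) = tr k (disp V x) := by
  unfold disp
  rw [h.per]
  funext i
  simp only [tr, Pi.add_apply]
  ring

theorem fderiv_disp {V : R4 → R4} (h : IsPer V) (x u : R4) :
    fderiv ℝ (disp V) x u = u + fderiv ℝ V x u := by
  have : fderiv ℝ (disp V) x = ContinuousLinearMap.id ℝ R4 + fderiv ℝ V x := by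
    have h1 := ((hasFDerivAt_id (𝕜 := ℝ) x).add (h.smooth.differentiable (by simp) x).hasFDerivAt)
    exact h1.fderiv
  rw [this]; rfl

theorem fderiv_tr_eq {F : Type*} [NormedAddCommGroup F] [NormedSpace ℝ F] {f : R4 → F}
    (k : Fin 4 → ℤ) (x : R4) : fderiv ℝ (fun y => f (tr k y)) x = fderiv ℝ f (tr k x) := by
  have h : (fun y => f (tr k y)) = fun y => f (y + fun i => (k i : ℝ)) := by
    funext y; rw [tr_sub]
  rw [h, fderiv_comp_add_right, tr_sub]

theorem fderiv_disp_tr {V : R4 → R4} (h : IsPer V) (k : Fin 4 → ℤ) (x : R4) :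
    fderiv ℝ (disp V) (tr k x) = fderiv ℝ (disp V) x := by
  have h1 : fderiv ℝ V (tr k x) = fderiv ℝ V x := by
    rw [← fderiv_tr_eq k x]
    congr 1
    funext y
    exact h.per k y
  ext u i
  rw [fderiv_disp h, fderiv_disp h, h1]

/-- continuity and alternation of the pull back -/
theorem pull_continuous {Φ : R4 → R4} {w2 : R4 → F2} (hΦ : ContDiff ℝ ∞ Φ) (hw2 : Continuous w2) :
    Continuous (pull Φ w2) := by
  have h1 : Continuous fun x => w2 (Φ x) := hw2.comp hΦ.continuous
  have h2 : Continuous (fderiv ℝ Φ) := hΦ.continuous_fderiv (by simp)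
  have h3 : pull Φ w2 = fun x => (((w2 (Φ x)).comp (fderiv ℝ Φ x)).flip.comp (fderiv ℝ Φ x)).flip := by
    funext x
    ext u v
    rfl
  rw [h3]
  have f : Continuous (fun f : F2 => (ContinuousLinearMap.flip f : F2)) :=
    (ContinuousLinearMap.flipₗᵢ ℝ R4 R4 ℝ).continuous
  exact f.comp ((f.comp (h1.clm_comp h2)).clm_comp h2)

/-- exact pull backs are killed -/
theorem T_pull_dir {χ : R4 → ℝ} (hχ : IsPU χ) {V : R4 → R4} (hV : IsPer V) {g : R4 → ℝ}
    (hg : ContDiff ℝ ∞ g) (hs : HasCompactSupport g) (a : R4) :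
    S.T (fun x => χ x • pull (disp V) (om S (dir g a)) x) = 0 := by
  have hl : ContDiff ℝ ∞ (fun y => om S g y a) := (om_contDiff S hg hs).clm_apply contDiff_const
  have h1 := T_exact S hχ (l := pull1 (disp V) fun y => om S g y a)
    (pull1_contDiff (disp_smooth hV) hl) (by
      intro k x
      show (om S g (disp V (tr k x)) a).comp (fderiv ℝ (disp V) (tr k x)) =
        (om S g (disp V x) a).comp (fderiv ℝ (disp V) x)
      rw [disp_tr hV, fderiv_disp_tr hV, om_per S hg.continuous hs])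
  rw [← h1]
  congr 1
  funext x
  rw [dd_pull1 (disp_smooth hV) hl]
  congr 1
  ext u v
  rw [pull_apply, pull_apply, dd_contract S hg hs]

end Vale.Agent.P247.H710
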