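import Vale.Agent.P247.H710.CurC

/-!
# P247, package SUM: `T (Φ^* om_f) = 0` for `Φ = id + V`

`om S f` is the smoothed current (a closed periodic two-form dual to `T`).
-/

open scoped ContDiff Topology
open Set MeasureTheory Filter Metric

noncomputable section

namespace Vale.Agent.P247.H710

open Vale.Agent.P247.H74 Vale.Agent.P247.H574

attribute [local instance] f2G f2S f1G f1S

/-! ## the primitive in a direction -/

/-- `∫₀¹ f (x + s a) ds` -/
def prim (a : R4) (f : R4 → ℝ) (x : R4) : ℝ := ∫ s in (0 : ℝ)..1, f (x + s • a)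

theorem prim_smooth (a : R4) {f : R4 → ℝ} (hf : ContDiff ℝ ∞ f) (hs : HasCompactSupport f) :
    ContDiff ℝ ∞ (prim a f) := by
  have hm : Measurable fun s : ℝ => (-s) • a := by fun_prop
  set μ : Measure R4 := Measure.map (fun s : ℝ => (-s) • a) (volume.restrict (Ioc 0 1)) with hμ
  have hfin : IsFiniteMeasure μ := by
    rw [hμ]
    exact Measure.isFiniteMeasure_map _ _
  have h1 : ContDiff ℝ ((⊤ : ℕ∞) : WithTop ℕ∞)
      (convolution (fun _ : R4 => (1 : ℝ)) f (ContinuousLinearMap.lsmul ℝ ℝ) μ) :=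
    hs.contDiff_convolution_right (μ := μ) (ContinuousLinearMap.lsmul ℝ ℝ)
      (locallyIntegrable_const (1 : ℝ)) hf
  have h2 : prim a f = convolution (fun _ : R4 => (1 : ℝ)) f (ContinuousLinearMap.lsmul ℝ ℝ) μ := by
    funext x
    rw [convolution_def]
    unfold prim
    rw [hμ, integral_map hm.aemeasurable, intervalIntegral.integral_of_le zero_le_one]
    · apply integral_congr_ae
      filter_upwards with s
      simp [neg_smul]
    · apply Continuous.aestronglyMeasurable
      have := hf.continuous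
      simp only [ContinuousLinearMap.lsmul_apply, one_smul]
      exact this.comp (continuous_const.sub continuous_id)
  rw [h2]
  exact h1

theorem prim_supp (a : R4) {f : R4 → ℝ} (hs : HasCompactSupport f) :
    HasCompactSupport (prim a f) := by
  have hK : IsCompact ((fun p : R4 × ℝ => p.1 - p.2 • a) '' (tsupport f ×ˢ Icc (0 : ℝ) 1)) :=
    (hs.isCompact.prod isCompact_Icc).image (by fun_prop)
  refine HasCompactSupport.intro hK fun x hx => ?_
  unfold prim
  rw [intervalIntegral.integral_congr (g := fun _ => (0 : ℝ))]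
  · simp
  · intro s hs'
    rw [uIcc_of_le zero_le_one] at hs'
    by_contra hne
    apply hx
    exact ⟨(x + s • a, s), ⟨subset_tsupport _ hne, hs'⟩, by simp⟩

theorem dir_prim (a : R4) {f : R4 → ℝ} (hf : ContDiff ℝ ∞ f) (hs : HasCompactSupport f) (x : R4) :
    dir (prim a f) a x = f (x + a) - f x := by
  have hc : Continuous fun s : ℝ => f (x + s • a) :=
    hf.continuous.comp (by fun_prop)
  have h1 : HasDerivAt (fun t : ℝ => prim a f (x + t • a)) (fderiv ℝ (prim a f) (x + (0 : ℝ) • a) a)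
      0 := by
    have h2 : HasFDerivAt (prim a f) (fderiv ℝ (prim a f) (x + (0 : ℝ) • a)) (x + (0 : ℝ) • a) :=
      ((prim_smooth a hf hs).differentiable (by simp) _).hasFDerivAt
    have h3 : HasDerivAt (fun t : ℝ => x + t • a) a 0 := by
      have := ((hasDerivAt_id (0 : ℝ)).smul_const a).const_add x
      simpa using this
    exact h2.comp_hasDerivAt 0 h3
  have h4 : (fun t : ℝ => prim a f (x + t • a)) = fun t =>
      (∫ s in (0 : ℝ)..(t + 1), f (x + s • a)) - ∫ s in (0 : ℝ)..t, f (x + s • a) := by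
    funext t
    have e1 : prim a f (x + t • a) = ∫ s in (0 : ℝ)..1, (fun r => f (x + r • a)) (t + s) := by
      unfold prim
      apply intervalIntegral.integral_congr
      intro s _
      show f (x + t • a + s • a) = f (x + (t + s) • a)
      rw [add_smul, add_assoc]
    rw [e1, intervalIntegral.integral_comp_add_left (fun r => f (x + r • a)) t, add_zero]
    rw [intervalIntegral.integral_interval_sub_left
      (hc.intervalIntegrable _ _) (hc.intervalIntegrable _ _)]
  have h5 : HasDerivAt (fun t : ℝ => (∫ s in (0 : ℝ)..(t + 1), f (x + s • a)) -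
      ∫ s in (0 : ℝ)..t, f (x + s • a)) (f (x + (1 : ℝ) • a) - f (x + (0 : ℝ) • a)) 0 := by
    have k1 : HasDerivAt (fun t : ℝ => ∫ s in (0 : ℝ)..t, f (x + s • a)) (f (x + (0 : ℝ) • a)) 0 :=
      intervalIntegral.integral_hasDerivAt_right (hc.intervalIntegrable _ _)
        (hc.stronglyMeasurableAtFilter _ _) hc.continuousAt
    have k2 : HasDerivAt (fun t : ℝ => ∫ s in (0 : ℝ)..t, f (x + s • a))
        (f (x + (0 + 1 : ℝ) • a)) (0 + 1) :=
      intervalIntegral.integral_hasDerivAt_right (hc.intervalIntegrable _ _)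
        (hc.stronglyMeasurableAtFilter _ _) hc.continuousAt
    have k3 : HasDerivAt (fun t : ℝ => ∫ s in (0 : ℝ)..(t + 1), f (x + s • a))
        (f (x + (0 + 1 : ℝ) • a)) 0 := k2.comp_add_const 0 1
    rw [zero_add] at k3
    exact k3.sub k1
  rw [h4] at h1
  have h6 := h1.unique h5
  rw [zero_smul, add_zero, one_smul] at h6
  exact h6

/-! ## linearity -/

variable {D : Data} (S : ICur D)

theorem om_self {g : R4 → ℝ} (hg : Continuous g) (hs : HasCompactSupport g) (x a : R4) :
    om S g x a a = 0 := by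
  have := om_alt S hg hs x a a
  linarith

theorem om_add {f g : R4 → ℝ} (hf : Continuous f) (hfs : HasCompactSupport f)
    (hg : Continuous g) (hgs : HasCompactSupport g) (x : R4) :
    om S (fun z => f z + g z) x = om S f x + om S g x := by
  ext a b
  show _ = om S f x a b + om S g x a b
  rw [om_apply S (g := fun z => f z + g z) (hf.add hg) (hfs.add hgs), om_apply S hf hfs, om_apply S hg hgs,
    ← T_add S (cc_cf hf hfs (vol2_self a b) x) (cc_cf hg hgs (vol2_self a b) x)]
  congr 1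
  funext y
  exact add_smul _ _ _

theorem om_zero (x : R4) : om S (fun _ => 0) x = 0 := by
  ext a b
  rw [om_apply S (g := fun _ => 0) continuous_const HasCompactSupport.zero]
  have : (fun y : R4 => (0 : ℝ) • vol2 a b) = fun _ => (0 : F2) := by
    funext y; exact zero_smul _ _
  rw [this, T_zero]
  rfl

/-- the number `T (Φ^* om_f)` -/
def sT (χ : R4 → ℝ) (V : R4 → R4) (f : R4 → ℝ) : ℝ :=
  S.T (fun x => χ x • pull (disp V) (om S f) x)

theorem pull_cf {χ : R4 → ℝ} (hχ : IsPU χ) {V : R4 → R4} (hV : IsPer V) {f : R4 → ℝ}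
    (hf : ContDiff ℝ ∞ f) (hs : HasCompactSupport f) :
    CF (fun x => χ x • pull (disp V) (om S f) x) := by
  refine CF.fmul hχ.smooth.continuous hχ.supp
    (pull_continuous (disp_smooth hV) (om_contDiff S hf hs).continuous) fun x u => ?_
  rw [pull_apply, om_self S hf.continuous hs]

theorem sT_add {χ : R4 → ℝ} (hχ : IsPU χ) {V : R4 → R4} (hV : IsPer V) {f g : R4 → ℝ}
    (hf : ContDiff ℝ ∞ f) (hfs : HasCompactSupport f)
    (hg : ContDiff ℝ ∞ g) (hgs : HasCompactSupport g) :
    sT S χ V (fun z => f z + g z) = sT S χ V f + sT S χ V g := by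
  unfold sT
  rw [← T_add S (pull_cf S hχ hV hf hfs) (pull_cf S hχ hV hg hgs)]
  congr 1
  funext x
  rw [← smul_add]
  congr 1
  ext u v
  rw [pull_apply, om_add S hf.continuous hfs hg.continuous hgs]
  rfl

theorem sT_zero (χ : R4 → ℝ) (V : R4 → R4) : sT S χ V (fun _ => 0) = 0 := by
  unfold sT
  have : (fun x => χ x • pull (disp V) (om S fun _ => 0) x) = fun _ => (0 : F2) := by
    funext x
    ext u v
    show χ x * pull (disp V) (om S fun _ => 0) x u v = 0
    rw [pull_apply, om_zero]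
    show χ x * 0 = 0
    rw [mul_zero]
  rw [this, T_zero]

theorem sT_sum {χ : R4 → ℝ} (hχ : IsPU χ) {V : R4 → R4} (hV : IsPer V) {ι : Type*} (s : Finset ι)
    {f : ι → R4 → ℝ} (hf : ∀ i, ContDiff ℝ ∞ (f i)) (hs : ∀ i, HasCompactSupport (f i)) :
    ContDiff ℝ ∞ (fun z => ∑ i ∈ s, f i z) ∧ HasCompactSupport (fun z => ∑ i ∈ s, f i z) ∧
      sT S χ V (fun z => ∑ i ∈ s, f i z) = ∑ i ∈ s, sT S χ V (f i) := by
  classical
  induction s using Finset.induction_on with
  | empty =>
    simp only [Finset.sum_empty]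
    exact ⟨contDiff_const, HasCompactSupport.zero, sT_zero S χ V⟩
  | insert a s ha ih =>
    obtain ⟨h1, h2, h3⟩ := ih
    have e1 : (fun z => ∑ i ∈ insert a s, f i z) = fun z => f a z + ∑ i ∈ s, f i z := by
      funext z; rw [Finset.sum_insert ha]
    rw [e1, Finset.sum_insert ha]
    exact ⟨(hf a).add h1, (hs a).add h2, by rw [sT_add S hχ hV (hf a) (hs a) h1 h2, h3]⟩

theorem shift_supp {f : R4 → ℝ} (hs : HasCompactSupport f) (a : R4) :
    HasCompactSupport fun z => f (z + a) := hs.comp_homeomorph (Homeomorph.addRight a)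

/-- invariance under translations -/
theorem sT_shift {χ : R4 → ℝ} (hχ : IsPU χ) {V : R4 → R4} (hV : IsPer V) {f : R4 → ℝ}
    (hf : ContDiff ℝ ∞ f) (hs : HasCompactSupport f) (a : R4) :
    sT S χ V (fun z => f (z + a)) = sT S χ V f := by
  have hg := prim_smooth a hf hs
  have hgs := prim_supp a hs
  have h0 : sT S χ V (dir (prim a f) a) = 0 := T_pull_dir S hχ hV hg hgs a
  have h1 := sT_add S hχ hV hf hs (dir_smooth hg a) (dir_supp hgs a)
  rw [h0, add_zero] at h1
  rw [← h1]
  congr 1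
  funext z
  rw [dir_prim a hf hs]
  ring

/-! ## constant forms -/

theorem T_pull_const {χ : R4 → ℝ} (hχ : IsPU χ) {V : R4 → R4} (hV : IsPer V) (κ : F2)
    (hκ : ∀ u, κ u u = 0) : S.T (fun x => χ x • pull (disp V) (fun _ => κ) x) = κ (e 2) (e 3) := by
  have hsw : ∀ u v, κ u v = - κ v u := by
    intro u v
    have h := hκ (u + v)
    have h1 : κ (u + v) (u + v) = κ u u + κ u v + (κ v u + κ v v) := by
      rw [map_add κ u v]
      show κ u (u + v) + κ v (u + v) = _
      rw [map_add (κ u), map_add (κ v)]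
    rw [h1, hκ u, hκ v] at h
    linarith
  have hD : ContDiff ℝ ∞ (fderiv ℝ V) := hV.smooth.fderiv_right (by simp)
  have hc : ContDiff ℝ ∞ fun x => κ (V x) := κ.contDiff.comp hV.smooth
  have hl2 : ContDiff ℝ ∞ fun x => (κ (V x)).comp (fderiv ℝ V x) := hc.clm_comp hD
  have hl : ContDiff ℝ ∞ fun x => κ (V x) + (1 / 2 : ℝ) • (κ (V x)).comp (fderiv ℝ V x) :=
    hc.add (hl2.const_smul (1 / 2 : ℝ))
  have hfV : ∀ k x, fderiv ℝ V (tr k x) = fderiv ℝ V x := by
    intro k x
    rw [← fderiv_tr_eq k x]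
    congr 1
    funext y
    exact hV.per k y
  have h0 := T_exact S hχ hl (by
    intro k x
    rw [hV.per, hfV])
  have hk := S.cls χ hχ.smooth.continuous hχ.supp hχ.sum κ hκ
  have c1 : CF (fun x => χ x • κ) :=
    CF.fmul hχ.smooth.continuous hχ.supp continuous_const fun _ u => hκ u
  have c2 : CF (fun x => χ x • dd (fun x => κ (V x) + (1 / 2 : ℝ) •
      (κ (V x)).comp (fderiv ℝ V x)) x) :=
    CF.fmul hχ.smooth.continuous hχ.supp (continuous_flip_fderiv hl) (dd_self _)
  have h1 := T_add S c1 c2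
  rw [h0, hk, add_zero] at h1
  rw [← h1]
  congr 1
  funext x
  rw [← smul_add]
  congr 1
  ext u v
  rw [pull_apply, fderiv_disp hV, fderiv_disp hV]
  show _ = κ u v + dd (fun x => κ (V x) + (1 / 2 : ℝ) • (κ (V x)).comp (fderiv ℝ V x)) x u v
  rw [dd_apply]
  have d1 : HasFDerivAt (fun x => κ (V x)) (κ.comp (fderiv ℝ V x)) x :=
    κ.hasFDerivAt.comp x (hV.smooth.differentiable (by simp) x).hasFDerivAt
  have d2 : HasFDerivAt (fderiv ℝ V) (fderiv ℝ (fderiv ℝ V) x) x :=
    (hD.differentiable (by simp) x).hasFDerivAt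
  have d3 := d1.clm_comp d2
  have d4 := d1.add (d3.const_smul (1 / 2 : ℝ))
  have h4 : ∀ w z, fderiv ℝ (fun x => κ (V x) + (1 / 2 : ℝ) • (κ (V x)).comp (fderiv ℝ V x)) x w z =
      κ (fderiv ℝ V x w) z + (1 / 2) * (κ (V x) (fderiv ℝ (fderiv ℝ V) x w z) +
        κ (fderiv ℝ V x w) (fderiv ℝ V x z)) := by
    intro w z
    have h5 : fderiv ℝ (fun x => κ (V x) + (1 / 2 : ℝ) • (κ (V x)).comp (fderiv ℝ V x)) x = _ :=
      d4.fderiv
    rw [h5]
    rfl
  rw [h4, h4]
  have hsym : fderiv ℝ (fderiv ℝ V) x u v = fderiv ℝ (fderiv ℝ V) x v u := by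
    have h5 : IsSymmSndFDerivAt ℝ V x :=
      (hV.smooth.contDiffAt).isSymmSndFDerivAt (by
        simp only [minSmoothness_of_isRCLikeNormedField]
        exact WithTop.coe_le_coe.2 (le_top : (2 : ℕ∞) ≤ ⊤))
    exact h5 u v
  rw [hsym, hsw (fderiv ℝ V x v) u, hsw (fderiv ℝ V x v) (fderiv ℝ V x u)]
  have e1 : κ (u + fderiv ℝ V x u) (v + fderiv ℝ V x v) = κ u v + κ u (fderiv ℝ V x v) +
      (κ (fderiv ℝ V x u) v + κ (fderiv ℝ V x u) (fderiv ℝ V x v)) := by
    rw [map_add κ u]
    show κ u (v + fderiv ℝ V x v) + κ (fderiv ℝ V x u) (v + fderiv ℝ V x v) = _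
    rw [map_add (κ u), map_add (κ (fderiv ℝ V x u))]
  rw [e1]
  ring

/-! ## the grid -/

/-- the kernels -/
def ker (M : ℕ) (z : R4) : ℝ := bet ((M : ℝ) • z)

theorem ker_smooth (M : ℕ) : ContDiff ℝ ∞ (ker M) :=
  bet_smooth.comp (contDiff_id.const_smul (M : ℝ))

theorem ker_nonneg (M : ℕ) (z : R4) : 0 ≤ ker M z := bet_nonneg _

theorem ker_zero_of {M : ℕ} (hM : 0 < M) {z : R4} (h : 1 / (M : ℝ) ≤ ‖z‖) : ker M z = 0 := by
  apply bet_zero_of
  have hM' : (0 : ℝ) < M := by exact_mod_cast hM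
  rw [norm_smul, Real.norm_eq_abs, abs_of_pos hM']
  rw [div_le_iff₀ hM'] at h
  linarith

theorem ker_supp {M : ℕ} (hM : 0 < M) : HasCompactSupport (ker M) := by
  refine HasCompactSupport.intro (isCompact_closedBall (0 : R4) (1 / (M : ℝ))) fun z hz => ?_
  rw [mem_closedBall_zero_iff, not_le] at hz
  exact ker_zero_of hM hz.le

/-- division with remainder in every coordinate -/
def gridE (M : ℕ) [NeZero M] : (Fin 4 → ℤ) × (Fin 4 → Fin M) ≃ (Fin 4 → ℤ) where
  toFun p := fun i => (Int.divModEquiv M).symm (-p.1 i, p.2 i)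
  invFun n := (fun i => -((Int.divModEquiv M) (n i)).1, fun i => ((Int.divModEquiv M) (n i)).2)
  left_inv p := by
    refine Prod.ext (funext fun i => ?_) (funext fun i => ?_)
    · show -((Int.divModEquiv M) ((Int.divModEquiv M).symm (-p.1 i, p.2 i))).1 = p.1 i
      rw [Equiv.apply_symm_apply]
      exact neg_neg _
    · show ((Int.divModEquiv M) ((Int.divModEquiv M).symm (-p.1 i, p.2 i))).2 = p.2 i
      rw [Equiv.apply_symm_apply]
  right_inv n := by
    funext i
    show (Int.divModEquiv M).symm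
      (- -((Int.divModEquiv M) (n i)).1, ((Int.divModEquiv M) (n i)).2) = n i
    rw [neg_neg]
    exact Equiv.symm_apply_apply _ _

theorem gridE_apply (M : ℕ) [NeZero M] (p : (Fin 4 → ℤ) × (Fin 4 → Fin M)) (i : Fin 4) :
    (gridE M p i : ℝ) = ((p.2 i : ℕ) : ℝ) - (M : ℝ) * (p.1 i : ℝ) := by
  show (((Int.divModEquiv M).symm (-p.1 i, p.2 i) : ℤ) : ℝ) = _
  rw [Int.divModEquiv_symm_apply]
  push_cast
  ring

/-- the grid points -/
def gp (M : ℕ) (j : Fin 4 → Fin M) : R4 := fun i => ((j i : ℕ) : ℝ) / M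

theorem hasSum_grid (M : ℕ) [NeZero M] (x : R4) :
    HasSum (fun k : Fin 4 → ℤ => ∑ j : Fin 4 → Fin M, ker M (x - tr k 0 + gp M j)) 1 := by
  have hM : (M : ℝ) ≠ 0 := by exact_mod_cast NeZero.ne M
  have h1 := (gridE M).hasSum_iff.2 (hasSum_bet ((M : ℝ) • x))
  refine h1.prod_fiberwise fun k => ?_
  convert hasSum_fintype _ using 1
  refine Finset.sum_congr rfl fun j _ => ?_
  show bet _ = bet _
  congr 1
  funext i
  show (M : ℝ) * (x i - (0 + (k i : ℝ)) + ((j i : ℕ) : ℝ) / M) =
    (M : ℝ) * x i + ((gridE M (k, j) i : ℤ) : ℝ)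
  rw [gridE_apply]
  field_simp
  ring

theorem om_grid (M : ℕ) [NeZero M] (x : R4) :
    om S (fun z => ∑ j : Fin 4 → Fin M, ker M (z + gp M j)) x = wg (pj 0) (pj 1) := by
  have hM : 0 < M := Nat.pos_of_ne_zero (NeZero.ne M)
  have hc : Continuous fun z : R4 => ∑ j : Fin 4 → Fin M, ker M (z + gp M j) :=
    continuous_finsetSum _ fun j _ => (ker_smooth M).continuous.comp
      (continuous_id.add continuous_const)
  have hs : HasCompactSupport fun z : R4 => ∑ j : Fin 4 → Fin M, ker M (z + gp M j) := by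
    refine HasCompactSupport.intro (isCompact_closedBall (0 : R4) 2) fun z hz => ?_
    rw [mem_closedBall_zero_iff, not_le] at hz
    refine Finset.sum_eq_zero fun j _ => ?_
    apply ker_zero_of hM
    have hM' : (1 : ℝ) ≤ M := by exact_mod_cast hM
    have h1 : ‖gp M j‖ ≤ 1 := by
      rw [pi_norm_le_iff_of_nonneg zero_le_one]
      intro i
      show |((j i : ℕ) : ℝ) / M| ≤ 1
      rw [abs_of_nonneg (by positivity), div_le_one (by linarith)]
      exact_mod_cast (j i).2.le
    have h2 : ‖z‖ ≤ ‖z + gp M j‖ + ‖gp M j‖ := by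
      calc ‖z‖ = ‖z + gp M j - gp M j‖ := by rw [add_sub_cancel_right]
        _ ≤ _ := norm_sub_le _ _
    have h3 : 1 / (M : ℝ) ≤ 1 := by
      rw [div_le_one (by linarith)]; exact hM'
    linarith
  ext a b
  rw [om_apply S hc hs]
  rw [S.cls (fun y => ∑ j : Fin 4 → Fin M, ker M (x - y + gp M j))
    (hc.comp (continuous_const.sub continuous_id)) (supp_sub hs x) _ (vol2 a b) (vol2_self a b)]
  · rw [vol2_apply, wg_apply]
    simp [vol4, bv, e, pj]
  · intro y
    have h := hasSum_grid M (x - y)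
    rw [← h.tsum_eq]
    refine tsum_congr fun k => Finset.sum_congr rfl fun j _ => ?_
    congr 1
    funext i
    simp only [tr, Pi.add_apply, Pi.sub_apply, Pi.zero_apply]
    ring

/-- **SUM**: the self-intersection number of `T` and its push-off vanishes. -/
theorem SUM {χ : R4 → ℝ} (hχ : IsPU χ) {V : R4 → R4} (hV : IsPer V) {M : ℕ} (hM : 0 < M) :
    S.T (fun x => χ x • pull (disp V) (om S (ker M)) x) = 0 := by
  have : NeZero M := ⟨hM.ne'⟩
  have h1 := (sT_sum S hχ hV (Finset.univ : Finset (Fin 4 → Fin M))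
    (f := fun j z => ker M (z + gp M j))
    (fun j => (ker_smooth M).comp (contDiff_id.add contDiff_const))
    (fun j => shift_supp (ker_supp hM) _)).2.2
  have h2 : ∀ j, sT S χ V (fun z => ker M (z + gp M j)) = sT S χ V (ker M) := fun j =>
    sT_shift S hχ hV (ker_smooth M) (ker_supp hM) _
  rw [Finset.sum_congr rfl fun j _ => h2 j, Finset.sum_const, nsmul_eq_mul] at h1
  have h3 : sT S χ V (fun z => ∑ j : Fin 4 → Fin M, ker M (z + gp M j)) = 0 := by
    unfold sT
    have h4 : (fun x => χ x • pull (disp V)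
        (om S fun z => ∑ j : Fin 4 → Fin M, ker M (z + gp M j)) x) =
        fun x => χ x • pull (disp V) (fun _ => wg (pj 0) (pj 1)) x := by
      funext x
      congr 1
      ext u v
      rw [pull_apply, pull_apply, om_grid]
    rw [h4, T_pull_const S hχ hV _ (wg_self _ _), wg_apply]
    simp [e, pj]
  rw [h3] at h1
  have h5 : (((Finset.univ : Finset (Fin 4 → Fin M)).card : ℕ) : ℝ) ≠ 0 := by
    rw [Finset.card_univ, Fintype.card_fun, Fintype.card_fin, Fintype.card_fin]
    positivity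
  exact (mul_eq_zero.1 h1.symm).resolve_left h5

end Vale.Agent.P247.H710
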