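import Vale.Agent.P247.H710.VF2

/-!
# P247, layer C: geometry of the discs at finitely many points
-/

open scoped ContDiff Topology
open Set MeasureTheory Filter Metric

noncomputable section

namespace Vale.Agent.P247.H710

open Vale.Agent.P247.H74 Vale.Agent.P247.H574

theorem dist_tr (k : Fin 4 → ℤ) (a b : R4) : dist (tr k a) (tr k b) = dist a b := by
  rw [tr_sub, tr_sub, dist_add_right]

/-- Geometry of the small discs at the points of `P`. -/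
theorem discs {D : Data} {K : Set R4} (P : Finset R4) (N : R4 → ℕ)
    (u : ∀ p, Fin (N p) → ℂ → R4) (ε : R4 → ℝ)
    (hB : ∀ p ∈ P, Brs D K p (N p) (u p) (ε p))
    (hKt : ∀ (k : Fin 4 → ℤ) x, x ∈ K → tr k x ∈ K)
    (hP : ∀ p ∈ P, ∀ q ∈ P, ∀ k : Fin 4 → ℤ, p = tr k q → p = q ∧ k = 0) :
    ∃ r > 0, r ≤ 1 ∧
      (∀ p ∈ P, ∀ l, ∀ z ∈ ball (0 : ℂ) r, dist (u p l z) p < ε p) ∧
      (∃ η > 0, ∀ p ∈ P, ∀ q ∈ P, ∀ l j, ∀ z ∈ ball (0 : ℂ) r, ∀ w ∈ ball (0 : ℂ) r,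
        ∀ k : Fin 4 → ℤ, dist (u p l z) (tr k (u q j w)) < η → p = q ∧ k = 0) ∧
      (∀ p ∈ P, ∀ l j, ∀ z ∈ ball (0 : ℂ) r, ∀ w ∈ ball (0 : ℂ) r, u p l z = u p j w →
        (l = j ∧ z = w) ∨ (z = 0 ∧ w = 0)) ∧
      (∀ p ∈ P, ∀ l, ∀ z₀ ∈ ball (0 : ℂ) r, z₀ ≠ 0 → ∀ d > 0, ∃ e > 0, ∀ k : Fin 4 → ℤ,
        ∀ y ∈ K, dist y (tr k (u p l z₀)) < e → ∃ z : ℂ, ‖z - z₀‖ < d ∧ tr k (u p l z) = y) ∧
      ∀ p ∈ P, ∀ d > 0, ∃ e > 0, ∀ k : Fin 4 → ℤ, ∀ y ∈ K, dist y (tr k p) < e →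
        ∃ l, ∃ z : ℂ, ‖z‖ < d ∧ tr k (u p l z) = y := by
  obtain ⟨η, hη, hsep⟩ := exists_sep P hP
  have h1 : ∀ p : R4, ∃ r > 0, r ≤ 1 ∧ (p ∈ P → ∀ l, ∀ z ∈ ball (0 : ℂ) r,
      dist (u p l z) p < ε p ∧ dist (u p l z) p < η / 3) := by
    intro p
    by_cases hp : p ∈ P
    · have hBp := hB p hp
      have h2 : ∀ l, ∃ r > 0, ∀ z ∈ ball (0 : ℂ) r,
          dist (u p l z) p < ε p ∧ dist (u p l z) p < η / 3 := by
        intro l
        have hc : ContinuousAt (u p l) 0 :=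
          (brs_cont hBp l).continuousAt (ball_mem_nhds _ (by norm_num))
        have hm : 0 < min (ε p) (η / 3) := lt_min hBp.posε (by positivity)
        obtain ⟨r, hr, hr1⟩ := Metric.continuousAt_iff.1 hc _ hm
        refine ⟨r, hr, fun z hz => ?_⟩
        have h3 := hr1 hz
        rw [hBp.zero l] at h3
        exact ⟨h3.trans_le (min_le_left _ _), h3.trans_le (min_le_right _ _)⟩
      choose rl hrl h3 using h2
      obtain ⟨c, hc, hcs⟩ := exists_min (Finset.univ : Finset (Fin (N p))) rl fun l _ => hrl l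
      refine ⟨min c 1, lt_min hc one_pos, min_le_right _ _, fun _ l z hz => h3 l z ?_⟩
      rw [mem_ball_zero_iff] at hz ⊢
      exact hz.trans_le ((min_le_left _ _).trans (hcs l (Finset.mem_univ l)))
    · exact ⟨1, one_pos, le_rfl, fun h => absurd h hp⟩
  choose rp hrp hrp1 h2 using h1
  obtain ⟨c, hc, hcs⟩ := exists_min P rp fun p _ => hrp p
  have hcr : ∀ p ∈ P, ∀ z ∈ ball (0 : ℂ) (min c 1), z ∈ ball (0 : ℂ) (rp p) := fun p hp z hz =>
    ball_subset_ball ((min_le_left _ _).trans (hcs p hp)) hz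
  have hc2 : ∀ z ∈ ball (0 : ℂ) (min c 1), z ∈ ball (0 : ℂ) 2 := fun z hz =>
    ball_subset_ball ((min_le_right _ _).trans (by norm_num)) hz
  refine ⟨min c 1, lt_min hc one_pos, min_le_right _ _, ?_, ?_, ?_, ?_, ?_⟩
  · exact fun p hp l z hz => (h2 p hp l z (hcr p hp z hz)).1
  · refine ⟨η / 3, by positivity, fun p hp q hq l j z hz w hw k hd => ?_⟩
    apply hsep p hp q hq k
    have e1 := (h2 p hp l z (hcr p hp z hz)).2
    have e2 := (h2 q hq j w (hcr q hq w hw)).2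
    calc dist p (tr k q) ≤ dist p (u p l z) + dist (u p l z) (tr k (u q j w)) +
          dist (tr k (u q j w)) (tr k q) := dist_triangle4 _ _ _ _
      _ < η / 3 + η / 3 + η / 3 := by
          rw [dist_tr, dist_comm p]
          linarith
      _ = η := by ring
  · exact fun p hp l j z hz w hw h => (hB p hp).inj l j z (hc2 z hz) w (hc2 w hw) h
  · intro p hp l z₀ hz₀ h0 d hd
    have hz1 : ‖z₀‖ < 1 := by
      rw [mem_ball_zero_iff] at hz₀
      exact hz₀.trans_le (min_le_right _ _)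
    obtain ⟨e, he, h3⟩ := brs_local (hB p hp) l hz1 h0 (h2 p hp l z₀ (hcr p hp z₀ hz₀)).1 hd
    refine ⟨e, he, fun k y hy hd' => ?_⟩
    have e1 : dist (tr (-k) y) (u p l z₀) < e := by
      rw [← dist_tr k, tr_neg_cancel]
      exact hd'
    obtain ⟨w, hw, hw1⟩ := h3 _ e1 (hKt _ _ hy)
    refine ⟨z₀ + w, by rwa [add_sub_cancel_left], ?_⟩
    rw [hw1, tr_neg_cancel]
  · intro p hp d hd
    obtain ⟨e, he, -, h3⟩ := brs_cov (hB p hp) hd
    refine ⟨e, he, fun k y hy hd' => ?_⟩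
    have e1 : dist (tr (-k) y) p < e := by
      rw [← dist_tr k, tr_neg_cancel]
      exact hd'
    obtain ⟨l, z, hz, -, hz1⟩ := h3 _ e1 (hKt _ _ hy)
    exact ⟨l, z, hz, by rw [hz1, tr_neg_cancel]⟩

/-- the closed discs of radius `ρ` and their translates form a closed set -/
theorem closed_discs {D : Data} {K : Set R4} (P : Finset R4) (N : R4 → ℕ)
    (u : ∀ p, Fin (N p) → ℂ → R4) (ε : R4 → ℝ)
    (hB : ∀ p ∈ P, Brs D K p (N p) (u p) (ε p)) {ρ : ℝ} (hρ : ρ < 2) :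
    IsClosed {x | ∃ p ∈ P, ∃ l, ∃ z : ℂ, ‖z‖ ≤ ρ ∧ ∃ k : Fin 4 → ℤ, x = tr k (u p l z)} := by
  classical
  set A : Set R4 := ⋃ p ∈ P, ⋃ l, u p l '' closedBall 0 ρ with hA
  have hAc : IsCompact A := by
    refine P.finite_toSet.isCompact_biUnion fun p hp => isCompact_iUnion fun l => ?_
    exact (isCompact_closedBall _ _).image_of_continuousOn
      ((brs_cont (hB p hp) l).mono (closedBall_subset_ball hρ))
  have hAm : ∀ y, y ∈ A ↔ ∃ p ∈ P, ∃ l, ∃ z : ℂ, ‖z‖ ≤ ρ ∧ u p l z = y := by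
    intro y
    simp only [hA, mem_iUnion, mem_image, mem_closedBall_zero_iff, exists_prop]
  rw [← isOpen_compl_iff, isOpen_iff_mem_nhds]
  intro x hx
  obtain ⟨s, -, hs⟩ := exists_window (A ∪ closedBall x 1)
    (hAc.isBounded.union isBounded_closedBall)
  have hclosed : IsClosed (⋃ k ∈ s, tr k '' A) := by
    refine s.finite_toSet.isClosed_biUnion fun k _ => ?_
    exact (hAc.image (tr_contDiff k).continuous).isClosed
  have hxn : x ∉ ⋃ k ∈ s, tr k '' A := by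
    intro hcon
    simp only [mem_iUnion, mem_image, exists_prop] at hcon
    obtain ⟨k, -, y, hy, hyx⟩ := hcon
    obtain ⟨p, hp, l, z, hz, hzy⟩ := (hAm y).1 hy
    exact hx ⟨p, hp, l, z, hz, k, by rw [hzy, hyx]⟩
  filter_upwards [hclosed.isOpen_compl.mem_nhds hxn, ball_mem_nhds x one_pos] with y hy hy1 hcon
  obtain ⟨p, hp, l, z, hz, k, hk⟩ := hcon
  have hyA : u p l z ∈ A := (hAm _).2 ⟨p, hp, l, z, hz, rfl⟩
  apply hy
  simp only [mem_iUnion, mem_image, exists_prop]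
  refine ⟨k, hs k _ (Or.inl hyA) (Or.inr ?_), _, hyA, hk.symm⟩
  rw [← hk]
  exact ball_subset_closedBall hy1

/-- the part of `K` outside the discs is closed -/
theorem out_closed {D : Data} {K : Set R4} (hK : IsClosed K) (P : Finset R4) (N : R4 → ℕ)
    (u : ∀ p, Fin (N p) → ℂ → R4) (ε : R4 → ℝ)
    (hB : ∀ p ∈ P, Brs D K p (N p) (u p) (ε p))
    (hKt : ∀ (k : Fin 4 → ℤ) x, x ∈ K → tr k x ∈ K)
    (hP : ∀ p ∈ P, ∀ q ∈ P, ∀ k : Fin 4 → ℤ, p = tr k q → p = q ∧ k = 0) :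
    ∃ r > 0, ∀ ρ, 0 < ρ → ρ < r → IsClosed (Out K P N u ρ) := by
  obtain ⟨r, hr, hr1, h1, h2, h3, h4, h5⟩ := discs P N u ε hB hKt hP
  refine ⟨r, hr, fun ρ hρ hρr => ?_⟩
  rw [← isOpen_compl_iff, isOpen_iff_mem_nhds]
  intro x hx
  by_cases hxK : x ∈ K
  · have hx1 : ∃ p ∈ P, ∃ l, ∃ z ∈ ball (0 : ℂ) ρ, ∃ k : Fin 4 → ℤ, x = tr k (u p l z) := by
      by_contra hcon
      apply hx
      refine ⟨hxK, fun p hp l z hz k heq => hcon ⟨p, hp, l, z, hz, k, heq⟩⟩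
    obtain ⟨p, hp, l, z, hz, k, hk⟩ := hx1
    by_cases h0 : z = 0
    · obtain ⟨e, he, h6⟩ := h5 p hp ρ hρ
      have hxk : x = tr k p := by rw [hk, h0, (hB p hp).zero l]
      filter_upwards [ball_mem_nhds x he] with y hy hcon
      rw [mem_ball, hxk] at hy
      obtain ⟨j, w, hw, hwy⟩ := h6 k y hcon.1 hy
      exact hcon.2 p hp j w (by rwa [mem_ball_zero_iff]) k hwy.symm
    · rw [mem_ball_zero_iff] at hz
      obtain ⟨e, he, h6⟩ := h4 p hp l z (by rw [mem_ball_zero_iff]; linarith) h0 (ρ - ‖z‖)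
        (by linarith)
      filter_upwards [ball_mem_nhds x he] with y hy hcon
      rw [mem_ball, hk] at hy
      obtain ⟨w, hw, hwy⟩ := h6 k y hcon.1 hy
      refine hcon.2 p hp l w ?_ k hwy.symm
      rw [mem_ball_zero_iff]
      calc ‖w‖ = ‖(w - z) + z‖ := by rw [sub_add_cancel]
        _ ≤ ‖w - z‖ + ‖z‖ := norm_add_le _ _
        _ < ρ := by linarith
  · filter_upwards [hK.isOpen_compl.mem_nhds hxK] with y hy hcon
    exact hy hcon.1

end Vale.Agent.P247.H710
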