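import Vale.Agent.P247.H58.LW.Deg
import Vale.Agent.P247.H58.LW.Sta
import Vale.Agent.P247.H667.Vol
import Vale.Agent.P247.H620.LRoot
import Vale.Agent.P247.H383.ZEND.Pt
import Vale.Agent.P247.H74.CE.OmL

/-!
# P247, LW: the integral side, linear algebra
-/

open scoped ContDiff Topology
open Set MeasureTheory Filter Metric

noncomputable section

namespace Vale.Agent.P247.H710.LWI

open Vale.Agent.P247.H74 Vale.Agent.P247.H574 Vale.Agent.P247.H58.LW

abbrev d4 (a b c d : R4) : ℝ := H667.dt4 a b c d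

theorem vol4_eq (a b c d : R4) : H58.LW.vol4 a b c d = d4 a b c d := rfl

theorem d4_eq (a b c d : R4) : H383.ZEND.dt4 a b c d = d4 a b c d := by
  rw [d4, H667.dt4_eq]
  simp only [H383.ZEND.dt4, H383.ZEND.qb, H383.ZEND.pl]
  simp [Matrix.cons_val]

variable (D : Data) (x a b : R4)

/-- the first coordinate -/
def c1 : R4 →L[ℝ] ℂ :=
  (ContinuousLinearMap.mul ℝ ℂ (Om D x a b)⁻¹).comp ((CE.OmL D x).flip b)

/-- the second coordinate -/
def c2 : R4 →L[ℝ] ℂ :=
  (ContinuousLinearMap.mul ℝ ℂ (Om D x a b)⁻¹).comp (CE.OmL D x a)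

theorem c1_apply (y : R4) : c1 D x a b y = (Om D x a b)⁻¹ * Om D x y b := by
  simp [c1, CE.OmL_apply]

theorem c2_apply (y : R4) : c2 D x a b y = (Om D x a b)⁻¹ * Om D x a y := by
  simp [c2, CE.OmL_apply]

/-- the inverse of the coordinates -/
def Lm : C2 →L[ℝ] R4 :=
  ((CE.cmB D x).flip a).comp (ContinuousLinearMap.fst ℝ ℂ ℂ) +
  ((CE.cmB D x).flip b).comp (ContinuousLinearMap.snd ℝ ℂ ℂ)

theorem Lm_apply (w : C2) : Lm D x a b w = cm D x w.1 a + cm D x w.2 b := by
  simp [Lm, CE.cmB_apply]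

variable {D x a b}

theorem Lm_coord (h : Om D x a b ≠ 0) (y : R4) : Lm D x a b (c1 D x a b y, c2 D x a b y) = y := by
  rw [Lm_apply, c1_apply, c2_apply]
  set r : R4 := y - (cm D x ((Om D x a b)⁻¹ * Om D x y b) a +
    cm D x ((Om D x a b)⁻¹ * Om D x a y) b) with hr
  have hadd : ∀ p q s, Om D x (p + q) s = Om D x p s + Om D x q s := by
    intro p q s
    rw [CE.Om_anti, CE.Om_add, CE.Om_anti D x s p, CE.Om_anti D x s q]; ring
  have hsub : ∀ p q s, Om D x (p - q) s = Om D x p s - Om D x q s := by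
    intro p q s
    have := hadd (p - q) q s
    rw [sub_add_cancel] at this
    rw [this]; ring
  have hsub2 : ∀ p q s, Om D x s (p - q) = Om D x s p - Om D x s q := by
    intro p q s
    rw [CE.Om_anti, hsub, CE.Om_anti D x p s, CE.Om_anti D x q s]; ring
  have h1 : Om D x r b = 0 := by
    rw [hr, hsub, hadd, CE.cm_Om, CE.cm_Om, CE.Om_self]
    field_simp
    ring
  have h2 : Om D x a r = 0 := by
    rw [hr, hsub2, CE.Om_add, CE.Om_cm, CE.Om_cm, CE.Om_self]
    field_simp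
    ring
  have h3 : r = 0 := by
    by_contra hne
    obtain ⟨c, hc⟩ := CE.Om_ker D x r b hne h1
    apply h
    rw [hc, CE.Om_cm, h2, mul_zero]
  rw [hr] at h3
  exact (sub_eq_zero.1 h3).symm

theorem c1_Lm (h : Om D x a b ≠ 0) (w : C2) : c1 D x a b (Lm D x a b w) = w.1 := by
  have e1 : Om D x (cm D x w.1 a + cm D x w.2 b) b = w.1 * Om D x a b := by
    rw [CE.Om_anti D x (_ + _) b, CE.Om_add, CE.Om_cm, CE.Om_cm, CE.Om_self, CE.Om_anti D x b a]
    ring
  rw [Lm_apply, c1_apply, e1]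
  field_simp

theorem c2_Lm (h : Om D x a b ≠ 0) (w : C2) : c2 D x a b (Lm D x a b w) = w.2 := by
  rw [Lm_apply, c2_apply, CE.Om_add, CE.Om_cm, CE.Om_cm, CE.Om_self]
  field_simp
  ring

theorem Lm_inj (h : Om D x a b ≠ 0) : Function.Injective (Lm D x a b) := by
  intro w w' hw
  have e1 := congrArg (c1 D x a b) hw
  have e2 := congrArg (c2 D x a b) hw
  rw [c1_Lm h, c1_Lm h] at e1
  rw [c2_Lm h, c2_Lm h] at e2
  exact Prod.ext e1 e2

theorem Lm_surj (h : Om D x a b ≠ 0) : Function.Surjective (Lm D x a b) := fun y =>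
  ⟨_, Lm_coord h y⟩

/-- the volume of the frame -/
def kap (D : Data) (x a b : R4) : ℝ := d4 a (D.J x a) b (D.J x b)

theorem kap_pos (hG : Good D) (h : Om D x a b ≠ 0) : 0 < kap D x a b := by
  have h1 := H383.ZEND.pfaff_val (D.η 0) x a (D.J x a) b (D.J x b)
  rw [H383.ZEND.eta_self, H383.ZEND.eta_J_J, H383.ZEND.eta_J_left, d4_eq] at h1
  have h2 : 0 < (D.η 0).val x a b ^ 2 + (D.η 0).val x a (D.J x b) ^ 2 := by
    by_contra hcon
    have q1 := sq_nonneg ((D.η 0).val x a b)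
    have q2 := sq_nonneg ((D.η 0).val x a (D.J x b))
    have e1 : (D.η 0).val x a b = 0 := by nlinarith
    have e2 : (D.η 0).val x a (D.J x b) = 0 := by nlinarith
    rw [D.η_J, Fin.sum_univ_two, e1, mul_zero, zero_add] at e2
    have hc : D.c x 0 1 ≠ 0 := by
      intro h0
      have := CE.c_det D x
      rw [h0] at this
      nlinarith [mul_self_nonneg (D.c x 0 0)]
    have e3 := (mul_eq_zero.1 e2).resolve_left hc
    apply h
    rw [Om, e1, e3]
    simp
  have h3 := hG.orient x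
  have h4 : 0 < w4 ((D.η 0).val x) ((D.η 0).val x) * d4 a (D.J x a) b (D.J x b) := by
    rw [← h1]
    nlinarith
  exact (pos_iff_pos_of_mul_pos h4).1 h3

/-- the frame as an endomorphism of `ℝ⁴` -/
def Mm (D : Data) (x a b : R4) : R4 →L[ℝ] R4 :=
  (Lm D x a b).comp (H667.n4 : R4 →L[ℝ] ℂ × ℂ)

theorem Mm_det : (Mm D x a b).det = kap D x a b := by
  rw [H667.det_eq_dt4]
  simp only [Mm, ContinuousLinearMap.comp_apply, ContinuousLinearEquiv.coe_coe, H667.n4_e0,
    H667.n4_e1, H667.n4_e2, H667.n4_e3, Lm_apply]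
  simp [cm, kap, d4]

/-- the determinant of `Lm ∘ A` -/
theorem d4_Lm (A : C2 →L[ℝ] C2) :
    d4 (Lm D x a b (A (1, 0))) (Lm D x a b (A (Complex.I, 0))) (Lm D x a b (A (0, 1)))
      (Lm D x a b (A (0, Complex.I))) = kap D x a b * A.det := by
  have h1 : d4 (Lm D x a b (A (1, 0))) (Lm D x a b (A (Complex.I, 0))) (Lm D x a b (A (0, 1)))
      (Lm D x a b (A (0, Complex.I))) =
      ((Mm D x a b).comp ((H667.n4.symm : C2 →L[ℝ] R4).comp
        (A.comp (H667.n4 : R4 →L[ℝ] C2)))).det := by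
    rw [H667.det_eq_dt4]
    simp only [Mm, ContinuousLinearMap.comp_apply, ContinuousLinearEquiv.coe_coe, H667.n4_e0,
      H667.n4_e1, H667.n4_e2, H667.n4_e3, ContinuousLinearEquiv.apply_symm_apply]
  rw [h1, ← Mm_det]
  have h2 : ∀ P Q : R4 →L[ℝ] R4, (P.comp Q).det = P.det * Q.det := by
    intro P Q
    change LinearMap.det ((P : R4 →ₗ[ℝ] R4) ∘ₗ (Q : R4 →ₗ[ℝ] R4)) = _
    rw [LinearMap.det_comp]
  rw [h2]
  congr 1
  change LinearMap.det ((H667.n4.symm.toLinearEquiv : C2 →ₗ[ℝ] R4) ∘ₗ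
    (A : C2 →ₗ[ℝ] C2) ∘ₗ (H667.n4.toLinearEquiv : R4 →ₗ[ℝ] C2)) = LinearMap.det (A : C2 →ₗ[ℝ] C2)
  exact LinearMap.det_conj (A : C2 →ₗ[ℝ] C2) H667.n4.toLinearEquiv.symm

/-- change of variables -/
theorem integral_Lm (hG : Good D) (h : Om D x a b ≠ 0) (f : R4 → ℝ) :
    ∫ y, f y = kap D x a b * ∫ w, f (Lm D x a b w) := by
  have hk := kap_pos hG h
  have h1 := integral_image_eq_integral_abs_det_fderiv_smul (volume : Measure R4)
    (s := univ) (f := Mm D x a b) (f' := fun _ => Mm D x a b) MeasurableSet.univ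
    (fun y _ => (Mm D x a b).hasFDerivAt.hasFDerivWithinAt)
    (fun y _ z _ hyz => H667.n4.injective (Lm_inj h hyz)) f
  have h2 : (Mm D x a b) '' univ = univ := by
    rw [image_univ]
    exact Function.Surjective.range_eq ((Lm_surj h).comp H667.n4.surjective)
  rw [h2, setIntegral_univ, setIntegral_univ, Mm_det, abs_of_pos hk] at h1
  rw [h1, integral_smul, smul_eq_mul]
  congr 1
  exact H667.mp_n4.integral_comp H667.n4.toHomeomorph.measurableEmbedding
    (fun w => f (Lm D x a b w))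

/-! ## determinants of compositions -/

theorem d4_left (L : ℂ →L[ℝ] ℂ) (X : ℂ →L[ℝ] R4) (c d : R4) :
    d4 (X (L 1)) (X (L Complex.I)) c d = L.det * d4 (X 1) (X Complex.I) c d := by
  have e : ∀ w : ℂ, X w = w.re • X 1 + w.im • X Complex.I := by
    intro w
    conv_lhs => rw [show w = w.re • (1 : ℂ) + w.im • Complex.I by simp, map_add, map_smul, map_smul]
  rw [e (L 1), e (L Complex.I), H620.det_eq]
  simp only [d4, H667.dt4_eq, Pi.add_apply, Pi.smul_apply, smul_eq_mul]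
  ring

theorem d4_right (L : ℂ →L[ℝ] ℂ) (X : ℂ →L[ℝ] R4) (c d : R4) :
    d4 c d (X (L 1)) (X (L Complex.I)) = L.det * d4 c d (X 1) (X Complex.I) := by
  have e : ∀ w : ℂ, X w = w.re • X 1 + w.im • X Complex.I := by
    intro w
    conv_lhs => rw [show w = w.re • (1 : ℂ) + w.im • Complex.I by simp, map_add, map_smul, map_smul]
  rw [e (L 1), e (L Complex.I), H620.det_eq]
  simp only [d4, H667.dt4_eq, Pi.add_apply, Pi.smul_apply, smul_eq_mul]
  ring

theorem d4_neg (p q c d : R4) : d4 p q (-c) (-d) = d4 p q c d := by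
  simp only [d4, H667.dt4_eq, Pi.neg_apply]
  ring

/-- multiplication of the first component by `-1` -/
def Nm : C2 →L[ℝ] C2 :=
  (-(ContinuousLinearMap.fst ℝ ℂ ℂ)).prod (ContinuousLinearMap.snd ℝ ℂ ℂ)

theorem Nm_apply (w : C2) : Nm w = (-w.1, w.2) := rfl

theorem Nm_det : Nm.det = 1 := by
  rw [H58.LW.det4_eq]
  simp [br, mn, Nm]

theorem integral_Nm (f : C2 → ℝ) : ∫ w, f (Nm w) = ∫ w, f w := by
  rw [Measure.volume_eq_prod]
  have h := (Measure.measurePreserving_neg (volume : Measure ℂ)).prod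
    (MeasurePreserving.id (volume : Measure ℂ))
  exact h.integral_comp ((Homeomorph.neg ℂ).prodCongr (Homeomorph.refl ℂ)).measurableEmbedding f

end Vale.Agent.P247.H710.LWI
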