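import Vale.Agent.P247.H710.LWIa

/-!
# P247, LW: the integral side, the formula with fixed radii
-/

open scoped ContDiff Topology
open Set MeasureTheory Filter Metric Polynomial

noncomputable section

namespace Vale.Agent.P247.H710.LWI

open Vale.Agent.P247.H74 Vale.Agent.P247.H574 Vale.Agent.P247.H58.LW

theorem push_smooth {u : ℂ → R4} {V : R4 → R4} (hu : ContDiffOn ℝ ∞ u (ball 0 2))
    (hV : ContDiff ℝ ∞ V) (δ : ℝ) : ContDiffOn ℝ ∞ (push u V δ) (ball 0 2) :=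
  hu.add ((hV.comp_contDiffOn hu).const_smul δ)

theorem fd_cont {v : ℂ → R4} (hv : ContDiffOn ℝ ∞ v (ball 0 2)) (w : ℂ) :
    ContinuousOn (fun s => fderiv ℝ v s w) (ball 0 2) :=
  (hv.continuousOn_fderiv_of_isOpen isOpen_ball (by simp)).clm_apply continuousOn_const

theorem ball_pow {k : ℕ} (hk : 1 ≤ k) {r : ℝ} (hr : 0 < r) :
    {s : ℂ | ‖s‖ ^ k < r ^ k} = ball 0 r := by
  ext s
  rw [mem_ball_zero_iff, mem_ofPred_eq]
  exact pow_lt_pow_iff_left₀ (norm_nonneg _) hr.le (by omega)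

/-- the change of variables `s ↦ s ^ k` -/
theorem pow_cov {k : ℕ} (hk : 1 ≤ k) {r : ℝ} (hr : 0 < r) {g : ℂ → ℝ}
    (hg : IntegrableOn g (ball 0 (r ^ k))) :
    IntegrableOn (fun s => ‖(k : ℂ) * s ^ (k - 1)‖ ^ 2 * g (s ^ k)) (ball 0 r) ∧
    (k : ℝ) * ∫ z in ball (0 : ℂ) (r ^ k), g z =
      ∫ s in ball (0 : ℂ) r, ‖(k : ℂ) * s ^ (k - 1)‖ ^ 2 * g (s ^ k) := by
  have e : ∀ j, ∀ z : ℂ, (H620.om k j * H620.rt k z) ^ k = z := by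
    intro j z
    rw [mul_pow, H620.om_pow hk, H620.rt_pow hk, one_mul]
  obtain ⟨h1, h2⟩ := H620.fibre_integral hk (r ^ k) (fun s => g (s ^ k)) (by
    intro j _
    simp only [e]
    exact hg)
  rw [ball_pow hk hr] at h1 h2
  refine ⟨h1, ?_⟩
  rw [← h2]
  simp only [e, Finset.sum_const, Finset.card_range, nsmul_eq_mul]
  rw [integral_const_mul]

/-- the inner integral -/
theorem inner_int {v : ℂ → R4} (hv : ContDiffOn ℝ ∞ v (ball 0 2)) {q' : ℕ} (hq' : 1 ≤ q')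
    {ψ : ℂ → ℂ} {R' r₁ : ℝ} {V₁ : Set ℂ} (hV₁ : IsOpen V₁) (hV₁R : closedBall 0 R' ⊆ V₁)
    (hψ : ContDiffOn ℝ 1 ψ V₁) (hψi : InjOn ψ (ball 0 R'))
    (hψd : ∀ c ∈ ball (0 : ℂ) R', 0 ≤ (fderiv ℝ ψ c).det)
    (hψr : ∀ c ∈ ball (0 : ℂ) R', ψ c ∈ ball (0 : ℂ) r₁) (hr₁ : 0 < r₁) (hr₁1 : r₁ ^ q' ≤ 1)
    {f : R4 → ℝ} (hf : Continuous f) (y A B : R4)
    (h1 : ∀ s ∈ ball (0 : ℂ) 1, r₁ ^ q' ≤ ‖s‖ → f (y - v s) = 0)
    (h2 : ∀ σ ∈ ball (0 : ℂ) r₁, σ ∉ ψ '' ball 0 R' → f (y - v (σ ^ q')) = 0) :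
    (q' : ℝ) * ∫ s in ball (0 : ℂ) 1, f (y - v s) *
      d4 A B (fderiv ℝ v s 1) (fderiv ℝ v s Complex.I) =
    ∫ c in ball (0 : ℂ) R', f (y - v (ψ c ^ q')) *
      (‖(q' : ℂ) * ψ c ^ (q' - 1)‖ ^ 2 * (fderiv ℝ ψ c).det *
      d4 A B (fderiv ℝ v (ψ c ^ q') 1) (fderiv ℝ v (ψ c ^ q') Complex.I)) := by
  set g : ℂ → ℝ := fun s => f (y - v s) * d4 A B (fderiv ℝ v s 1) (fderiv ℝ v s Complex.I)
    with hg
  have hsub : closedBall (0 : ℂ) (r₁ ^ q') ⊆ ball 0 2 :=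
    closedBall_subset_ball (by linarith)
  have hgc : ContinuousOn g (ball 0 2) := by
    refine ContinuousOn.mul ?_ ?_
    · exact hf.comp_continuousOn (continuousOn_const.sub hv.continuousOn)
    · exact H667.dt4_cont continuousOn_const continuousOn_const (fd_cont hv _) (fd_cont hv _)
  have hgi : IntegrableOn g (ball 0 (r₁ ^ q')) :=
    ((hgc.mono hsub).integrableOn_compact (isCompact_closedBall _ _)).mono_set
      ball_subset_closedBall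
  have e1 : ∫ s in ball (0 : ℂ) 1, g s = ∫ s in ball (0 : ℂ) (r₁ ^ q'), g s := by
    refine setIntegral_eq_of_subset_of_forall_sdiff_eq_zero measurableSet_ball
      (ball_subset_ball hr₁1) fun s hs => ?_
    have : r₁ ^ q' ≤ ‖s‖ := by
      have := hs.2
      rwa [mem_ball_zero_iff, not_lt] at this
    simp only [hg, h1 s hs.1 this, zero_mul]
  have e2 := (pow_cov hq' hr₁ hgi).2
  have e3 : ∫ s in ball (0 : ℂ) r₁, ‖(q' : ℂ) * s ^ (q' - 1)‖ ^ 2 * g (s ^ q') =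
      ∫ s in ψ '' ball (0 : ℂ) R', ‖(q' : ℂ) * s ^ (q' - 1)‖ ^ 2 * g (s ^ q') := by
    refine setIntegral_eq_of_subset_of_forall_sdiff_eq_zero measurableSet_ball ?_ fun s hs => ?_
    · rintro _ ⟨c, hc, rfl⟩
      exact hψr c hc
    · simp only [hg, h2 s hs.1 hs.2, zero_mul, mul_zero]
  have e4 := integral_image_eq_integral_abs_det_fderiv_smul (volume : Measure ℂ)
    (s := ball (0 : ℂ) R') (f := ψ) (f' := fun c => fderiv ℝ ψ c) measurableSet_ball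
    (fun c hc => ((hψ.differentiableOn (by simp)).differentiableAt
      (hV₁.mem_nhds (hV₁R (ball_subset_closedBall hc)))).hasFDerivAt.hasFDerivWithinAt) hψi
    (fun s => ‖(q' : ℂ) * s ^ (q' - 1)‖ ^ 2 * g (s ^ q'))
  rw [e1, e2, e3, e4]
  refine setIntegral_congr_fun measurableSet_ball fun c hc => ?_
  simp only [hg, smul_eq_mul]
  rw [abs_of_nonneg (hψd c hc)]
  ring

/-- the map on the polydisc -/
def FF (u v : ℂ → R4) (V : R4 → R4) (δ : ℝ) (q q' : ℕ) (ψ : ℂ → ℂ) (p : C2) : R4 :=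
  push u V δ (p.1 ^ q) - v (ψ p.2 ^ q')

/-- its second component -/
def HH (D : Data) (x a b : R4) (u v : ℂ → R4) (V : R4 → R4) (δ : ℝ) (q q' : ℕ) (ψ : ℂ → ℂ)
    (p : C2) : ℂ := c2 D x a b (FF u v V δ q q' ψ p)

section
variable {D : Data} {x a b : R4} {u v : ℂ → R4} {V : R4 → R4} {δ : ℝ} {q q' K : ℕ}
  {Φ ψ : ℂ → ℂ} {R R' : ℝ}

theorem FF_hasFDerivAt (hu : ContDiffOn ℝ ∞ u (ball 0 2)) (hv : ContDiffOn ℝ ∞ v (ball 0 2))
    (hV : ContDiff ℝ ∞ V) {p : C2} (hp1 : p.1 ^ q ∈ ball (0 : ℂ) 2)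
    (hp2 : ψ p.2 ^ q' ∈ ball (0 : ℂ) 2) (hψ : DifferentiableAt ℝ ψ p.2) :
    HasFDerivAt (FF u v V δ q q' ψ)
      (((fderiv ℝ (push u V δ) (p.1 ^ q)).comp (H620.dpow q p.1)).comp
        (ContinuousLinearMap.fst ℝ ℂ ℂ) -
      ((fderiv ℝ v (ψ p.2 ^ q')).comp ((H620.dpow q' (ψ p.2)).comp (fderiv ℝ ψ p.2))).comp
        (ContinuousLinearMap.snd ℝ ℂ ℂ)) p := by
  have e1 : HasFDerivAt (push u V δ) (fderiv ℝ (push u V δ) (p.1 ^ q)) (p.1 ^ q) :=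
    (((push_smooth hu hV δ).contDiffAt (isOpen_ball.mem_nhds hp1)).differentiableAt
      (by simp)).hasFDerivAt
  have e2 : HasFDerivAt v (fderiv ℝ v (ψ p.2 ^ q')) (ψ p.2 ^ q') :=
    ((hv.contDiffAt (isOpen_ball.mem_nhds hp2)).differentiableAt (by simp)).hasFDerivAt
  have e3 : HasFDerivAt (fun p : C2 => p.1 ^ q)
      ((H620.dpow q p.1).comp (ContinuousLinearMap.fst ℝ ℂ ℂ)) p :=
    (H620.pow_hasFDerivAt q p.1).comp p (ContinuousLinearMap.fst ℝ ℂ ℂ).hasFDerivAt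
  have e4 : HasFDerivAt (fun p : C2 => ψ p.2 ^ q')
      (((H620.dpow q' (ψ p.2)).comp (fderiv ℝ ψ p.2)).comp (ContinuousLinearMap.snd ℝ ℂ ℂ)) p := by
    have h1 : HasFDerivAt (fun p : C2 => ψ p.2)
        ((fderiv ℝ ψ p.2).comp (ContinuousLinearMap.snd ℝ ℂ ℂ)) p :=
      hψ.hasFDerivAt.comp p (ContinuousLinearMap.snd ℝ ℂ ℂ).hasFDerivAt
    have h2 := HasFDerivAt.comp (g := fun s : ℂ => s ^ q') p (H620.pow_hasFDerivAt q' (ψ p.2)) h1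
    exact h2
  exact (e1.comp p e3).sub (e2.comp p e4)

theorem FF_eq (hab : Om D x a b ≠ 0) (hVb : ∀ y, Om D x (V y) b = 0) {p : C2}
    (hΦK : c1 D x a b (u (p.1 ^ q) - x) = Φ p.1 ^ K)
    (hψK : c1 D x a b (v (ψ p.2 ^ q') - x) = p.2 ^ K) :
    FF u v V δ q q' ψ p =
      Lm D x a b (Nm (dF K Φ (HH D x a b u v V δ q q' ψ) p)) := by
  have h1 : c1 D x a b (FF u v V δ q q' ψ p) = -(p.2 ^ K - Φ p.1 ^ K) := by
    have e : FF u v V δ q q' ψ p =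
        (u (p.1 ^ q) - x) + δ • V (u (p.1 ^ q)) - (v (ψ p.2 ^ q') - x) := by
      rw [FF, push]; abel
    rw [e, map_sub, map_add, map_smul, hΦK, hψK, c1_apply (y := V _), hVb]
    simp
  conv_lhs => rw [← Lm_coord hab (FF u v V δ q q' ψ p), h1]
  rfl

theorem FF_jac (hu : ContDiffOn ℝ ∞ u (ball 0 2)) (hv : ContDiffOn ℝ ∞ v (ball 0 2))
    (hV : ContDiff ℝ ∞ V) {p : C2} (hp1 : p.1 ^ q ∈ ball (0 : ℂ) 2)
    (hp2 : ψ p.2 ^ q' ∈ ball (0 : ℂ) 2) (hψ : DifferentiableAt ℝ ψ p.2)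
    (hΦ : DifferentiableAt ℝ Φ p.1) (hab : Om D x a b ≠ 0) (hVb : ∀ y, Om D x (V y) b = 0)
    (hΦK : ∀ᶠ z in 𝓝 p.1, c1 D x a b (u (z ^ q) - x) = Φ z ^ K)
    (hψK : ∀ᶠ c in 𝓝 p.2, c1 D x a b (v (ψ c ^ q') - x) = c ^ K) :
    kap D x a b * (fderiv ℝ (dF K Φ (HH D x a b u v V δ q q' ψ)) p).det =
      ‖(q : ℂ) * p.1 ^ (q - 1)‖ ^ 2 *
      (‖(q' : ℂ) * ψ p.2 ^ (q' - 1)‖ ^ 2 * (fderiv ℝ ψ p.2).det *
        d4 (fderiv ℝ (push u V δ) (p.1 ^ q) 1) (fderiv ℝ (push u V δ) (p.1 ^ q) Complex.I)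
          (fderiv ℝ v (ψ p.2 ^ q') 1) (fderiv ℝ v (ψ p.2 ^ q') Complex.I)) := by
  have h1 := FF_hasFDerivAt (δ := δ) hu hv hV hp1 hp2 hψ
  have hH : DifferentiableAt ℝ (HH D x a b u v V δ q q' ψ) p :=
    ((c2 D x a b).hasFDerivAt.comp p h1).differentiableAt
  have hA : DifferentiableAt ℝ (fun x : C2 => x.2 ^ K - Φ x.1 ^ K) p := by
    have := hΦ.comp p (differentiableAt_fst (𝕜 := ℝ) (p := p))
    exact (differentiableAt_snd.pow K).sub (this.pow K)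
  have hF : DifferentiableAt ℝ (dF K Φ (HH D x a b u v V δ q q' ψ)) p := hA.prodMk hH
  have hev : FF u v V δ q q' ψ =ᶠ[𝓝 p]
      fun p => Lm D x a b (Nm (dF K Φ (HH D x a b u v V δ q q' ψ) p)) := by
    have t1 : ∀ᶠ p' : C2 in 𝓝 p, c1 D x a b (u (p'.1 ^ q) - x) = Φ p'.1 ^ K :=
      continuous_fst.continuousAt.eventually hΦK
    have t2 : ∀ᶠ p' : C2 in 𝓝 p, c1 D x a b (v (ψ p'.2 ^ q') - x) = p'.2 ^ K :=
      continuous_snd.continuousAt.eventually hψK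
    filter_upwards [t1, t2] with p' t3 t4
    exact FF_eq hab hVb t3 t4
  have h2 : HasFDerivAt (FF u v V δ q q' ψ)
      ((Lm D x a b).comp (Nm.comp (fderiv ℝ (dF K Φ (HH D x a b u v V δ q q' ψ)) p))) p :=
    ((Lm D x a b).hasFDerivAt.comp p (Nm.hasFDerivAt.comp p hF.hasFDerivAt)).congr_of_eventuallyEq
      hev
  have h3 := h1.unique h2
  have h4 := d4_Lm (D := D) (x := x) (a := a) (b := b)
    (Nm.comp (fderiv ℝ (dF K Φ (HH D x a b u v V δ q q' ψ)) p))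
  have h5 : (Nm.comp (fderiv ℝ (dF K Φ (HH D x a b u v V δ q q' ψ)) p)).det =
      (fderiv ℝ (dF K Φ (HH D x a b u v V δ q q' ψ)) p).det := by
    change LinearMap.det ((Nm : C2 →ₗ[ℝ] C2) ∘ₗ
      ((fderiv ℝ (dF K Φ (HH D x a b u v V δ q q' ψ)) p : C2 →L[ℝ] C2) : C2 →ₗ[ℝ] C2)) = _
    rw [LinearMap.det_comp]
    change Nm.det * _ = _
    rw [Nm_det, one_mul]
  rw [h5] at h4
  rw [← h4]
  have h6 : ∀ w : C2, Lm D x a b ((Nm.comp (fderiv ℝ (dF K Φ (HH D x a b u v V δ q q' ψ)) p)) w) =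
      (fderiv ℝ (push u V δ) (p.1 ^ q)) (H620.dpow q p.1 w.1) -
        (fderiv ℝ v (ψ p.2 ^ q')) (((H620.dpow q' (ψ p.2)).comp (fderiv ℝ ψ p.2)) w.2) := by
    intro w
    have := congrArg (fun L : C2 →L[ℝ] R4 => L w) h3
    exact this.symm
  rw [h6, h6, h6, h6]
  simp only [map_zero, sub_zero, zero_sub]
  rw [d4_neg, d4_left (H620.dpow q p.1), d4_right ((H620.dpow q' (ψ p.2)).comp (fderiv ℝ ψ p.2)),
    H620.det_pow]
  have h7 : ((H620.dpow q' (ψ p.2)).comp (fderiv ℝ ψ p.2)).det =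
      ‖(q' : ℂ) * ψ p.2 ^ (q' - 1)‖ ^ 2 * (fderiv ℝ ψ p.2).det := by
    change LinearMap.det (((H620.dpow q' (ψ p.2)) : ℂ →ₗ[ℝ] ℂ) ∘ₗ
      ((fderiv ℝ ψ p.2 : ℂ →L[ℝ] ℂ) : ℂ →ₗ[ℝ] ℂ)) = _
    rw [LinearMap.det_comp]
    change (H620.dpow q' (ψ p.2)).det * _ = _
    rw [H620.det_pow]
  rw [h7]

end

end Vale.Agent.P247.H710.LWI
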