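import Vale.Agent.P247.H710.LWIb

/-!
# P247, LW: the integral side, the formula with fixed radii
-/

open scoped ContDiff Topology
open Set MeasureTheory Filter Metric Polynomial

noncomputable section

namespace Vale.Agent.P247.H710.LWI

open Vale.Agent.P247.H74 Vale.Agent.P247.H574 Vale.Agent.P247.H58.LW

section
variable {D : Data} {x a b : R4} {u v : ℂ → R4} {V : R4 → R4} {δ : ℝ} {q q' K : ℕ}
  {Φ ψ : ℂ → ℂ} {R R' r₁ : ℝ}

theorem det_contOn {X : Type*} [TopologicalSpace X] {s : Set X} {L : X → ℂ →L[ℝ] ℂ}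
    (h : ContinuousOn L s) : ContinuousOn (fun x => (L x).det) s := by
  simp only [H620.det_eq]
  have h1 := h.clm_apply (continuousOn_const (c := (1 : ℂ)))
  have h2 := h.clm_apply (continuousOn_const (c := Complex.I))
  exact ((Complex.continuous_re.comp_continuousOn h1).mul
    (Complex.continuous_im.comp_continuousOn h2)).sub
    ((Complex.continuous_im.comp_continuousOn h1).mul
    (Complex.continuous_re.comp_continuousOn h2))

/-- The formula with fixed radii. -/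
theorem int0 (hG : Good D) (hab : Om D x a b ≠ 0)
    (hu : ContDiffOn ℝ ∞ u (ball 0 2)) (hv : ContDiffOn ℝ ∞ v (ball 0 2))
    (hV : ContDiff ℝ ∞ V) (hVb : ∀ y, Om D x (V y) b = 0)
    (hq : 1 ≤ q) (hq' : 1 ≤ q') (hK : 0 < K) (hR : 0 < R) (hRq : R ^ q < 2)
    {V₀ : Set ℂ} (hV₀ : IsOpen V₀) (hV₀R : closedBall 0 R ⊆ V₀) (hΦ : ContDiffOn ℝ 1 Φ V₀)
    (hΦK : ∀ z ∈ closedBall (0 : ℂ) R, c1 D x a b (u (z ^ q) - x) = Φ z ^ K)
    (hΦR : ∀ z ∈ closedBall (0 : ℂ) R, ‖Φ z‖ < R')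
    {V₁ : Set ℂ} (hV₁ : IsOpen V₁) (hV₁R : closedBall 0 R' ⊆ V₁) (hψ : ContDiffOn ℝ 1 ψ V₁)
    (hψ2 : ∀ c ∈ V₁, ψ c ^ q' ∈ ball (0 : ℂ) 2)
    (hψK : ∀ c ∈ closedBall (0 : ℂ) R', c1 D x a b (v (ψ c ^ q') - x) = c ^ K)
    (hψi : InjOn ψ (ball 0 R')) (hψd : ∀ c ∈ ball (0 : ℂ) R', 0 ≤ (fderiv ℝ ψ c).det)
    (hψr : ∀ c ∈ ball (0 : ℂ) R', ψ c ∈ ball (0 : ℂ) r₁) (hr₁ : 0 < r₁) (hr₁1 : r₁ ^ q' ≤ 1)
    {c₀ : ℝ} (hc₀ : 0 < c₀)
    (hs1 : ∀ t ∈ ball (0 : ℂ) (R ^ q), ∀ s ∈ ball (0 : ℂ) 1, r₁ ^ q' ≤ ‖s‖ →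
      c₀ ≤ ‖push u V δ t - v s‖)
    (hs2 : ∀ t ∈ ball (0 : ℂ) (R ^ q), ∀ σ ∈ ball (0 : ℂ) r₁, σ ∉ ψ '' ball 0 R' →
      c₀ ≤ ‖push u V δ t - v (σ ^ q')‖)
    {m : ℂ → ℤ} (hm : ∀ w ∈ nthRootsFinset K (1 : ℂ), HasWinding
      (fun z => c2 D x a b (push u V δ (z ^ q) - v (ψ (w * Φ z) ^ q'))) 0 R (m w)) :
    ∃ ε₀ > 0, ∀ f : R4 → ℝ, Continuous f → tsupport f ⊆ ball 0 ε₀ →
      ((q : ℝ) * (q' : ℝ)) * Iuv u v V δ (R ^ q) f =
        ((∑ w ∈ nthRootsFinset K (1 : ℂ), m w : ℤ) : ℝ) * ∫ y, f y := by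
  have hR'0 : 0 < R' := lt_of_le_of_lt (norm_nonneg _) (hΦR 0 (mem_closedBall_self hR.le))
  have hPs := push_smooth (δ := δ) hu hV
  have hpow : ∀ z ∈ closedBall (0 : ℂ) R, z ^ q ∈ ball (0 : ℂ) 2 := by
    intro z hz
    rw [mem_closedBall_zero_iff] at hz
    rw [mem_ball_zero_iff, norm_pow]
    exact (pow_le_pow_left₀ (norm_nonneg _) hz q).trans_lt hRq
  have hψd' : ∀ c ∈ closedBall (0 : ℂ) R', DifferentiableAt ℝ ψ c := fun c hc =>
    (hψ.differentiableOn (by simp)).differentiableAt (hV₁.mem_nhds (hV₁R hc))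
  -- the open set on which `H` is smooth
  set U : Set C2 := ((fun z : ℂ => z ^ q) ⁻¹' ball 0 2) ×ˢ V₁ with hU
  have hUo : IsOpen U := (isOpen_ball.preimage (continuous_pow q)).prod hV₁
  have hUR : closedBall (0 : ℂ) R ×ˢ closedBall (0 : ℂ) R' ⊆ U := fun p hp =>
    ⟨hpow _ hp.1, hV₁R hp.2⟩
  have hHs : ContDiffOn ℝ 1 (HH D x a b u v V δ q q' ψ) U := by
    have t1 : ContDiffOn ℝ 1 (fun p : C2 => push u V δ (p.1 ^ q)) U := by
      refine (hPs.of_le (by simp)).comp (contDiff_fst.pow q).contDiffOn fun p hp => hp.1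
    have t2 : ContDiffOn ℝ 1 (fun p : C2 => v (ψ p.2 ^ q')) U := by
      have t3 : ContDiffOn ℝ 1 (fun p : C2 => ψ p.2) U :=
        hψ.comp contDiff_snd.contDiffOn fun p hp => hp.2
      exact (hv.of_le (by simp)).comp (t3.pow q') fun p hp => hψ2 _ hp.2
    exact (c2 D x a b).contDiff.comp_contDiffOn (t1.sub t2)
  obtain ⟨ε₁, hε₁, hdeg⟩ := deg_local (K := K) (Φ := Φ) (H := HH D x a b u v V δ q q' ψ)
    (R := R) (R' := R') (m := m) hK hUo hV₀ hV₀R hUR hΦ hHs hR hΦR (fun w hw => hm w hw)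
  -- the norm of the coordinates
  set C : ℝ := ‖c1 D x a b‖ + ‖c2 D x a b‖ + 1 with hC
  have hC0 : 0 < C := by positivity
  have hCw : ∀ w : C2, ‖w‖ ≤ C * ‖Lm D x a b (Nm w)‖ := by
    intro w
    have e1 : (Nm w).1 = -w.1 := rfl
    have e2 : (Nm w).2 = w.2 := rfl
    have e3 := c1_Lm hab (Nm w)
    have e4 := c2_Lm hab (Nm w)
    rw [Prod.norm_def]
    refine max_le ?_ ?_
    · calc ‖w.1‖ = ‖c1 D x a b (Lm D x a b (Nm w))‖ := by rw [e3, e1, norm_neg]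
        _ ≤ ‖c1 D x a b‖ * ‖Lm D x a b (Nm w)‖ := (c1 D x a b).le_opNorm _
        _ ≤ C * ‖Lm D x a b (Nm w)‖ := by
            gcongr
            rw [hC]; linarith [norm_nonneg (c2 D x a b)]
    · calc ‖w.2‖ = ‖c2 D x a b (Lm D x a b (Nm w))‖ := by rw [e4, e2]
        _ ≤ ‖c2 D x a b‖ * ‖Lm D x a b (Nm w)‖ := (c2 D x a b).le_opNorm _
        _ ≤ C * ‖Lm D x a b (Nm w)‖ := by
            gcongr
            rw [hC]; linarith [norm_nonneg (c1 D x a b)]
  refine ⟨min c₀ (ε₁ / C), lt_min hc₀ (by positivity), fun f hf hfs => ?_⟩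
  have hf0 : ∀ y : R4, c₀ ≤ ‖y‖ → f y = 0 := by
    intro y hy
    by_contra hne
    have h1 := hfs (subset_tsupport f hne)
    rw [mem_ball_zero_iff] at h1
    exact absurd (h1.trans_le (min_le_left _ _)) (not_lt.2 hy)
  set f' : C2 → ℝ := fun w => f (Lm D x a b (Nm w)) with hf'
  have hf'c : Continuous f' := hf.comp ((Lm D x a b).continuous.comp Nm.continuous)
  have hf's : tsupport f' ⊆ ball 0 ε₁ := by
    have h1 : tsupport f' ⊆ (fun w => Lm D x a b (Nm w)) ⁻¹' tsupport f :=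
      tsupport_comp_subset_preimage f ((Lm D x a b).continuous.comp Nm.continuous)
    intro w hw
    have h2 := hfs (h1 hw)
    rw [mem_ball_zero_iff] at h2 ⊢
    have h3 := h2.trans_le (min_le_right _ _)
    calc ‖w‖ ≤ C * ‖Lm D x a b (Nm w)‖ := hCw w
      _ < C * (ε₁ / C) := by gcongr
      _ = ε₁ := by field_simp
  have hk := kap_pos hG hab
  have key := hdeg f' hf'c hf's
  have hint : kap D x a b * ∫ w, f' w = ∫ y, f y := by
    rw [integral_Lm hG hab f]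
    congr 1
    exact integral_Nm (fun w => f (Lm D x a b w))
  have key2 : kap D x a b * ∫ p in pd R R', f' (dF K Φ (HH D x a b u v V δ q q' ψ) p) *
      (fderiv ℝ (dF K Φ (HH D x a b u v V δ q q' ψ)) p).det =
      ((∑ w ∈ nthRootsFinset K (1 : ℂ), m w : ℤ) : ℝ) * ∫ y, f y := by
    rw [key, ← hint]
    ring
  rw [← key2]
  -- the inner function
  set G : ℂ → ℂ → ℝ := fun t c => f (push u V δ t - v (ψ c ^ q')) *
      (‖(q' : ℂ) * ψ c ^ (q' - 1)‖ ^ 2 * (fderiv ℝ ψ c).det *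
      d4 (fderiv ℝ (push u V δ) t 1) (fderiv ℝ (push u V δ) t Complex.I)
        (fderiv ℝ v (ψ c ^ q') 1) (fderiv ℝ v (ψ c ^ q') Complex.I)) with hGdef
  have hGc : ContinuousOn (fun p : ℂ × ℂ => G p.1 p.2)
      (closedBall (0 : ℂ) (R ^ q) ×ˢ closedBall (0 : ℂ) R') := by
    have s1 : ContinuousOn (fun p : ℂ × ℂ => p.1)
        (closedBall (0 : ℂ) (R ^ q) ×ˢ closedBall (0 : ℂ) R') := continuousOn_fst
    have m1 : MapsTo (fun p : ℂ × ℂ => p.1)
        (closedBall (0 : ℂ) (R ^ q) ×ˢ closedBall (0 : ℂ) R') (ball 0 2) := fun p hp =>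
      closedBall_subset_ball hRq hp.1
    have s2 : ContinuousOn (fun p : ℂ × ℂ => ψ p.2)
        (closedBall (0 : ℂ) (R ^ q) ×ˢ closedBall (0 : ℂ) R') :=
      hψ.continuousOn.comp continuousOn_snd fun p hp => hV₁R hp.2
    have s3 : ContinuousOn (fun p : ℂ × ℂ => ψ p.2 ^ q')
        (closedBall (0 : ℂ) (R ^ q) ×ˢ closedBall (0 : ℂ) R') := s2.pow q'
    have m3 : MapsTo (fun p : ℂ × ℂ => ψ p.2 ^ q')
        (closedBall (0 : ℂ) (R ^ q) ×ˢ closedBall (0 : ℂ) R') (ball 0 2) := fun p hp =>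
      hψ2 _ (hV₁R hp.2)
    have s4 : ContinuousOn (fun p : ℂ × ℂ => (fderiv ℝ ψ p.2).det)
        (closedBall (0 : ℂ) (R ^ q) ×ˢ closedBall (0 : ℂ) R') := by
      refine det_contOn ?_
      exact (hψ.continuousOn_fderiv_of_isOpen hV₁ (by simp)).comp continuousOn_snd
        fun p hp => hV₁R hp.2
    refine ContinuousOn.mul ?_ (ContinuousOn.mul (ContinuousOn.mul ?_ s4) ?_)
    · exact hf.comp_continuousOn ((hPs.continuousOn.comp s1 m1).sub (hv.continuousOn.comp s3 m3))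
    · exact ((continuousOn_const.mul (s2.pow _)).norm).pow 2
    · exact H667.dt4_cont ((fd_cont hPs _).comp s1 m1) ((fd_cont hPs _).comp s1 m1)
        ((fd_cont hv _).comp s3 m3) ((fd_cont hv _).comp s3 m3)
  have hGi : IntegrableOn (fun p : ℂ × ℂ => G p.1 p.2)
      (ball (0 : ℂ) (R ^ q) ×ˢ ball (0 : ℂ) R') := by
    refine (hGc.integrableOn_compact
      ((isCompact_closedBall _ _).prod (isCompact_closedBall _ _))).mono_set ?_
    exact prod_mono ball_subset_closedBall ball_subset_closedBall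
  -- the inner integral
  have hinner : ∀ t ∈ ball (0 : ℂ) (R ^ q), (q' : ℝ) * ∫ s in ball (0 : ℂ) 1,
      f (push u V δ t - v s) * d4 (fderiv ℝ (push u V δ) t 1)
        (fderiv ℝ (push u V δ) t Complex.I) (fderiv ℝ v s 1) (fderiv ℝ v s Complex.I) =
      ∫ c in ball (0 : ℂ) R', G t c := by
    intro t ht
    refine inner_int hv hq' hV₁ hV₁R hψ hψi hψd hψr hr₁ hr₁1 hf _ _ _ ?_ ?_
    · exact fun s hs hrs => hf0 _ (hs1 t ht s hs hrs)
    · exact fun σ hσ hn => hf0 _ (hs2 t ht σ hσ hn)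
  -- the outer integral
  set h : ℂ → ℝ := fun t => ∫ c in ball (0 : ℂ) R', G t c with hh
  have hhi : IntegrableOn h (ball 0 (R ^ q)) := by
    have h1 : Integrable (fun p : ℂ × ℂ => G p.1 p.2)
        ((volume.restrict (ball (0 : ℂ) (R ^ q))).prod (volume.restrict (ball (0 : ℂ) R'))) := by
      rw [Measure.prod_restrict]
      exact hGi
    exact h1.integral_prod_left
  have e1 : ((q : ℝ) * (q' : ℝ)) * Iuv u v V δ (R ^ q) f =
      (q : ℝ) * ∫ t in ball (0 : ℂ) (R ^ q), h t := by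
    rw [mul_assoc]
    congr 1
    rw [Iuv, ← integral_const_mul]
    refine setIntegral_congr_fun measurableSet_ball fun t ht => ?_
    exact hinner t ht
  obtain ⟨e2, e3⟩ := pow_cov hq hR hhi
  rw [e1, e3]
  -- the product integral
  have hpd : ∀ p ∈ pd R R', kap D x a b *
      (f' (dF K Φ (HH D x a b u v V δ q q' ψ) p) *
      (fderiv ℝ (dF K Φ (HH D x a b u v V δ q q' ψ)) p).det) =
      ‖(q : ℂ) * p.1 ^ (q - 1)‖ ^ 2 * G (p.1 ^ q) p.2 := by
    intro p hp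
    have hp1 : p.1 ∈ closedBall (0 : ℂ) R := ball_subset_closedBall hp.1
    have hp2 : p.2 ∈ closedBall (0 : ℂ) R' := ball_subset_closedBall hp.2
    have j1 := FF_jac (Φ := Φ) (K := K) (δ := δ) (a := a) hu hv hV (hpow _ hp1) (hψ2 _ (hV₁R hp2))
      (hψd' _ hp2) ((hΦ.differentiableOn (by simp)).differentiableAt
        (hV₀.mem_nhds (hV₀R hp1))) hab hVb
      (by
        filter_upwards [isOpen_ball.mem_nhds hp.1] with z hz
        exact hΦK z (ball_subset_closedBall hz))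
      (by
        filter_upwards [isOpen_ball.mem_nhds hp.2] with c hc
        exact hψK c (ball_subset_closedBall hc))
    have j2 : f' (dF K Φ (HH D x a b u v V δ q q' ψ) p) =
        f (push u V δ (p.1 ^ q) - v (ψ p.2 ^ q')) := by
      have := FF_eq (Φ := Φ) (K := K) (δ := δ) hab hVb (hΦK _ hp1) (hψK _ hp2)
      rw [hf']
      simp only
      rw [← this]
      rfl
    rw [mul_left_comm, j1, j2]
    simp only [hGdef]
    ring
  have hpi : IntegrableOn (fun p : ℂ × ℂ => ‖(q : ℂ) * p.1 ^ (q - 1)‖ ^ 2 * G (p.1 ^ q) p.2)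
      (pd R R') := by
    have h1 : ContinuousOn (fun p : ℂ × ℂ => ‖(q : ℂ) * p.1 ^ (q - 1)‖ ^ 2 * G (p.1 ^ q) p.2)
        (closedBall (0 : ℂ) R ×ˢ closedBall (0 : ℂ) R') := by
      refine ContinuousOn.mul (by fun_prop) ?_
      refine hGc.comp (f := fun p : ℂ × ℂ => (p.1 ^ q, p.2)) (by fun_prop) ?_
      intro p hp
      refine ⟨?_, hp.2⟩
      have := hp.1
      rw [mem_closedBall_zero_iff] at this ⊢
      change ‖p.1 ^ q‖ ≤ R ^ q
      rw [norm_pow]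
      exact pow_le_pow_left₀ (norm_nonneg _) this q
    exact (h1.integrableOn_compact
      ((isCompact_closedBall _ _).prod (isCompact_closedBall _ _))).mono_set
      (prod_mono ball_subset_closedBall ball_subset_closedBall)
  rw [← integral_const_mul, setIntegral_congr_fun (pd_open R R').measurableSet hpd]
  unfold pd at hpi ⊢
  rw [Measure.volume_eq_prod, setIntegral_prod _ hpi]
  refine setIntegral_congr_fun measurableSet_ball fun z _ => ?_
  simp only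
  rw [integral_const_mul]

end

end Vale.Agent.P247.H710.LWI
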