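import Vale.Agent.P247.H710.Count

/-!
# P247, layer C: `COUNT` from a weaker form of `VF`

In `RegS` the discs cover `K` near `x` at every scale.
-/

open scoped ContDiff Topology
open Set MeasureTheory Filter Metric

noncomputable section

namespace Vale.Agent.P247.H710

open Vale.Agent.P247.H74 Vale.Agent.P247.H574

attribute [local instance] f2G f2S f1G f1S

/-- A regular point: `K` is near `x` an embedded `J`-disc on which `θ` has no zeros. -/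
def RegS (D : Data) (K : Set R4) (θ : R4 → R4 →L[ℝ] ℂ) (x : R4) : Prop :=
  ∃ r > 0, ∃ (u : ℂ → R4) (h : ℂ → ℂ), ContDiffOn ℝ ∞ u (ball 0 r) ∧ u 0 = x ∧
    InjOn u (ball 0 r) ∧
    (∀ δ > 0, ∃ ε > 0, ∀ y ∈ ball x ε, y ∈ K → ∃ z ∈ ball (0 : ℂ) δ, u z = y) ∧
    DifferentiableOn ℂ h (ball 0 r) ∧
    ∀ z ∈ ball (0 : ℂ) r, u z ∈ K ∧ fderiv ℝ u z 1 ≠ 0 ∧
      fderiv ℝ u z Complex.I = D.J (u z) (fderiv ℝ u z 1) ∧ h z ≠ 0 ∧
      θ (u z) (fderiv ℝ u z 1) = h z ∧ θ (u z) (fderiv ℝ u z Complex.I) = Complex.I * h z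

/-- `VF` with `RegS` instead of `Reg`. -/
def VF2_statement : Prop := ∀ (D : Data) (K : Set R4) (θ : R4 → R4 →L[ℝ] ℂ), IsClosed K →
  (∀ (k : Fin 4 → ℤ) x, x ∈ K → tr k x ∈ K) →
  (∀ x ∈ K, ∃ (N : ℕ) (u : Fin N → ℂ → R4) (ε : ℝ), Brs D K x N u ε) → HolDiff D K θ →
  ∀ (P : Finset R4) (N : R4 → ℕ) (u : ∀ p, Fin (N p) → ℂ → R4) (ε : R4 → ℝ) (b : R4 → R4)
    (h : ∀ p, Fin (N p) → ℂ → ℂ) (r : ℝ),
  (∀ p ∈ P, p ∈ K ∧ Brs D K p (N p) (u p) (ε p) ∧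
    ∀ l, H58.LW.Trans D p (u p l) (b p)) → 0 < r →
  (∀ p ∈ P, ∀ q ∈ P, ∀ k : Fin 4 → ℤ, p = tr k q → p = q ∧ k = 0) →
  (∀ p ∈ P, ∀ l, DifferentiableOn ℂ (h p l) (ball 0 r) ∧ ∀ z ∈ ball (0 : ℂ) r, z ≠ 0 →
    h p l z ≠ 0 ∧ θ (u p l z) (fderiv ℝ (u p l) z 1) = h p l z ∧
    θ (u p l z) (fderiv ℝ (u p l) z Complex.I) = Complex.I * h p l z) →
  (∀ x ∈ K, RegS D K θ x ∨ ∃ p ∈ P, ∃ k : Fin 4 → ℤ, x = tr k p) →
  ∀ᶠ ρ in 𝓝[>] (0 : ℝ), ∃ V : R4 → R4, ContDiff ℝ ∞ V ∧ (∀ (k : Fin 4 → ℤ) x, V (tr k x) = V x) ∧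
    (∀ p ∈ P, ∀ l, ∀ z ∈ closedBall (0 : ℂ) ρ, ∃ w : ℂ, V (u p l z) = cm D p w (b p)) ∧
    (∀ p ∈ P, ∀ l, ∀ z ∈ sphere (0 : ℂ) ρ,
      Om D (u p l z) (fderiv ℝ (u p l) z 1) (V (u p l z)) = h p l z) ∧
    ∃ c > 0, ∃ d₀ > 0, ∀ d, 0 < d → d ≤ d₀ → ∀ x ∈ Out K P N u ρ, ∀ y ∈ K,
      c * d ≤ dist (x + d • V x) y

variable {D : Data} {K : Set R4} {x : R4} {N : ℕ} {u : Fin N → ℂ → R4} {ε : ℝ}

/-- points near `x` other than `x` are regular -/
theorem regS_near {θ : R4 → R4 →L[ℝ] ℂ} (hθ : HolDiff D K θ) (hxK : x ∈ K)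
    (hB : Brs D K x N u ε) :
    ∃ δ > 0, ∀ y ∈ ball x δ, y ∈ K → y ≠ x → RegS D K θ y := by
  choose rl hrl h hh1 hh2 hh3 using hθ.hol x hxK N u ε hB
  obtain ⟨r, hr0, hr1, hr2⟩ : ∃ r > 0, r ≤ 1 ∧ ∀ l, r ≤ rl l := by
    have hN : (Finset.univ : Finset (Fin N)).Nonempty := ⟨⟨0, hB.posN⟩, Finset.mem_univ _⟩
    refine ⟨min 1 (Finset.univ.inf' hN rl), ?_, min_le_left _ _, fun l => ?_⟩
    · refine lt_min one_pos ?_
      rw [Finset.lt_inf'_iff]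
      exact fun l _ => hrl l
    · exact (min_le_right _ _).trans (Finset.inf'_le _ (Finset.mem_univ l))
  obtain ⟨δ, hδ0, hδ1, hδ2⟩ := brs_cov hB hr0
  refine ⟨δ, hδ0, fun y hy hyK hyx => ?_⟩
  obtain ⟨l, z₀, hz₀r, hz₀1, hzy⟩ := hδ2 y hy hyK
  have h0 : z₀ ≠ 0 := by
    intro h0
    apply hyx
    rw [← hzy, h0]
    exact hB.zero l
  -- the radius of the disc around `z₀`
  obtain ⟨s, hs0, hs1, hs2⟩ : ∃ s > 0, s ≤ ‖z₀‖ ∧ ‖z₀‖ + s ≤ r := by
    refine ⟨min ‖z₀‖ (r - ‖z₀‖), lt_min (norm_pos_iff.2 h0) (by linarith), min_le_left _ _, ?_⟩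
    have := min_le_right ‖z₀‖ (r - ‖z₀‖)
    linarith
  have hin : ∀ w ∈ ball (0 : ℂ) s, z₀ + w ≠ 0 ∧ ‖z₀ + w‖ < r := by
    intro w hw
    rw [mem_ball_zero_iff] at hw
    constructor
    · intro h1
      have : ‖z₀‖ = ‖w‖ := by
        have h2 : z₀ = -w := eq_neg_of_add_eq_zero_left h1
        rw [h2, norm_neg]
      linarith
    · calc ‖z₀ + w‖ ≤ ‖z₀‖ + ‖w‖ := norm_add_le _ _
        _ < r := by linarith
  have hin2 : ∀ w ∈ ball (0 : ℂ) s, z₀ + w ∈ ball (0 : ℂ) 2 := fun w hw => by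
    rw [mem_ball_zero_iff]
    have := (hin w hw).2
    linarith
  have hdist : dist (u l z₀) x < ε := by
    rw [hzy]
    exact lt_of_lt_of_le hy hδ1
  have hfd : ∀ w, fderiv ℝ (fun w => u l (z₀ + w)) w = fderiv ℝ (u l) (z₀ + w) := by
    intro w
    exact fderiv_comp_add_left (𝕜 := ℝ) z₀
  refine ⟨s, hs0, fun w => u l (z₀ + w), fun w => h l (z₀ + w), ?_, ?_, ?_, ?_, ?_, ?_⟩
  · refine ((hB.disc l).smooth).comp (contDiff_const.add contDiff_id).contDiffOn ?_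
    exact fun w hw => hin2 w hw
  · show u l (z₀ + 0) = y
    rw [add_zero]; exact hzy
  · intro w hw w' hw' heq
    rcases hB.inj l l _ (hin2 w hw) _ (hin2 w' hw') heq with h1 | h1
    · exact add_left_cancel h1.2
    · exact absurd h1.1 (hin w hw).1
  · intro δ' hδ'
    obtain ⟨ε', hε', hcov⟩ := brs_local hB l hz₀1 h0 hdist hδ'
    refine ⟨ε', hε', fun y' hy' hK' => ?_⟩
    rw [← hzy] at hy'
    obtain ⟨w, hw, hwy⟩ := hcov y' hy' hK'
    exact ⟨w, by rwa [mem_ball_zero_iff], hwy⟩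
  · intro w hw
    have h1 : DifferentiableAt ℂ (h l) (z₀ + w) := by
      refine (hh1 l).differentiableAt (isOpen_ball.mem_nhds ?_)
      rw [mem_ball_zero_iff]
      exact lt_of_lt_of_le (hin w hw).2 (hr2 l)
    exact (h1.comp w (by fun_prop)).differentiableWithinAt
  · intro w hw
    have hb : z₀ + w ∈ ball (0 : ℂ) (rl l) := by
      rw [mem_ball_zero_iff]
      exact lt_of_lt_of_le (hin w hw).2 (hr2 l)
    rw [hfd]
    refine ⟨hB.mem l _ (hin2 w hw), hB.imm l _ (hin2 w hw) (hin w hw).1,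
      (hB.disc l).hol _ (hin2 w hw), hh2 l _ hb (hin w hw).1, ?_, ?_⟩
    · exact (hh3 l _ hb (Or.inl (hin w hw).1)).1
    · exact (hh3 l _ hb (Or.inl (hin w hw).1)).2

/-- translation invariance of regular points -/
theorem regS_tr {θ : R4 → R4 →L[ℝ] ℂ} (hθ : HolDiff D K θ)
    (hKt : ∀ (k : Fin 4 → ℤ) x, x ∈ K → tr k x ∈ K) (h : RegS D K θ x) (k : Fin 4 → ℤ) :
    RegS D K θ (tr k x) := by
  obtain ⟨r, hr, u, h, h1, h2, h3, h4, h5, h6⟩ := h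
  have e1 : (fun z => tr k (u z)) = fun z => u z + fun i => (k i : ℝ) := by
    funext z; exact tr_sub k (u z)
  have hfd : ∀ z, fderiv ℝ (fun z => tr k (u z)) z = fderiv ℝ u z := by
    intro z
    rw [e1, fderiv_add_const]
  have hdist : ∀ a b : R4, dist (tr k a) (tr k b) = dist a b := by
    intro a b
    rw [tr_sub, tr_sub, dist_add_right]
  refine ⟨r, hr, fun z => tr k (u z), h, ?_, ?_, ?_, ?_, h5, ?_⟩
  · exact (tr_contDiff k).comp_contDiffOn h1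
  · show tr k (u 0) = tr k x
    rw [h2]
  · intro z hz z' hz' heq
    apply h3 hz hz'
    have := congrArg (tr (-k)) heq
    rwa [tr_neg_cancel', tr_neg_cancel'] at this
  · intro δ hδ
    obtain ⟨ε, hε, h4⟩ := h4 δ hδ
    refine ⟨ε, hε, fun y hy hK => ?_⟩
    have h7 : tr (-k) y ∈ ball x ε := by
      rw [mem_ball, ← hdist, tr_neg_cancel]
      exact hy
    obtain ⟨z, hz, hzy⟩ := h4 _ h7 (hKt _ _ hK)
    exact ⟨z, hz, by show tr k (u z) = y; rw [hzy, tr_neg_cancel]⟩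
  · intro z hz
    obtain ⟨a1, a2, a3, a4, a5, a6⟩ := h6 z hz
    rw [hfd]
    refine ⟨hKt _ _ a1, a2, ?_, a4, ?_, ?_⟩
    · have : D.J (tr k (u z)) = D.J (u z) := D.J_per k (u z)
      rw [this]; exact a3
    · rw [hθ.per]; exact a5
    · rw [hθ.per]; exact a6

/-- finitely many special points modulo the lattice, one of them prescribed -/
theorem exists_specialS (hK : IsClosed K) (hKt : ∀ (k : Fin 4 → ℤ) x, x ∈ K → tr k x ∈ K)
    (hloc : ∀ x ∈ K, ∃ (N : ℕ) (u : Fin N → ℂ → R4) (ε : ℝ), Brs D K x N u ε)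
    {θ : R4 → R4 →L[ℝ] ℂ} (hθ : HolDiff D K θ) {x₀ : R4} (hx₀ : x₀ ∈ K) :
    ∃ P : Finset R4, x₀ ∈ P ∧ (∀ p ∈ P, p ∈ K) ∧
      (∀ p ∈ P, ∀ q ∈ P, ∀ k : Fin 4 → ℤ, p = tr k q → p = q ∧ k = 0) ∧
      ∀ x ∈ K, RegS D K θ x ∨ ∃ p ∈ P, ∃ k : Fin 4 → ℤ, x = tr k p := by
  classical
  set C : Set R4 := {x | (∀ i, x i ∈ Ico (0 : ℝ) 1) ∧ x ∈ K ∧ ¬ RegS D K θ x} with hC
  have hfin : C.Finite := by
    by_contra hinf
    have hCinf : C.Infinite := hinf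
    have hsub : C ⊆ Icc (0 : R4) 1 := fun x hx =>
      ⟨fun i => (hx.1 i).1, fun i => (hx.1 i).2.le⟩
    obtain ⟨y, -, hy⟩ := hCinf.exists_accPt_of_subset_isCompact isCompact_Icc hsub
    rw [accPt_iff_nhds] at hy
    have hyK : y ∈ K := by
      have h1 : y ∈ closure C := by
        rw [mem_closure_iff_nhds]
        intro t ht
        obtain ⟨z, hz, -⟩ := hy t ht
        exact ⟨z, hz⟩
      have h2 : closure C ⊆ K := closure_minimal (fun x hx => hx.2.1) hK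
      exact h2 h1
    obtain ⟨N, u, ε, hB⟩ := hloc y hyK
    obtain ⟨δ, hδ, hreg⟩ := regS_near hθ hyK hB
    obtain ⟨z, hz, hzy⟩ := hy (ball y δ) (ball_mem_nhds y hδ)
    exact hz.2.2.2 (hreg z hz.1 hz.2.2.1 hzy)
  set P₀ : Finset R4 := hfin.toFinset with hP₀
  set Q : Finset R4 := P₀.filter (fun p => ∀ k : Fin 4 → ℤ, x₀ ≠ tr k p) with hQ
  have hmem : ∀ p ∈ P₀, p ∈ C := fun p hp => hfin.mem_toFinset.1 hp
  refine ⟨insert x₀ Q, Finset.mem_insert_self _ _, ?_, ?_, ?_⟩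
  · intro p hp
    rcases Finset.mem_insert.1 hp with h | h
    · rw [h]; exact hx₀
    · exact (hmem p (Finset.mem_filter.1 h).1).2.1
  · -- distinctness
    have hkey : ∀ p q : R4, (∀ i, p i ∈ Ico (0 : ℝ) 1) → (∀ i, q i ∈ Ico (0 : ℝ) 1) →
        ∀ k : Fin 4 → ℤ, p = tr k q → k = 0 := by
      intro p q hp hq k hpq
      funext i
      have h1 : p i = q i + k i := by rw [hpq]; rfl
      have h2 := hp i
      have h3 := hq i
      have h4 : (-1 : ℝ) < k i := by have := h2.1; have := h3.2; linarith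
      have h5 : (k i : ℝ) < 1 := by have := h2.2; have := h3.1; linarith
      have h6 : (-1 : ℤ) < k i := by exact_mod_cast h4
      have h7 : k i < (1 : ℤ) := by exact_mod_cast h5
      simp only [Pi.zero_apply]
      omega
    intro p hp q hq k hpq
    rcases Finset.mem_insert.1 hp with h1 | h1 <;> rcases Finset.mem_insert.1 hq with h2 | h2
    · refine ⟨by rw [h1, h2], ?_⟩
      rw [h1, h2] at hpq
      funext i
      have h3 : x₀ i = x₀ i + k i := by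
        have := congrFun hpq i
        exact this
      have h4 : (k i : ℝ) = 0 := by linarith
      exact_mod_cast h4
    · exfalso
      rw [h1] at hpq
      exact (Finset.mem_filter.1 h2).2 k hpq
    · exfalso
      rw [h2] at hpq
      refine (Finset.mem_filter.1 h1).2 (-k) ?_
      rw [hpq, tr_neg_cancel']
    · have hk := hkey p q (hmem p (Finset.mem_filter.1 h1).1).1
        (hmem q (Finset.mem_filter.1 h2).1).1 k hpq
      refine ⟨?_, hk⟩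
      rw [hpq, hk, tr_zero]
  · intro x hx
    by_cases hR : RegS D K θ x
    · exact Or.inl hR
    · right
      obtain ⟨k, hk⟩ := exists_tr_mem x
      have hxC : tr k x ∈ C := by
        refine ⟨hk, hKt _ _ hx, fun hR' => hR ?_⟩
        have := regS_tr hθ hKt hR' (-k)
        rwa [tr_neg_cancel'] at this
      have hxP : tr k x ∈ P₀ := hfin.mem_toFinset.2 hxC
      by_cases hq : ∀ j : Fin 4 → ℤ, x₀ ≠ tr j (tr k x)
      · refine ⟨tr k x, Finset.mem_insert_of_mem (Finset.mem_filter.2 ⟨hxP, hq⟩), -k, ?_⟩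
        rw [tr_neg_cancel']
      · push Not at hq
        obtain ⟨j, hj⟩ := hq
        refine ⟨x₀, Finset.mem_insert_self _ _, -(j + k), ?_⟩
        rw [hj, tr_tr j k, tr_neg_cancel']

/-- all points of the support have one immersed branch, on which the form does not vanish -/
theorem no_special2 (hVF : VF2_statement) (hLW : H58.LW.LW_statement) {D : Data} (hG : Good D)
    {S : ICur D} {θ : R4 → R4 →L[ℝ] ℂ} (hθ : HolDiff D S.supp θ)
    (dat : Dat S θ) {x₀ : R4} (hx₀ : x₀ ∈ S.supp) :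
    dat.N x₀ = 1 ∧ (∀ l, fderiv ℝ (dat.u x₀ l) 0 1 ≠ 0) ∧ ∀ l, dat.h x₀ l 0 ≠ 0 := by
  classical
  have hKc := H690.END.supp_closed S
  have hKt : ∀ (k : Fin 4 → ℤ) x, x ∈ S.supp → tr k x ∈ S.supp := fun k x hx =>
    H690.END.supp_tr S hx k
  have hloc : ∀ x ∈ S.supp, ∃ (N : ℕ) (u : Fin N → ℂ → R4) (ε : ℝ), Brs D S.supp x N u ε :=
    fun x hx => ⟨_, _, _, dat.brs x hx⟩
  obtain ⟨P, hxP, hPK, hPd, hPc⟩ := exists_specialS hKc hKt hloc hθ hx₀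
  -- constants
  obtain ⟨η₁, hη₁, hsep⟩ := exists_sep P hPd
  obtain ⟨εm, hεm, hεm'⟩ := exists_min P dat.ε fun p hp => (dat.brs p (hPK p hp)).posε
  obtain ⟨r, hr, hr'⟩ := exists_min P dat.r fun p _ => dat.rpos p
  set η : ℝ := min (η₁ / 2) (εm / 4) with hηdef
  have hη : 0 < η := lt_min (by linarith) (by linarith)
  have hη1 : 2 * η ≤ η₁ := by have := min_le_left (η₁ / 2) (εm / 4); linarith
  have hη2 : 4 * η ≤ εm := by have := min_le_right (η₁ / 2) (εm / 4); linarith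
  -- the vector fields
  have hVF' := hVF D S.supp θ hKc hKt hloc hθ P dat.N dat.u dat.ε dat.b dat.h r
    (fun p hp => ⟨hPK p hp, dat.brs p (hPK p hp), dat.trans p (hPK p hp)⟩) hr hPd
    (by
      intro p hp l
      obtain ⟨h1, h2, h3⟩ := dat.hol p (hPK p hp) l
      have hsub : ball (0 : ℂ) r ⊆ ball 0 (dat.r p) := ball_subset_ball (hr' p hp)
      exact ⟨h1.mono hsub, fun z hz h0 => ⟨h2 z (hsub hz) h0, h3 z (hsub hz) (Or.inl h0)⟩⟩) hPc
  -- the local contributions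
  have hLW' : ∀ p ∈ P, _ := fun p hp => hLW D hG S.supp p (dat.N p) (dat.u p) (dat.ε p)
    (dat.brs p (hPK p hp)) (dat.b p) (dat.trans p (hPK p hp))
  have hwind : ∀ (p : R4) (l : Fin (dat.N p)), ∃ n : ℕ, p ∈ S.supp → (n = 0 → dat.h p l 0 ≠ 0) ∧
      ∀ᶠ ρ in 𝓝[>] (0 : ℝ), HasWinding (dat.h p l) 0 ρ n := by
    intro p l
    by_cases hp : p ∈ S.supp
    · obtain ⟨n, hn⟩ := winding_hol (dat.rpos p) (dat.hol p hp l).1 (dat.hol p hp l).2.1
      exact ⟨n, fun _ => hn⟩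
    · exact ⟨0, fun h => absurd h hp⟩
  choose n hn using hwind
  have hcont : ∀ p ∈ P, ∀ l, ∀ᶠ ρ in 𝓝[>] (0 : ℝ), ∀ z ∈ ball (0 : ℂ) ρ,
      dist (dat.u p l z) p < η / 4 := by
    intro p hp l
    have hB := dat.brs p (hPK p hp)
    have h1 : ContinuousAt (dat.u p l) 0 :=
      (brs_cont hB l).continuousAt (ball_mem_nhds 0 (by norm_num))
    have h2 := Metric.continuousAt_iff.1 h1 (η / 4) (by linarith)
    obtain ⟨s, hs, h3⟩ := h2
    filter_upwards [Ioo_mem_nhdsGT hs] with ρ hρ z hz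
    rw [hB.zero l] at h3
    exact h3 (lt_trans hz hρ.2)
  have hall1 : ∀ᶠ ρ in 𝓝[>] (0 : ℝ), 0 < ρ ∧ ρ < 1 := Ioo_mem_nhdsGT one_pos
  have hall2 : ∀ᶠ ρ in 𝓝[>] (0 : ℝ), ∀ p ∈ P, ∀ l, HasWinding (dat.h p l) 0 ρ (n p l) :=
    (Filter.eventually_all_finset P).2 fun p hp =>
      Filter.eventually_all.2 fun l => (hn p l (hPK p hp)).2
  have hall3 : ∀ᶠ ρ in 𝓝[>] (0 : ℝ), ∀ p ∈ P, ∀ l, ∀ z ∈ ball (0 : ℂ) ρ,
      dist (dat.u p l z) p < η / 4 :=
    (Filter.eventually_all_finset P).2 fun p hp => Filter.eventually_all.2 fun l => hcont p hp l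
  have hall4 := (Filter.eventually_all_finset P).2 hLW'
  obtain ⟨ρ, ⟨V, hVs, hVp, hVv, hVb, c, hc, d₀, hd₀, hVd⟩, hLWρ, hw, hsm, hρ0, hρ1⟩ :=
    (hVF'.and (hall4.and (hall2.and (hall3.and hall1)))).exists
  have hV : IsPer V := ⟨hVs, hVp⟩
  -- the local numbers
  have hM : ∀ p : R4, ∃ Mp : ℝ, p ∈ P → 0 ≤ Mp ∧
      (Mp = 0 → dat.N p = 1 ∧ (∀ l, fderiv ℝ (dat.u p l) 0 1 ≠ 0) ∧ ∀ l, n p l = 0) ∧
      ∀ᶠ δ in 𝓝[>] (0 : ℝ), ∃ ε₀ > 0, ∀ f : R4 → ℝ, Continuous f → tsupport f ⊆ ball 0 ε₀ →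
        ∑ l, ∑ j, (dat.m p l : ℝ) * (dat.m p j : ℝ) *
          Iv (dat.u p l) (dat.u p j) (fun x => δ • V x) ρ f = Mp * ∫ y, f y := by
    intro p
    by_cases hp : p ∈ P
    swap
    · exact ⟨0, fun h => absurd h hp⟩
    have hpK := hPK p hp
    have hB := dat.brs p hpK
    -- a transversal vector
    obtain ⟨a, ha⟩ : ∃ a, Om D p a (dat.b p) ≠ 0 := by
      obtain ⟨c', hc', hev⟩ := dat.trans p hpK ⟨0, hB.posN⟩
      have h1 : ∀ᶠ z in 𝓝[≠] (0 : ℂ), z ∈ ball (0 : ℂ) 2 :=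
        mem_nhdsWithin_of_mem_nhds (ball_mem_nhds (0 : ℂ) two_pos)
      have h1' : ∀ᶠ z in 𝓝[≠] (0 : ℂ), z ≠ 0 := self_mem_nhdsWithin
      have h2 := h1.and h1'
      obtain ⟨z, hz1, hz2, hz3⟩ := (hev.and h2).exists
      refine ⟨fderiv ℝ (dat.u p ⟨0, hB.posN⟩) z 1, fun h0 => ?_⟩
      rw [h0, norm_zero] at hz1
      have h3 := hB.imm ⟨0, hB.posN⟩ z hz2 hz3
      have h4 : 0 < ‖fderiv ℝ (dat.u p ⟨0, hB.posN⟩) z 1‖ := norm_pos_iff.2 h3
      have h5 := mul_pos hc' h4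
      linarith
    set v : R4 → ℂ := vcoord D p a (dat.b p) V with hv
    have hvs : ContDiff ℝ ∞ v := vcoord_smooth D p a (dat.b p) hVs
    have hvV : ∀ l, ∀ z ∈ closedBall (0 : ℂ) ρ, cm D p (v (dat.u p l z)) (dat.b p) =
        V (dat.u p l z) := by
      intro l z hz
      obtain ⟨w, hw'⟩ := hVv p hp l z hz
      exact vcoord_spec D ha hw'
    have hwp : ∀ l, HasWinding (fun t => Om D (dat.u p l t) (fderiv ℝ (dat.u p l) t 1)
        (cm D p (v (dat.u p l t)) (dat.b p))) 0 ρ ((n p l : ℕ) : ℤ) := by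
      intro l
      obtain ⟨G, hG1, hG2⟩ := hw p hp l
      refine ⟨G, hG1, fun z hz => ?_⟩
      show Om D (dat.u p l z) (fderiv ℝ (dat.u p l) z 1) (cm D p (v (dat.u p l z)) (dat.b p)) = _
      rw [hvV l z (sphere_subset_closedBall hz), hVb p hp l z hz, hG2 z hz]
    obtain ⟨Mp, hMp0, hMp1, hMp2⟩ := hLWρ p hp (dat.m p) (dat.one p hpK) v hvs
      (fun l => ((n p l : ℕ) : ℤ)) (fun l => by positivity) hwp
    refine ⟨Mp, fun _ => ⟨hMp0, fun h0 => ?_, ?_⟩⟩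
    · obtain ⟨k1, k2, k3⟩ := hMp1 h0
      exact ⟨k1, k2, fun l => by exact_mod_cast k3 l⟩
    · filter_upwards [hMp2] with δ hδ
      obtain ⟨ε₀, hε₀, hf⟩ := hδ
      refine ⟨ε₀, hε₀, fun f hfc hfs => ?_⟩
      rw [← hf f hfc hfs]
      refine Finset.sum_congr rfl fun l _ => Finset.sum_congr rfl fun j _ => ?_
      rw [Iv_eq hV (by linarith) (hB.disc l).smooth fun z hz => ?_]
      exact hvV l z (ball_subset_closedBall hz)
  choose Mp hMp using hM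
  obtain ⟨B, hB0, hB⟩ := per_bdd hV
  -- the size of the displacement
  have hδ1 : ∀ᶠ δ in 𝓝[>] (0 : ℝ), 0 < δ ∧ δ < min d₀ (η / (4 * B)) :=
    Ioo_mem_nhdsGT (lt_min hd₀ (by positivity))
  have hδ2 := (Filter.eventually_all_finset P).2 fun p hp => (hMp p hp).2.2
  obtain ⟨δ, hδ, hδ0, hδm⟩ := (hδ2.and hδ1).exists
  have hδd : δ ≤ d₀ := (hδm.trans_le (min_le_left _ _)).le
  have hδB : δ * B ≤ η / 4 := by
    have h1 : δ < η / (4 * B) := hδm.trans_le (min_le_right _ _)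
    rw [lt_div_iff₀ (by positivity)] at h1
    linarith
  have hε₀ : ∀ p : R4, ∃ ε₀ : ℝ, 0 < ε₀ ∧ (p ∈ P → ∀ f : R4 → ℝ, Continuous f →
      tsupport f ⊆ ball 0 ε₀ → ∑ l, ∑ j, (dat.m p l : ℝ) * (dat.m p j : ℝ) *
        Iv (dat.u p l) (dat.u p j) (fun x => δ • V x) ρ f = Mp p * ∫ y, f y) := by
    intro p
    by_cases hp : p ∈ P
    · obtain ⟨ε₀, h1, h2⟩ := hδ p hp
      exact ⟨ε₀, h1, fun _ => h2⟩
    · exact ⟨1, one_pos, fun h => absurd h hp⟩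
  choose ε₀ hε₀0 hε₀1 using hε₀
  obtain ⟨εq, hεq, hεq'⟩ := exists_min P ε₀ fun p _ => hε₀0 p
  -- the size of the kernel
  obtain ⟨M, hMlt⟩ := exists_nat_gt (1 / min εq (min (c * δ) (η / 4)))
  have hmpos : 0 < min εq (min (c * δ) (η / 4)) :=
    lt_min hεq (lt_min (mul_pos hc hδ0) (by linarith))
  have hMpos' : (0 : ℝ) < M := lt_trans (by positivity) hMlt
  have hMpos : 0 < M := by exact_mod_cast hMpos'
  have hM1 : 1 / (M : ℝ) < min εq (min (c * δ) (η / 4)) := by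
    rw [div_lt_iff₀ hMpos']
    rw [div_lt_iff₀ hmpos] at hMlt
    linarith
  have hMa : 1 / (M : ℝ) < εq := hM1.trans_le (min_le_left _ _)
  have hMb : 1 / (M : ℝ) < c * δ := hM1.trans_le ((min_le_right _ _).trans (min_le_left _ _))
  have hMc : 1 / (M : ℝ) < η / 4 := hM1.trans_le ((min_le_right _ _).trans (min_le_right _ _))
  have hzero := sum_zero dat hPK hη
    (fun p hp q hq k hk => hsep p hp q hq k (lt_of_lt_of_le hk hη1))
    (fun p hp => hη2.trans (hεm' p hp)) hρ0 hρ1.le hsm (isPer_smul hV δ)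
    (fun x => by
      rw [norm_smul, Real.norm_eq_abs, abs_of_pos hδ0]
      exact (mul_le_mul_of_nonneg_left (hB x) hδ0.le).trans hδB) hMpos hMc.le
    (fun x hx y hy => hMb.le.trans (hVd δ hδ0 hδd x hx y hy))
  have hker : tsupport (ker M) ⊆ closedBall 0 (1 / (M : ℝ)) := by
    apply closure_minimal _ isClosed_closedBall
    intro z hz
    rw [mem_closedBall_zero_iff]
    by_contra hcon
    push Not at hcon
    exact hz (ker_zero_of hMpos hcon.le)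
  have hsum : ∑ p ∈ P, Mp p * ∫ y, ker M y = 0 := by
    rw [← hzero]
    refine Finset.sum_congr rfl fun p hp => ?_
    rw [hε₀1 p hp (ker M) (ker_smooth M).continuous
      (hker.trans (closedBall_subset_ball (hMa.trans_le (hεq' p hp))))]
  rw [← Finset.sum_mul] at hsum
  have hsum2 : ∑ p ∈ P, Mp p = 0 :=
    (mul_eq_zero.1 hsum).resolve_right (ker_integral_pos hMpos).ne'
  have h0 := (Finset.sum_eq_zero_iff_of_nonneg fun p hp => (hMp p hp).1).1 hsum2 x₀ hxP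
  obtain ⟨k1, k2, k3⟩ := (hMp x₀ hxP).2.1 h0
  exact ⟨k1, k2, fun l => (hn x₀ l hx₀).1 (k3 l)⟩

/-- **COUNT**, from `VF2` and the local inequality. -/
theorem COUNTX2 : MASS_statement → H58.LW.TRV_statement → VF2_statement →
    H58.LW.LW_statement → COUNT_statement := by
  intro _ hTRV hVF hLW D hG S hLS θ hθ
  obtain ⟨dat⟩ := exists_dat hTRV S hLS hθ
  refine ⟨fun x _ k => hθ.per k x, fun x hx => ?_⟩
  obtain ⟨h1, h2, h3⟩ := no_special2 hVF hLW hG hθ dat hx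
  exact form_point dat hx h1 h2 h3

end Vale.Agent.P247.H710
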